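import Vale.Agent.P204.Full.Flat

/-!
P204, analytic heart (steps 4-5): definitions on the model space.

A chart carries a frame `P`; the complex structure is `P J0 P⁻¹` and the metric is `(P Pᵀ)⁻¹`.
Frame components of a two-form `w` are `pullC (P x) w`, of a one-form `α` they are `Pᵀ α`.
-/

namespace Vale.Agent.P204.Heart

open MeasureTheory Vale.Agent.P204.Full
open scoped ContDiff

/-- a smooth positively oriented frame on the model space -/
structure Frame where
  P : E4 → Matrix (Fin 4) (Fin 4) ℝ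
  smooth : ∀ i j, ContDiff ℝ ∞ (fun x => P x i j)
  det_pos : ∀ x, 0 < (P x).det

/-- closed ball of radius `r` at the origin -/
abbrev cb (r : ℝ) : Set E4 := Metric.closedBall (0 : E4) r

/-- open ball of radius `r` at the origin -/
abbrev ob (r : ℝ) : Set E4 := Metric.ball (0 : E4) r

/-- the cutoff: one on `cb 3`, zero outside `ob 4` -/
noncomputable def bump34 : ContDiffBump (0 : E4) where
  rIn := 3
  rOut := 4
  rIn_pos := by norm_num
  rIn_lt_rOut := by norm_num

/-- frame components of a one-form at a point -/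
noncomputable def frC (F : Frame) (x : E4) (u : C1) : C1 := (F.P x).transpose.mulVec u

/-- differential of a scalar function -/
noncomputable def dd (f : E4 → ℝ) (x : E4) : C1 := fun i => pd f i x

/-- trace of a two-form given in frame components -/
def tr11 (b : C2) : ℝ := b 0 1 + b 2 3

/-- size of the invariant part, frame components -/
def n11 (b : C2) : ℝ := |b 0 1| + |b 2 3| + |b 0 2 + b 1 3| + |b 0 3 - b 1 2|

/-- size of the anti-invariant part, frame components -/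
def nM (b : C2) : ℝ := |b 0 2 - b 1 3| + |b 0 3 + b 1 2|

/-- semipositive invariant two-form, frame components -/
def Semipos (b : C2) : Prop :=
  Anti b ∧ b 0 2 = b 1 3 ∧ b 0 3 = -b 1 2 ∧ 0 ≤ b 0 1 ∧ 0 ≤ b 2 3 ∧
    b 0 2 ^ 2 + b 0 3 ^ 2 ≤ b 0 1 * b 2 3

/-- the bilinear form `u ∧ J w ∧ b`, frame components -/
def qH (b : C2) (u w : C1) : ℝ := wdg (wedge11 u (J0.mulVec w)) b

/-- squared length of a covector in frame components -/
def sq (u : C1) : ℝ := ∑ i, u i ^ 2

/-- normalising constant of the kernel -/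
noncomputable def mc : ℝ := ∫ w : E4, 8 / (1 + ‖w‖ ^ 2) ^ 3

/-- squared length in the metric frozen at `y` -/
noncomputable def qf (F : Frame) (y z : E4) : ℝ := ∑ i, ((F.P y)⁻¹.mulVec z.ofLp) i ^ 2

/-- frozen regularised Newton kernel -/
noncomputable def nker (F : Frame) (σ : ℝ) (y z : E4) : ℝ :=
  1 / (mc * (F.P y).det * (qf F y z + σ ^ 2))

/-- frozen mollifier: minus `P Pᵀ : D²` of `nker` -/
noncomputable def kker (F : Frame) (σ : ℝ) (y z : E4) : ℝ :=
  8 * σ ^ 2 / (mc * (F.P y).det * (qf F y z + σ ^ 2) ^ 3)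

/-- mollified cut-off function -/
noncomputable def moll (F : Frame) (σ : ℝ) (u : E4 → ℝ) (x : E4) : ℝ :=
  ∫ y, bump34 y * u y * kker F σ y (x - y)

/-- the potential of a density -/
noncomputable def upot (F : Frame) (σ : ℝ) (u : E4 → ℝ) (x : E4) : ℝ :=
  1 + ∫ y, bump34 y * u y * nker F σ y (x - y)

/-- reference potential over a ball -/
noncomputable def potB (r σ : ℝ) (u : E4 → ℝ) (x : E4) : ℝ :=
  ∫ y in cb r, u y / (‖x - y‖ ^ 2 + σ ^ 2)

/-- reference potential of order three over a ball -/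
noncomputable def sing3 (r σ : ℝ) (u : E4 → ℝ) (x : E4) : ℝ :=
  ∫ y in cb r, u y / Real.sqrt (‖x - y‖ ^ 2 + σ ^ 2) ^ 3

/-- what the current layer delivers in a chart at the scale `e`; all bounds by `C0` -/
structure Data (F : Frame) (C0 : ℝ) where
  e : ℝ
  e_pos : 0 < e
  e_le : e ≤ 1
  B : E4 → C2
  B_smooth : ∀ i j, ContDiff ℝ 1 (fun x => B x i j)
  B_anti : ∀ x, Anti (B x)
  B_closed : ∀ x ∈ ob 4, ∀ a b c, d2 B x a b c = 0
  H : E4 → C2
  H_cont : ∀ i j, Continuous (fun x => H x i j)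
  H_pos : ∀ x ∈ cb 4, Semipos (pullC (F.P x) (H x))
  τ : E4 → ℝ
  τ_cont : Continuous τ
  τ_nonneg : ∀ x, 0 ≤ τ x
  f : E4 → ℝ
  f_cont : Continuous f
  f_supp : HasCompactSupport f
  f_nonneg : ∀ x, 0 ≤ f x
  f11 : E4 → ℝ
  f11_cont : Continuous f11
  f11_nonneg : ∀ x, 0 ≤ f11 x
  f11_le : ∀ x, f11 x ≤ f x
  trace_le : ∀ x ∈ cb 4, tr11 (pullC (F.P x) (H x)) ≤ τ x
  inv_le : ∀ x ∈ cb 4,
    n11 (fun i j => pullC (F.P x) (B x) i j - pullC (F.P x) (H x) i j) ≤ f11 x + e ^ 2 * τ x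
  anti_le : ∀ x ∈ cb 4,
    nM (fun i j => pullC (F.P x) (B x) i j - pullC (F.P x) (H x) i j) ≤ f x + e * τ x
  int_τ : ∫ x in cb 4, τ x ≤ C0
  int_f : ∫ x, f x ^ 2 ≤ C0
  int_f11 : ∫ x in cb 4, f11 x ^ 2 ≤ C0 * e ^ 2
  int_τ2 : e ^ 2 * (∫ x in cb 4, τ x ^ 2) ≤ C0
  sup_τ : ∀ x ∈ cb 4, e ^ 2 * τ x ≤ C0
  pot_τ : ∀ σ, 0 < σ → σ ≤ e → ∀ x ∈ cb (5 / 2),
    potB 4 σ τ x ≤ C0 * (1 + potB 3 σ (fun y => tr11 (pullC (F.P y) (H y))) x)

/-- the trace of the semipositive part -/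
noncomputable def Data.t {F : Frame} {C0 : ℝ} (D : Data F C0) (x : E4) : ℝ :=
  tr11 (pullC (F.P x) (D.H x))

/-- logarithm of the potential of the trace -/
noncomputable def Data.h {F : Frame} {C0 : ℝ} (D : Data F C0) (σ : ℝ) (x : E4) : ℝ :=
  Real.log (upot F σ D.t x)

end Vale.Agent.P204.Heart
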