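import Vale.Agent.P204.Heart.Spec

/-!
P204, heart: the frozen kernels: formulas, mass and bounds.
-/

namespace Vale.Agent.P204.Heart

open MeasureTheory Vale.Agent.P204.Full
open scoped ContDiff

/-- the matrix of `qf` -/
noncomputable def pinv (F : Frame) (y : E4) : Matrix (Fin 4) (Fin 4) ℝ :=
  ((F.P y)⁻¹).transpose * (F.P y)⁻¹

/-- the vector `Q z` -/
noncomputable def qv (F : Frame) (y z : E4) (i : Fin 4) : ℝ := ∑ j, pinv F y i j * z j

/-- derivative of `qf` in `y` -/
noncomputable def qy (F : Frame) (y z : E4) (k : Fin 4) : ℝ :=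
  ∑ i, ∑ j, pd (fun y => pinv F y i j) k y * z i * z j

/-- logarithmic derivative of `nker` in `y` -/
noncomputable def ny (F : Frame) (σ : ℝ) (y z : E4) (k : Fin 4) : ℝ :=
  -(pd (fun y => (F.P y).det) k y / (F.P y).det + qy F y z k / (qf F y z + σ ^ 2))

namespace Kernel

variable {F : Frame}

lemma det_ne (F : Frame) (y : E4) : (F.P y).det ≠ 0 := (F.det_pos y).ne'

lemma mul_inv (F : Frame) (y : E4) : F.P y * (F.P y)⁻¹ = 1 :=
  Matrix.mul_nonsing_inv _ (det_ne F y).isUnit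

lemma inv_mul (F : Frame) (y : E4) : (F.P y)⁻¹ * F.P y = 1 :=
  Matrix.nonsing_inv_mul _ (det_ne F y).isUnit

lemma pinv_symm (y : E4) (a b : Fin 4) : pinv F y a b = pinv F y b a := by
  have h : (pinv F y).transpose = pinv F y := by simp [pinv, Matrix.transpose_mul]
  exact (congrFun (congrFun h a) b).symm

lemma pinv_mul (F : Frame) (y : E4) : pinv F y * (F.P y * (F.P y).transpose) = 1 := by
  rw [pinv]
  calc ((F.P y)⁻¹).transpose * (F.P y)⁻¹ * (F.P y * (F.P y).transpose)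
      = ((F.P y)⁻¹).transpose * ((F.P y)⁻¹ * F.P y) * (F.P y).transpose := by
        simp only [Matrix.mul_assoc]
    _ = 1 := by rw [inv_mul, Matrix.mul_one, ← Matrix.transpose_mul, mul_inv,
        Matrix.transpose_one]

lemma qf_eq_sum (y z : E4) : qf F y z = ∑ a, ∑ b, pinv F y a b * z a * z b := by
  simp only [qf, pinv, Matrix.mul_apply, Matrix.transpose_apply, Matrix.mulVec, dotProduct,
    Fin.sum_univ_four]
  ring

lemma qf_nonneg (y z : E4) : 0 ≤ qf F y z := Finset.sum_nonneg fun _ _ => sq_nonneg _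

lemma sden_pos {σ : ℝ} (hσ : 0 < σ) (y z : E4) : 0 < qf F y z + σ ^ 2 :=
  add_pos_of_nonneg_of_pos (qf_nonneg y z) (by positivity)

lemma contDiff_det {G : E4 → Matrix (Fin 4) (Fin 4) ℝ}
    (hG : ∀ a b, ContDiff ℝ ∞ fun y => G y a b) : ContDiff ℝ ∞ fun y => (G y).det := by
  simp only [Matrix.det_apply']
  exact ContDiff.sum fun σ _ => contDiff_const.mul (contDiff_prod fun i _ => hG _ _)

lemma contDiff_Pinv (F : Frame) (a b : Fin 4) : ContDiff ℝ ∞ fun y => (F.P y)⁻¹ a b := by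
  have h : (fun y => (F.P y)⁻¹ a b) = fun y => (F.P y).det⁻¹ * (F.P y).adjugate a b := by
    funext y
    rw [Matrix.inv_def, Matrix.smul_apply, Ring.inverse_eq_inv', smul_eq_mul]
  rw [h]
  refine ((contDiff_det F.smooth).inv (det_ne F)).mul ?_
  simp only [Matrix.adjugate_apply]
  refine contDiff_det fun c d => ?_
  by_cases hc : c = b
  · subst hc; simp only [Matrix.updateRow_self]; exact contDiff_const
  · simp only [Matrix.updateRow_ne hc]; exact F.smooth c d

lemma contDiff_pinv (F : Frame) (a b : Fin 4) : ContDiff ℝ ∞ fun y => pinv F y a b := by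
  simp only [pinv, Matrix.mul_apply, Matrix.transpose_apply]
  exact ContDiff.sum fun c _ => (contDiff_Pinv F c a).mul (contDiff_Pinv F c b)

lemma contDiff_coord (a : Fin 4) : ContDiff ℝ ∞ fun z : E4 => z a :=
  (EuclideanSpace.proj (𝕜 := ℝ) a).contDiff

lemma hasFDerivAt_coord (z : E4) (a : Fin 4) :
    HasFDerivAt (fun z : E4 => z a) (EuclideanSpace.proj (𝕜 := ℝ) a) z :=
  (EuclideanSpace.proj (𝕜 := ℝ) a).hasFDerivAt

lemma contDiff_qf (F : Frame) : ContDiff ℝ ∞ fun p : E4 × E4 => qf F p.1 p.2 := by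
  simp only [qf_eq_sum]
  exact ContDiff.sum fun a _ => ContDiff.sum fun b _ =>
    (((contDiff_pinv F a b).comp contDiff_fst).mul ((contDiff_coord a).comp contDiff_snd)).mul
      ((contDiff_coord b).comp contDiff_snd)

lemma mc_integrable : Integrable fun w : E4 => 8 / (1 + ‖w‖ ^ 2) ^ 3 := by
  have h := integrable_rpow_neg_one_add_norm_sq (E := E4) (r := 6) (μ := volume)
    (by simp [finrank_euclideanSpace]; norm_num)
  refine (h.const_mul 8).congr (Filter.Eventually.of_forall fun w => ?_)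
  show (8 : ℝ) * (1 + ‖w‖ ^ 2) ^ (-(6 : ℝ) / 2) = 8 / (1 + ‖w‖ ^ 2) ^ 3
  rw [show (-(6 : ℝ) / 2) = -(3 : ℕ) by norm_num, Real.rpow_neg (by positivity),
    Real.rpow_natCast, div_eq_mul_inv]

lemma mc_pos : 0 < mc := by
  rw [mc]
  refine integral_pos_of_integrable_nonneg_nonzero (x := (0 : E4))
    ?_ mc_integrable (fun w => by positivity) (by simp)
  exact continuous_const.div (by fun_prop) fun w => by positivity

lemma nker_pos {σ : ℝ} (hσ : 0 < σ) (y z : E4) : 0 < nker F σ y z := by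
  have := mc_pos; have := F.det_pos y; have := sden_pos (F := F) hσ y z
  rw [nker]; positivity

lemma kker_nonneg {σ : ℝ} (hσ : 0 < σ) (y z : E4) : 0 ≤ kker F σ y z := by
  have := mc_pos; have := F.det_pos y; have := sden_pos (F := F) hσ y z
  rw [kker]; positivity

/-- joint smoothness of the kernel -/
lemma contDiff_nker (F : Frame) {σ : ℝ} (hσ : 0 < σ) :
    ContDiff ℝ ∞ fun p : E4 × E4 => nker F σ p.1 p.2 := by
  have h1 : ContDiff ℝ ∞ fun p : E4 × E4 => (F.P p.1).det :=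
    (contDiff_det F.smooth).comp (contDiff_fst (E := E4) (F := E4))
  have h2 := contDiff_qf F
  refine contDiff_const.div ((contDiff_const.mul h1).mul (h2.add contDiff_const)) fun p => ?_
  have := mc_pos; have := F.det_pos p.1; have := sden_pos (F := F) hσ p.1 p.2
  positivity

lemma contDiff_kker (F : Frame) {σ : ℝ} (hσ : 0 < σ) :
    ContDiff ℝ ∞ fun p : E4 × E4 => kker F σ p.1 p.2 := by
  have h1 : ContDiff ℝ ∞ fun p : E4 × E4 => (F.P p.1).det :=
    (contDiff_det F.smooth).comp (contDiff_fst (E := E4) (F := E4))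
  have h2 := contDiff_qf F
  refine contDiff_const.div ((contDiff_const.mul h1).mul ((h2.add contDiff_const).pow 3))
    fun p => ?_
  have := mc_pos; have := F.det_pos p.1; have := sden_pos (F := F) hσ p.1 p.2
  positivity

lemma hasFDerivAt_inv_real {g : E4 → ℝ} {g' : E4 →L[ℝ] ℝ} {x : E4} (hg : HasFDerivAt g g' x)
    (hx : g x ≠ 0) : HasFDerivAt (fun y => (g y)⁻¹) (-((g x ^ 2)⁻¹) • g') x :=
  (hasDerivAt_inv hx).comp_hasFDerivAt x hg

lemma hasFDerivAt_qf (y z : E4) :
    HasFDerivAt (fun z => qf F y z)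
      (∑ a, (2 * qv F y z a) • EuclideanSpace.proj (𝕜 := ℝ) a) z := by
  simp only [qf_eq_sum]
  have h := HasFDerivAt.fun_sum (u := Finset.univ) fun a _ => HasFDerivAt.fun_sum (u := Finset.univ)
    fun b _ => ((hasFDerivAt_coord z a).const_mul (pinv F y a b)).mul (hasFDerivAt_coord z b)
  refine h.congr_fderiv ?_
  ext v
  simp only [sum_apply, add_apply, smul_apply, smul_eq_mul, qv, Finset.sum_add_distrib]
  rw [Finset.sum_comm, ← Finset.sum_add_distrib]
  refine Finset.sum_congr rfl fun a _ => ?_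
  rw [Finset.mul_sum, Finset.sum_mul, ← Finset.sum_add_distrib]
  refine Finset.sum_congr rfl fun b _ => ?_
  rw [pinv_symm y b a]
  ring

lemma hasFDerivAt_nker {σ : ℝ} (hσ : 0 < σ) (y z : E4) :
    HasFDerivAt (fun z => nker F σ y z)
      ((nker F σ y z / (qf F y z + σ ^ 2)) •
        ∑ a, (-2 * qv F y z a) • EuclideanSpace.proj (𝕜 := ℝ) a) z := by
  have hs := (sden_pos (F := F) hσ y z).ne'
  have h : HasFDerivAt (fun z => (mc * (F.P y).det)⁻¹ * (qf F y z + σ ^ 2)⁻¹) _ z :=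
    (hasFDerivAt_inv_real ((hasFDerivAt_qf y z).add_const (σ ^ 2)) hs).const_mul (mc * (F.P y).det)⁻¹
  have hfun : (fun z => nker F σ y z) =
      fun z => (mc * (F.P y).det)⁻¹ * (qf F y z + σ ^ 2)⁻¹ := by
    funext z; rw [nker, one_div, mul_inv_rev, mul_comm]
  rw [hfun]
  refine h.congr_fderiv ?_
  ext v
  simp only [sum_apply, smul_apply, smul_eq_mul, nker, Finset.mul_sum]
  refine Finset.sum_congr rfl fun a _ => ?_
  field_simp

/-- first derivative in `z` -/
lemma pd_nker {σ : ℝ} (hσ : 0 < σ) (y z : E4) (i : Fin 4) :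
    pd (fun z => nker F σ y z) i z = -2 * qv F y z i / (qf F y z + σ ^ 2) * nker F σ y z := by
  rw [pd, (hasFDerivAt_nker hσ y z).fderiv]
  simp only [smul_apply, sum_apply, smul_eq_mul]
  simp [ev4]
  ring

lemma pd_qv (y z : E4) (a b : Fin 4) : pd (fun z => qv F y z a) b z = pinv F y a b := by
  have hc : ∀ i, DifferentiableAt ℝ (fun z : E4 => z i) z := fun i =>
    (hasFDerivAt_coord z i).differentiableAt
  simp only [pd, qv]
  rw [fderiv_fun_sum fun i _ => (hc i).const_mul _, sum_apply]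
  simp only [fderiv_const_mul (hc _), smul_apply, smul_eq_mul]
  have h : ∀ i, fderiv ℝ (fun z : E4 => z i) z (ev4 b) = if i = b then 1 else 0 := fun i => by
    rw [(hasFDerivAt_coord z i).fderiv]; simp [ev4]
  simp [h]

/-- second derivative in `z` -/
lemma pd2_nker {σ : ℝ} (hσ : 0 < σ) (y z : E4) (i j : Fin 4) :
    pd (fun z => pd (fun z => nker F σ y z) i z) j z
      = (-2 * pinv F y i j / (qf F y z + σ ^ 2)
          + 8 * qv F y z i * qv F y z j / (qf F y z + σ ^ 2) ^ 2) * nker F σ y z := by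
  simp only [pd_nker hσ]
  have hs := (sden_pos (F := F) hσ y z).ne'
  have hq : HasFDerivAt (fun z => qv F y z i) (fderiv ℝ (fun z => qv F y z i) z) z := by
    refine DifferentiableAt.hasFDerivAt ?_
    simp only [qv]
    exact DifferentiableAt.fun_sum fun k _ => (hasFDerivAt_coord z k).differentiableAt.const_mul _
  have h : HasFDerivAt
      (fun z => -2 * qv F y z i * (qf F y z + σ ^ 2)⁻¹ * nker F σ y z) _ z :=
    ((hq.const_mul (-2)).fun_mul
      (hasFDerivAt_inv_real ((hasFDerivAt_qf y z).add_const (σ ^ 2)) hs)).fun_mul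
      (hasFDerivAt_nker hσ y z)
  have hv : fderiv ℝ (fun z => qv F y z i) z (ev4 j) = pinv F y i j := pd_qv y z i j
  rw [pd]
  simp only [div_eq_mul_inv] at h ⊢
  rw [h.fderiv]
  simp only [add_apply, smul_apply, sum_apply, smul_eq_mul, hv]
  simp [ev4]
  field_simp
  ring

lemma sum_ppt_qq (y z : E4) :
    ∑ a, ∑ b, (F.P y * (F.P y).transpose) a b * (qv F y z a * qv F y z b) = qf F y z := by
  have hI := pinv_mul F y
  have h : ∀ b, ∑ a, (F.P y * (F.P y).transpose) a b * qv F y z a = z b := by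
    intro b
    calc ∑ a, (F.P y * (F.P y).transpose) a b * qv F y z a
        = ∑ a, ∑ k, (pinv F y k a * (F.P y * (F.P y).transpose) a b) * z k := by
          simp only [qv, Finset.mul_sum]
          refine Finset.sum_congr rfl fun a _ => Finset.sum_congr rfl fun k _ => ?_
          rw [pinv_symm y a k]; ring
      _ = ∑ k, (pinv F y * (F.P y * (F.P y).transpose)) k b * z k := by
          rw [Finset.sum_comm]
          simp only [Matrix.mul_apply (M := pinv F y), Finset.sum_mul]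
      _ = z b := by simp [hI, Matrix.one_apply]
  rw [Finset.sum_comm]
  simp_rw [← mul_assoc, ← Finset.sum_mul, h]
  simp only [qf_eq_sum, qv, Finset.mul_sum]
  refine Finset.sum_congr rfl fun a _ => Finset.sum_congr rfl fun b _ => ?_
  ring

lemma sum_ppt_pinv (y : E4) :
    ∑ a, ∑ b, (F.P y * (F.P y).transpose) a b * pinv F y a b = 4 := by
  have h : ∀ b, ∑ a, (F.P y * (F.P y).transpose) a b * pinv F y a b = 1 := by
    intro b
    have h1 : (pinv F y * (F.P y * (F.P y).transpose)) b b = 1 := by simp [pinv_mul F y]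
    rw [← h1, Matrix.mul_apply (M := pinv F y)]
    exact Finset.sum_congr rfl fun a _ => by rw [pinv_symm y a b]; ring
  rw [Finset.sum_comm]; simp [h]

/-- `- P Pᵀ : D² N = K` -/
lemma ppt_hess_nker {σ : ℝ} (hσ : 0 < σ) (y z : E4) :
    ∑ i, ∑ j, (F.P y * (F.P y).transpose) i j *
        pd (fun z => pd (fun z => nker F σ y z) i z) j z = -kker F σ y z := by
  set M := F.P y * (F.P y).transpose with hM
  set S := qf F y z + σ ^ 2 with hS
  have hs : S ≠ 0 := (sden_pos (F := F) hσ y z).ne'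
  calc ∑ i, ∑ j, M i j * pd (fun z => pd (fun z => nker F σ y z) i z) j z
      = ∑ i, ∑ j, ((-2 / S * nker F σ y z) * (M i j * pinv F y i j)
          + (8 / S ^ 2 * nker F σ y z) * (M i j * (qv F y z i * qv F y z j))) := by
        refine Finset.sum_congr rfl fun i _ => Finset.sum_congr rfl fun j _ => ?_
        rw [pd2_nker hσ]; ring
    _ = (-2 / S * nker F σ y z) * 4 + (8 / S ^ 2 * nker F σ y z) * qf F y z := by
        simp only [Finset.sum_add_distrib, ← Finset.mul_sum]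
        rw [sum_ppt_pinv, sum_ppt_qq]
    _ = -kker F σ y z := by
        rw [nker, kker, ← hS, show qf F y z = S - σ ^ 2 by rw [hS]; ring]
        have := det_ne F y; have := mc_pos.ne'
        field_simp
        ring

/-- derivative in the frozen point -/
lemma hasFDerivAt_qf_left (y z : E4) :
    ∃ q' : E4 →L[ℝ] ℝ, HasFDerivAt (fun y => qf F y z) q' y ∧
      ∀ k, q' (ev4 k) = qy F y z k := by
  refine ⟨∑ a, ∑ b, (z a * z b) • fderiv ℝ (fun y => pinv F y a b) y, ?_, fun k => ?_⟩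
  · simp only [qf_eq_sum]
    refine HasFDerivAt.fun_sum fun a _ => HasFDerivAt.fun_sum fun b _ => ?_
    refine ((((contDiff_pinv F a b).differentiable (by simp) y).hasFDerivAt.mul_const
      (z a)).mul_const (z b)).congr_fderiv ?_
    ext v
    simp only [smul_apply, smul_eq_mul]
    ring
  · simp only [sum_apply, smul_apply, smul_eq_mul, qy, pd]
    exact Finset.sum_congr rfl fun a _ => Finset.sum_congr rfl fun b _ => by ring

lemma hasFDerivAt_nker_left {σ : ℝ} (hσ : 0 < σ) (y z : E4) :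
    ∃ n' : E4 →L[ℝ] ℝ, HasFDerivAt (fun y => nker F σ y z) n' y ∧
      ∀ k, n' (ev4 k) = ny F σ y z k * nker F σ y z := by
  obtain ⟨q', hq, hq'⟩ := hasFDerivAt_qf_left (F := F) y z
  have hd := ((contDiff_det F.smooth).differentiable (by simp) y).hasFDerivAt
  have hs := (sden_pos (F := F) hσ y z).ne'
  have hdn := det_ne F y
  have h : HasFDerivAt (fun y => mc⁻¹ * ((F.P y).det⁻¹ * (qf F y z + σ ^ 2)⁻¹)) _ y :=
    ((hasFDerivAt_inv_real hd hdn).fun_mul
      (hasFDerivAt_inv_real (hq.add_const (σ ^ 2)) hs)).const_mul mc⁻¹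
  have hfun : (fun y => nker F σ y z) =
      fun y => mc⁻¹ * ((F.P y).det⁻¹ * (qf F y z + σ ^ 2)⁻¹) := by
    funext y; rw [nker, one_div, _root_.mul_inv, _root_.mul_inv, mul_assoc]
  refine ⟨_, hfun ▸ h, fun k => ?_⟩
  simp only [add_apply, smul_apply, smul_eq_mul, hq', ny, nker, pd]
  field_simp
  ring

/-- first derivative in `y` -/
lemma pdy_nker {σ : ℝ} (hσ : 0 < σ) (y z : E4) (k : Fin 4) :
    pd (fun y => nker F σ y z) k y = ny F σ y z k * nker F σ y z := by
  obtain ⟨n', hn, hn'⟩ := hasFDerivAt_nker_left (F := F) hσ y z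
  rw [pd, hn.fderiv, hn']

/-- mixed derivative -/
lemma pdy_pd_nker {σ : ℝ} (hσ : 0 < σ) (y z : E4) (k i : Fin 4) :
    pd (fun y => pd (fun z => nker F σ y z) i z) k y
      = -2 * ((∑ j, pd (fun y => pinv F y i j) k y * z j)
          + qv F y z i * (ny F σ y z k - qy F y z k / (qf F y z + σ ^ 2)))
        / (qf F y z + σ ^ 2) * nker F σ y z := by
  obtain ⟨n', hn, hn'⟩ := hasFDerivAt_nker_left (F := F) hσ y z
  obtain ⟨q', hq, hq'⟩ := hasFDerivAt_qf_left (F := F) y z
  simp only [pd_nker hσ]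
  have hs := (sden_pos (F := F) hσ y z).ne'
  have hv : HasFDerivAt (fun y => qv F y z i)
      (∑ j, z j • fderiv ℝ (fun y => pinv F y i j) y) y := by
    refine HasFDerivAt.fun_sum fun j _ => ?_
    exact ((contDiff_pinv F i j).differentiable (by simp) y).hasFDerivAt.mul_const (z j)
  have h : HasFDerivAt
      (fun y => -2 * qv F y z i * (qf F y z + σ ^ 2)⁻¹ * nker F σ y z) _ y :=
    ((hv.const_mul (-2)).fun_mul (hasFDerivAt_inv_real (hq.add_const (σ ^ 2)) hs)).fun_mul hn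
  rw [pd]
  simp only [div_eq_mul_inv] at h ⊢
  rw [h.fderiv]
  simp only [add_apply, smul_apply, sum_apply, smul_eq_mul, hq', hn', pd]
  rw [Finset.sum_congr rfl fun j _ => mul_comm (z j) _]
  field_simp
  ring

/-- parabolic scaling of the mollifier -/
lemma kker_scale {σ : ℝ} (hσ : 0 < σ) (y w : E4) :
    σ ^ 4 * kker F σ y (σ • w) = kker F 1 y w := by
  have hq : qf F y (σ • w) = σ ^ 2 * qf F y w := by
    simp only [qf_eq_sum, PiLp.smul_apply, smul_eq_mul, Finset.mul_sum]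
    exact Finset.sum_congr rfl fun a _ => Finset.sum_congr rfl fun b _ => by ring
  rw [kker, kker, hq]
  have := det_ne F y; have := mc_pos.ne'
  have h1 : qf F y w + 1 ≠ 0 := (add_pos_of_nonneg_of_pos (qf_nonneg y w) one_pos).ne'
  have h2 : σ ^ 2 * qf F y w + σ ^ 2 = σ ^ 2 * (qf F y w + 1) := by ring
  rw [h2, one_pow]
  field_simp

/-- unit mass -/
lemma integral_kker {σ : ℝ} (hσ : 0 < σ) (y : E4) : ∫ z, kker F σ y z = 1 := by
  have h1 : ∫ z, kker F 1 y z = 1 := by
    set T : E4 →ₗ[ℝ] E4 := Matrix.toEuclideanLin (F.P y)⁻¹ with hT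
    have hdet : LinearMap.det T = ((F.P y).det)⁻¹ := by
      simp [hT, Matrix.det_nonsing_inv, Ring.inverse_eq_inv']
    have hm := MeasureTheory.Measure.map_linearMap_addHaar_eq_smul_addHaar
      (μ := (volume : Measure E4)) (f := T) (by rw [hdet]; exact inv_ne_zero (det_ne F y))
    have hg : Continuous fun w : E4 => 8 / (1 + ‖w‖ ^ 2) ^ 3 :=
      continuous_const.div (by fun_prop) fun w => by positivity
    have key := integral_map (φ := T) T.continuous_of_finiteDimensional.aemeasurable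
      (hg.aestronglyMeasurable (μ := Measure.map T volume))
    rw [hm, integral_smul_measure, hdet, ENNReal.toReal_ofReal (abs_nonneg _), inv_inv,
      abs_of_pos (F.det_pos y), smul_eq_mul, ← mc] at key
    have hT2 : ∀ z, qf F y z = ‖T z‖ ^ 2 := fun z => by
      rw [EuclideanSpace.real_norm_sq_eq]; rfl
    have hf : (fun z => kker F 1 y z) = fun z =>
        (mc * (F.P y).det)⁻¹ * (8 / (1 + ‖T z‖ ^ 2) ^ 3) := by
      funext z
      rw [kker, hT2, one_pow, add_comm (‖T z‖ ^ 2) 1, mul_one, ← div_div]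
      ring
    rw [hf, integral_const_mul, ← key]
    have := det_ne F y; have := mc_pos.ne'
    field_simp
  have h2 := Measure.integral_comp_smul (volume : Measure E4) (fun z => kker F σ y z) σ
  have h3 : (fun w => kker F σ y (σ • w)) = fun w => (σ ^ 4)⁻¹ * kker F 1 y w := by
    funext w; rw [← kker_scale hσ, ← mul_assoc, inv_mul_cancel₀ (by positivity), one_mul]
  rw [h3, integral_const_mul, h1, finrank_euclideanSpace, Fintype.card_fin, smul_eq_mul,
    abs_of_pos (by positivity : 0 < (σ ^ 4)⁻¹)] at h2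
  exact mul_left_cancel₀ (inv_ne_zero (pow_ne_zero 4 hσ.ne')) h2.symm

lemma exists_bound {g : E4 → ℝ} (hg : Continuous g) :
    ∃ C, 0 ≤ C ∧ ∀ y ∈ cb 4, |g y| ≤ C := by
  obtain ⟨C, hC⟩ := (isCompact_closedBall (0 : E4) 4).exists_bound_of_continuousOn hg.continuousOn
  exact ⟨max C 0, le_max_right _ _, fun y hy => le_max_of_le_left (hC y hy)⟩

/-- all frame constants on `cb 4` -/
lemma exists_const (F : Frame) :
    ∃ C, 1 ≤ C ∧ ∀ y ∈ cb 4, (∀ i j, |pinv F y i j| ≤ C) ∧
      (∀ i j k, |pd (fun y => pinv F y i j) k y| ≤ C) ∧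
      (∀ k, |pd (fun y => (F.P y).det) k y| ≤ C * (F.P y).det) ∧
      (F.P y).det ≤ C ∧ 1 ≤ C * (F.P y).det ∧ ∀ i j, |F.P y i j| ≤ C := by
  have cpd : ∀ {g : E4 → ℝ}, ContDiff ℝ ∞ g → ∀ k, Continuous fun y => pd g k y :=
    fun hg k => (hg.continuous_fderiv (by simp)).clm_apply continuous_const
  have cd := contDiff_det F.smooth
  choose a ha0 ha using fun p : Fin 4 × Fin 4 => exists_bound (contDiff_pinv F p.1 p.2).continuous
  choose b hb0 hb using fun p : Fin 4 × Fin 4 × Fin 4 =>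
    exists_bound (cpd (contDiff_pinv F p.1 p.2.1) p.2.2)
  choose c hc0 hc using fun k : Fin 4 =>
    exists_bound (g := fun y => pd (fun y => (F.P y).det) k y / (F.P y).det)
      ((cpd cd k).div cd.continuous fun y => det_ne F y)
  obtain ⟨d, hd0, hd⟩ := exists_bound cd.continuous
  obtain ⟨e, he0, he⟩ := exists_bound (g := fun y => (F.P y).det⁻¹)
    (cd.continuous.inv₀ fun y => det_ne F y)
  choose f hf0 hf using fun p : Fin 4 × Fin 4 => exists_bound (F.smooth p.1 p.2).continuous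
  have hsa := Finset.sum_nonneg (s := Finset.univ) fun p _ => ha0 p
  have hsb := Finset.sum_nonneg (s := Finset.univ) fun p _ => hb0 p
  have hsc := Finset.sum_nonneg (s := Finset.univ) fun p _ => hc0 p
  have hsf := Finset.sum_nonneg (s := Finset.univ) fun p _ => hf0 p
  refine ⟨1 + ∑ p, a p + ∑ p, b p + ∑ p, c p + d + e + ∑ p, f p, by linarith, fun y hy => ?_⟩
  have hD := F.det_pos y
  refine ⟨fun i j => ?_, fun i j k => ?_, fun k => ?_, ?_, ?_, fun i j => ?_⟩
  · have := Finset.single_le_sum (fun p _ => ha0 p) (Finset.mem_univ (i, j))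
    linarith [ha (i, j) y hy]
  · have := Finset.single_le_sum (fun p _ => hb0 p) (Finset.mem_univ (i, j, k))
    linarith [hb (i, j, k) y hy]
  · have := Finset.single_le_sum (fun p _ => hc0 p) (Finset.mem_univ k)
    have h := hc k y hy
    rw [abs_div, abs_of_pos hD, div_le_iff₀ hD] at h
    exact h.trans (mul_le_mul_of_nonneg_right (by linarith) hD.le)
  · linarith [(abs_le.1 (hd y hy)).2]
  · have h := he y hy
    rw [abs_inv, abs_of_pos hD, inv_le_iff_one_le_mul₀ hD] at h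
    exact h.trans (mul_le_mul_of_nonneg_right (by linarith) hD.le)
  · have := Finset.single_le_sum (fun p _ => hf0 p) (Finset.mem_univ (i, j))
    linarith [hf (i, j) y hy]

lemma coord_le (z : E4) (a : Fin 4) : |z a| ≤ ‖z‖ := by
  simpa [Real.norm_eq_abs] using PiLp.norm_apply_le z a

lemma abs_sum_mul_le {c : Fin 4 → ℝ} {C : ℝ} (hc : ∀ j, |c j| ≤ C) (z : E4) :
    |∑ j, c j * z j| ≤ 4 * C * ‖z‖ := by
  refine (Finset.abs_sum_le_sum_abs _ _).trans ?_
  calc ∑ j, |c j * z j| ≤ ∑ _j : Fin 4, C * ‖z‖ := Finset.sum_le_sum fun j _ => by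
        rw [abs_mul]
        exact mul_le_mul (hc j) (coord_le z j) (abs_nonneg _) ((abs_nonneg _).trans (hc j))
    _ = _ := by simp; ring

lemma abs_quad_le {c : Fin 4 → Fin 4 → ℝ} {C : ℝ} (hc : ∀ i j, |c i j| ≤ C) (z : E4) :
    |∑ i, ∑ j, c i j * z i * z j| ≤ 16 * C * ‖z‖ ^ 2 := by
  refine (Finset.abs_sum_le_sum_abs _ _).trans ?_
  calc ∑ i, |∑ j, c i j * z i * z j| ≤ ∑ _i : Fin 4, 4 * (C * ‖z‖) * ‖z‖ :=
        Finset.sum_le_sum fun i _ => abs_sum_mul_le (c := fun j => c i j * z i) (fun j => by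
          rw [abs_mul]
          exact mul_le_mul (hc i j) (coord_le z i) (abs_nonneg _) ((abs_nonneg _).trans (hc i j))) z
    _ = _ := by simp; ring

/-- `qf + σ²` is comparable to `‖z‖² + σ²` on `cb 4` -/
lemma exists_comp (F : Frame) :
    ∃ C, 1 ≤ C ∧ ∀ y ∈ cb 4, ∀ (σ : ℝ) (z : E4),
      ‖z‖ ^ 2 + σ ^ 2 ≤ C * (qf F y z + σ ^ 2) ∧ qf F y z + σ ^ 2 ≤ C * (‖z‖ ^ 2 + σ ^ 2) := by
  obtain ⟨C, hC1, hC⟩ := exists_const F
  refine ⟨16 * C ^ 2 + 16 * C, by nlinarith, fun y hy σ z => ?_⟩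
  obtain ⟨hQ, -, -, -, -, hP⟩ := hC y hy
  have hup : qf F y z ≤ 16 * C * ‖z‖ ^ 2 := by
    rw [qf_eq_sum]; exact (le_abs_self _).trans (abs_quad_le hQ z)
  have hlow : ‖z‖ ^ 2 ≤ 16 * C ^ 2 * qf F y z := by
    set v := (F.P y)⁻¹.mulVec z.ofLp with hv
    have hz : ∀ a, z a = ∑ b, F.P y a b * v b := fun a => by
      have h := congrFun (Matrix.mulVec_mulVec z.ofLp (F.P y) (F.P y)⁻¹) a
      rw [mul_inv, Matrix.one_mulVec] at h
      exact h.symm
    have hqf : qf F y z = ∑ b, v b ^ 2 := rfl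
    have hn : ∀ a, z a ^ 2 ≤ 4 * C ^ 2 * qf F y z := fun a => by
      rw [hz a, hqf]
      refine (Finset.sum_mul_sq_le_sq_mul_sq _ _ _).trans ?_
      refine mul_le_mul_of_nonneg_right ?_ (Finset.sum_nonneg fun b _ => sq_nonneg _)
      calc ∑ b, F.P y a b ^ 2 ≤ ∑ _b : Fin 4, C ^ 2 := Finset.sum_le_sum fun b _ => by
            rw [← sq_abs]; exact pow_le_pow_left₀ (abs_nonneg _) (hP a b) 2
        _ = _ := by simp
    calc ‖z‖ ^ 2 = ∑ a, z a ^ 2 := EuclideanSpace.real_norm_sq_eq z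
      _ ≤ ∑ _a : Fin 4, 4 * C ^ 2 * qf F y z := Finset.sum_le_sum fun a _ => hn a
      _ = _ := by simp; ring
  have hq := qf_nonneg (F := F) y z
  have hn2 := sq_nonneg ‖z‖
  have hs2 := sq_nonneg σ
  constructor
  · nlinarith [mul_nonneg (by linarith : (0 : ℝ) ≤ C) hq,
      mul_nonneg (by nlinarith : (0 : ℝ) ≤ 16 * C ^ 2 + 16 * C - 1) hs2]
  · nlinarith [mul_nonneg (sq_nonneg C) hn2,
      mul_nonneg (by nlinarith : (0 : ℝ) ≤ 16 * C ^ 2 + 16 * C - 1) hs2]

/-- all kernel bounds on `cb 4`, for every `z` -/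
theorem kernel_bounds (F : Frame) :
    ∃ C, 0 < C ∧ ∀ (σ : ℝ), 0 < σ → ∀ y ∈ cb 4, ∀ z : E4,
      1 / (‖z‖ ^ 2 + σ ^ 2) ≤ C * nker F σ y z ∧
      nker F σ y z ≤ C / (‖z‖ ^ 2 + σ ^ 2) ∧
      (∀ i, |pd (fun z => nker F σ y z) i z| ≤ C / Real.sqrt (‖z‖ ^ 2 + σ ^ 2) ^ 3) ∧
      (∀ i j, |pd (fun z => pd (fun z => nker F σ y z) i z) j z|
        ≤ C / (‖z‖ ^ 2 + σ ^ 2) ^ 2) ∧
      (∀ k, |pd (fun y => nker F σ y z) k y| ≤ C * nker F σ y z) ∧
      (∀ k i, |pd (fun y => pd (fun z => nker F σ y z) i z) k y|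
        ≤ C / Real.sqrt (‖z‖ ^ 2 + σ ^ 2) ^ 3) ∧
      kker F σ y z ≤ C * σ ^ 2 / (‖z‖ ^ 2 + σ ^ 2) ^ 3 := by
  obtain ⟨A, hA1, hA⟩ := exists_const F
  obtain ⟨B, hB1, hB⟩ := exists_comp F
  have hm := mc_pos
  have hA0 : 0 < A := by linarith
  have hB0 : 0 < B := by linarith
  set Cn := A * B / mc + mc * A * B with hCn
  set C' := (A + 32 * A * B) with hC'
  have hC'0 : 0 < C' := by positivity
  have hCn0 : 0 < Cn := by positivity
  refine ⟨Cn + C' + 8 * A * B * Cn + (2 * A * B + 128 * A ^ 2 * B ^ 2) * Cn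
      + (8 * A + 8 * A * C') * B * Cn + 8 * A * B ^ 3 / mc, by positivity,
    fun σ hσ y hy z => ?_⟩
  obtain ⟨hQ, hQ', hD', hD, hD1, -⟩ := hA y hy
  obtain ⟨hlo, hhi⟩ := hB y hy σ z
  have hdet := F.det_pos y
  set S := qf F y z + σ ^ 2
  set R := ‖z‖ ^ 2 + σ ^ 2
  have hS : 0 < S := sden_pos hσ y z
  have hR : 0 < R := by positivity
  set N := nker F σ y z with hN
  have hN0 : 0 < N := nker_pos hσ y z
  have e1 : 1 / R ≤ Cn * N := by
    rw [hN, nker, mul_one_div, div_le_div_iff₀ hR (by positivity), one_mul]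
    have h1 : mc * (F.P y).det * S ≤ mc * A * (B * R) :=
      mul_le_mul (mul_le_mul_of_nonneg_left hD hm.le) hhi hS.le (by positivity)
    have h2 : mc * A * B * R ≤ Cn * R :=
      mul_le_mul_of_nonneg_right (le_add_of_nonneg_left (by positivity)) hR.le
    linarith
  have e2 : N ≤ Cn / R := by
    refine le_trans ?_ (div_le_div_of_nonneg_right
      (le_add_of_nonneg_right (by positivity) : A * B / mc ≤ Cn) hR.le)
    rw [hN, nker, div_div, div_le_div_iff₀ (by positivity) (by positivity), one_mul]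
    calc mc * R ≤ mc * (B * S) := mul_le_mul_of_nonneg_left hlo hm.le
      _ ≤ mc * (B * S) * (A * (F.P y).det) := le_mul_of_one_le_right (by positivity) hD1
      _ = _ := by ring
  have hz2 : ‖z‖ ^ 2 ≤ B * S := by
    have := sq_nonneg σ; linarith
  have hNS : N / S ≤ B * Cn / R ^ 2 := by
    calc N / S ≤ (Cn / R) / (R / B) := div_le_div₀ (by positivity) e2 (by positivity)
          ((div_le_iff₀ hB0).2 (by linarith))
      _ = _ := by field_simp
  have hr : ‖z‖ / R ^ 2 ≤ 1 / Real.sqrt R ^ 3 := by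
    have h0 : 0 < Real.sqrt R := Real.sqrt_pos.2 hR
    have h1 : ‖z‖ ≤ Real.sqrt R :=
      Real.le_sqrt_of_sq_le (le_add_of_nonneg_right (sq_nonneg σ))
    rw [div_le_div_iff₀ (by positivity) (by positivity), one_mul]
    calc ‖z‖ * Real.sqrt R ^ 3 ≤ Real.sqrt R * Real.sqrt R ^ 3 := by gcongr
      _ = (Real.sqrt R ^ 2) ^ 2 := by ring
      _ = R ^ 2 := by rw [Real.sq_sqrt hR.le]
  have hqv : ∀ i, |qv F y z i| ≤ 4 * A * ‖z‖ := fun i => abs_sum_mul_le (hQ i) z
  have hqy : ∀ k, |qy F y z k| / S ≤ 16 * A * B := fun k => by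
    rw [div_le_iff₀ hS]
    calc |qy F y z k| ≤ 16 * A * ‖z‖ ^ 2 := abs_quad_le (fun i j => hQ' i j k) z
      _ ≤ 16 * A * (B * S) := by gcongr
      _ = _ := by ring
  have hny : ∀ k, |ny F σ y z k| ≤ A + 16 * A * B := fun k => by
    rw [ny, abs_neg]
    refine (abs_add_le _ _).trans (add_le_add ?_ ?_)
    · rw [abs_div, abs_of_pos hdet, div_le_iff₀ hdet]; exact hD' k
    · rw [abs_div, abs_of_pos hS]; exact hqy k
  have p1 : 0 ≤ 8 * A * B * Cn := by positivity
  have p2 : 0 ≤ (2 * A * B + 128 * A ^ 2 * B ^ 2) * Cn := by positivity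
  have p3 : 0 ≤ (8 * A + 8 * A * C') * B * Cn := by positivity
  have p4 : 0 ≤ 8 * A * B ^ 3 / mc := by positivity
  have hsq : 0 ≤ 1 / Real.sqrt R ^ 3 := by positivity
  refine ⟨?_, ?_, fun i => ?_, fun i j => ?_, fun k => ?_, fun k i => ?_, ?_⟩
  · exact e1.trans (mul_le_mul_of_nonneg_right (by linarith) hN0.le)
  · exact e2.trans (div_le_div_of_nonneg_right (by linarith) hR.le)
  · rw [pd_nker hσ]
    calc |-2 * qv F y z i / S * N| = 2 * |qv F y z i| * (N / S) := by
          rw [abs_mul, abs_div, abs_mul, abs_of_pos hS, abs_of_pos hN0]; norm_num; ring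
      _ ≤ 2 * (4 * A * ‖z‖) * (B * Cn / R ^ 2) := by gcongr; exact hqv i
      _ = 8 * A * B * Cn * (‖z‖ / R ^ 2) := by ring
      _ ≤ 8 * A * B * Cn * (1 / Real.sqrt R ^ 3) := by gcongr
      _ ≤ _ := by rw [mul_one_div]; gcongr; linarith
  · rw [pd2_nker hσ, abs_mul, abs_of_pos hN0]
    have h1 : |-2 * pinv F y i j / S + 8 * qv F y z i * qv F y z j / S ^ 2|
        ≤ (2 * A + 128 * A ^ 2 * B) / S := by
      refine (abs_add_le _ _).trans ?_
      rw [add_div]
      refine add_le_add ?_ ?_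
      · rw [abs_div, abs_mul, abs_of_pos hS]; norm_num; gcongr; exact hQ i j
      · rw [abs_div, abs_mul, abs_mul, abs_of_pos (pow_pos hS 2)]; norm_num
        rw [div_le_div_iff₀ (by positivity) hS]
        calc 8 * |qv F y z i| * |qv F y z j| * S
            ≤ 8 * (4 * A * ‖z‖) * (4 * A * ‖z‖) * S := by gcongr <;> exact hqv _
          _ = 128 * A ^ 2 * ‖z‖ ^ 2 * S := by ring
          _ ≤ 128 * A ^ 2 * (B * S) * S := by gcongr
          _ = _ := by ring
    calc _ ≤ (2 * A + 128 * A ^ 2 * B) / S * N := mul_le_mul_of_nonneg_right h1 hN0.le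
      _ = (2 * A + 128 * A ^ 2 * B) * (N / S) := by ring
      _ ≤ (2 * A + 128 * A ^ 2 * B) * (B * Cn / R ^ 2) := by gcongr
      _ = (2 * A * B + 128 * A ^ 2 * B ^ 2) * Cn / R ^ 2 := by ring
      _ ≤ _ := by gcongr; linarith
  · rw [pdy_nker hσ, abs_mul, abs_of_pos hN0]
    refine mul_le_mul_of_nonneg_right ((hny k).trans ?_) hN0.le
    have : 0 ≤ A * B := by positivity
    linarith [hC']
  · rw [pdy_pd_nker hσ]
    have h1 : |(∑ j, pd (fun y => pinv F y i j) k y * z j)
        + qv F y z i * (ny F σ y z k - qy F y z k / S)| ≤ (4 * A + 4 * A * C') * ‖z‖ := by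
      refine (abs_add_le _ _).trans ?_
      rw [add_mul]
      refine add_le_add (abs_sum_mul_le (fun j => hQ' i j k) z) ?_
      have h2 : |ny F σ y z k - qy F y z k / S| ≤ C' := by
        refine (abs_sub _ _).trans ?_
        rw [abs_div, abs_of_pos hS, hC']
        linarith [hny k, hqy k]
      rw [abs_mul]
      calc |qv F y z i| * |ny F σ y z k - qy F y z k / S| ≤ 4 * A * ‖z‖ * C' :=
            mul_le_mul (hqv i) h2 (abs_nonneg _) (by positivity)
        _ = _ := by ring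
    rw [abs_mul, abs_div, abs_mul, abs_of_pos hS, abs_of_pos hN0]
    norm_num
    calc _ ≤ 2 * ((4 * A + 4 * A * C') * ‖z‖) / S * N := by gcongr
      _ = 2 * ((4 * A + 4 * A * C') * ‖z‖) * (N / S) := by ring
      _ ≤ 2 * ((4 * A + 4 * A * C') * ‖z‖) * (B * Cn / R ^ 2) := by gcongr
      _ = (8 * A + 8 * A * C') * B * Cn * (‖z‖ / R ^ 2) := by ring
      _ ≤ (8 * A + 8 * A * C') * B * Cn * (1 / Real.sqrt R ^ 3) := by gcongr
      _ ≤ _ := by rw [mul_one_div]; gcongr; linarith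
  · rw [kker]
    have h1 : R ^ 3 ≤ B ^ 3 * S ^ 3 := by rw [← mul_pow]; gcongr
    calc 8 * σ ^ 2 / (mc * (F.P y).det * S ^ 3) ≤ 8 * A * B ^ 3 / mc * σ ^ 2 / R ^ 3 := by
          rw [div_mul_eq_mul_div, div_div, div_le_div_iff₀ (by positivity) (by positivity)]
          have : R ^ 3 * 1 ≤ B ^ 3 * S ^ 3 * (A * (F.P y).det) :=
            mul_le_mul h1 hD1 zero_le_one (by positivity)
          calc 8 * σ ^ 2 * (mc * R ^ 3) = 8 * σ ^ 2 * mc * (R ^ 3 * 1) := by ring
            _ ≤ 8 * σ ^ 2 * mc * (B ^ 3 * S ^ 3 * (A * (F.P y).det)) := by gcongr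
            _ = _ := by ring
      _ ≤ _ := by gcongr; linarith

end Kernel

end Vale.Agent.P204.Heart
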