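import Vale.Agent.P204.Heart.Defs

/-!
P204 heart: pointwise algebra in frame components.
-/

namespace Vale.Agent.P204.Heart

open Vale.Agent.P204.Full

lemma J0_mulVec (u : C1) : J0.mulVec u = ![-u 1, u 0, -u 3, u 2] := by
  funext i
  fin_cases i <;> simp [J0, Matrix.mulVec, dotProduct, Fin.sum_univ_succ]

lemma sq_eq (u : C1) : sq u = u 0 ^ 2 + u 1 ^ 2 + u 2 ^ 2 + u 3 ^ 2 := by
  simp [sq, Fin.sum_univ_four]

lemma sq_nonneg' (u : C1) : 0 ≤ sq u := by rw [sq_eq]; positivity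

lemma abs_le_norm_C2 (b : C2) (i j : Fin 4) : |b i j| ≤ ‖b‖ := by
  rw [← Real.norm_eq_abs]
  exact (norm_le_pi_norm (b i) j).trans (norm_le_pi_norm b i)

lemma abs_le_norm_C1 (u : C1) (i : Fin 4) : |u i| ≤ ‖u‖ := by
  rw [← Real.norm_eq_abs]; exact norm_le_pi_norm u i

lemma sq_le_norm (u : C1) : sq u ≤ 4 * ‖u‖ ^ 2 := by
  have h : ∀ i, u i ^ 2 ≤ ‖u‖ ^ 2 := fun i => by
    rw [← sq_abs (u i)]; exact pow_le_pow_left₀ (abs_nonneg _) (abs_le_norm_C1 u i) 2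
  rw [sq_eq]; linarith [h 0, h 1, h 2, h 3]

lemma norm_sq_le_sq (u : C1) : ‖u‖ ^ 2 ≤ sq u := by
  have h : ‖u‖ ≤ Real.sqrt (sq u) := by
    refine (pi_norm_le_iff_of_nonneg (Real.sqrt_nonneg _)).2 fun i => ?_
    rw [Real.norm_eq_abs, ← Real.sqrt_sq_eq_abs]
    exact Real.sqrt_le_sqrt (Finset.single_le_sum (f := fun k => u k ^ 2)
      (fun k _ => sq_nonneg _) (Finset.mem_univ i))
  calc ‖u‖ ^ 2 ≤ Real.sqrt (sq u) ^ 2 := pow_le_pow_left₀ (norm_nonneg _) h 2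
    _ = sq u := Real.sq_sqrt (sq_nonneg' u)

lemma qH_expand {b : C2} (h1 : b 0 2 = b 1 3) (h2 : b 0 3 = -b 1 2)
    (u w : C1) :
    qH b u w = b 2 3 * (u 0 * w 0 + u 1 * w 1) + b 0 1 * (u 2 * w 2 + u 3 * w 3)
      - b 0 2 * (u 2 * w 1 + u 1 * w 2 - u 0 * w 3 - u 3 * w 0)
      - b 0 3 * (u 2 * w 0 + u 0 * w 2 + u 1 * w 3 + u 3 * w 1) := by
  have e1 : b 1 2 = -b 0 3 := by linarith
  simp only [qH, wdg, wedge11, J0_mulVec]
  simp only [Matrix.cons_val_zero, Matrix.cons_val_one, Matrix.cons_val_two,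
    Matrix.cons_val_three, Matrix.head_cons, Matrix.tail_cons, e1, ← h1]
  ring

lemma qH_symm {b : C2} (hb : Semipos b) (u w : C1) : qH b u w = qH b w u := by
  obtain ⟨-, h1, h2, -⟩ := hb
  rw [qH_expand h1 h2, qH_expand h1 h2]; ring

/-- the two sided bound of the quadratic form of a semipositive form -/
lemma qH_self_bounds {b : C2} (hb : Semipos b) (u : C1) :
    0 ≤ qH b u u ∧ qH b u u ≤ 2 * tr11 b * sq u := by
  obtain ⟨-, h1, h2, ha, hd, hdet⟩ := hb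
  rw [qH_expand h1 h2]
  set r1 := u 0 ^ 2 + u 1 ^ 2
  set r2 := u 2 ^ 2 + u 3 ^ 2
  set X := u 2 * u 1 - u 0 * u 3
  set Y := u 2 * u 0 + u 1 * u 3
  have hXY : X ^ 2 + Y ^ 2 = r1 * r2 := by simp only [X, Y, r1, r2]; ring
  have hr1 : 0 ≤ r1 := by positivity
  have hr2 : 0 ≤ r2 := by positivity
  have e : b 2 3 * (u 0 * u 0 + u 1 * u 1) + b 0 1 * (u 2 * u 2 + u 3 * u 3)
      - b 0 2 * (u 2 * u 1 + u 1 * u 2 - u 0 * u 3 - u 3 * u 0)
      - b 0 3 * (u 2 * u 0 + u 0 * u 2 + u 1 * u 3 + u 3 * u 1)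
      = b 2 3 * r1 + b 0 1 * r2 - 2 * (b 0 2 * X + b 0 3 * Y) := by
    simp only [X, Y, r1, r2]; ring
  rw [e]
  have hcs : (b 0 2 * X + b 0 3 * Y) ^ 2 ≤ (b 0 1 * b 2 3) * (r1 * r2) := by
    have h0 : 0 ≤ r1 * r2 := mul_nonneg hr1 hr2
    have : (b 0 2 * X + b 0 3 * Y) ^ 2 ≤ (b 0 2 ^ 2 + b 0 3 ^ 2) * (X ^ 2 + Y ^ 2) := by
      nlinarith [sq_nonneg (b 0 2 * Y - b 0 3 * X)]
    rw [hXY] at this
    nlinarith [mul_le_mul_of_nonneg_right hdet h0]
  have hS : 0 ≤ b 2 3 * r1 + b 0 1 * r2 := by positivity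
  have habs : 2 * |b 0 2 * X + b 0 3 * Y| ≤ b 2 3 * r1 + b 0 1 * r2 := by
    have h4 : (2 * |b 0 2 * X + b 0 3 * Y|) ^ 2 ≤ (b 2 3 * r1 + b 0 1 * r2) ^ 2 := by
      rw [mul_pow, sq_abs]; nlinarith [sq_nonneg (b 2 3 * r1 - b 0 1 * r2)]
    exact (sq_le_sq₀ (by positivity) hS).1 h4
  have hsq : sq u = r1 + r2 := by rw [sq_eq]; simp only [r1, r2]; ring
  have := abs_le.1 (le_refl |b 0 2 * X + b 0 3 * Y|)
  refine ⟨by linarith, ?_⟩
  rw [hsq, tr11]
  nlinarith [mul_nonneg ha hr1, mul_nonneg hd hr2]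

lemma qH_add_left (b : C2) (u v w : C1) : qH b (u + v) w = qH b u w + qH b v w := by
  simp only [qH, wdg, wedge11, Pi.add_apply]; ring

lemma qH_smul_left (b : C2) (c : ℝ) (u w : C1) : qH b (c • u) w = c * qH b u w := by
  simp only [qH, wdg, wedge11, Pi.smul_apply, smul_eq_mul]; ring

lemma qH_cs {b : C2} (hb : Semipos b) (u w : C1) {ε : ℝ} (hε : 0 < ε) :
    |qH b u w| ≤ ε * qH b u u + qH b w w / (4 * ε) := by
  have key : ∀ c : ℝ, 0 ≤ c ^ 2 * qH b u u + 2 * c * qH b u w + qH b w w := fun c => by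
    have h := (qH_self_bounds hb (c • u + w)).1
    rw [qH_add_left, qH_smul_left, qH_symm hb u, qH_symm hb w (c • u + w), qH_add_left,
      qH_add_left, qH_smul_left, qH_smul_left, qH_symm hb w u] at h
    linarith
  have h1 := key (2 * ε)
  have h2 := key (-(2 * ε))
  rw [abs_le]
  constructor <;>
  · rw [← sub_nonneg]
    field_simp
    nlinarith

lemma qH_add_le {b : C2} (hb : Semipos b) (u v : C1) :
    qH b (u + v) (u + v) ≤ 2 * qH b u u + 2 * qH b v v := by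
  rw [qH_add_left, qH_symm hb u, qH_symm hb v, qH_add_left, qH_add_left]
  have h := (abs_le.1 (qH_cs hb u v (ε := 1 / 2) (by norm_num))).2
  rw [qH_symm hb v u]
  linarith [qH_symm hb u v]

lemma wdg_abs_le (x y : C2) : |wdg x y| ≤ 6 * ‖x‖ * ‖y‖ := by
  have h : ∀ i j k l, |x i j * y k l| ≤ ‖x‖ * ‖y‖ := fun i j k l => by
    rw [abs_mul]
    exact mul_le_mul (abs_le_norm_C2 x i j) (abs_le_norm_C2 y k l) (abs_nonneg _) (norm_nonneg _)
  simp only [wdg]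
  have := h 0 1 2 3; have := h 0 2 1 3; have := h 0 3 1 2
  have := h 1 2 0 3; have := h 1 3 0 2; have := h 2 3 0 1
  simp only [abs_le] at *
  constructor <;> linarith

lemma wedge11_norm_le (u v : C1) : ‖wedge11 u v‖ ≤ 2 * ‖u‖ * ‖v‖ := by
  have h0 : 0 ≤ 2 * ‖u‖ * ‖v‖ := by positivity
  refine (pi_norm_le_iff_of_nonneg h0).2 fun i => (pi_norm_le_iff_of_nonneg h0).2 fun j => ?_
  have h : ∀ i j, |u i * v j| ≤ ‖u‖ * ‖v‖ := fun i j => by
    rw [abs_mul]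
    exact mul_le_mul (abs_le_norm_C1 u i) (abs_le_norm_C1 v j) (abs_nonneg _) (norm_nonneg _)
  rw [Real.norm_eq_abs, wedge11]
  have := h i j; have := h j i
  simp only [abs_le] at *
  constructor <;> linarith

lemma norm_J0_mulVec (u : C1) : ‖J0.mulVec u‖ ≤ ‖u‖ := by
  refine (pi_norm_le_iff_of_nonneg (norm_nonneg _)).2 fun i => ?_
  rw [J0_mulVec]
  fin_cases i <;> simp [norm_neg] <;> exact norm_le_pi_norm u _

lemma norm_le_parts {r : C2} (hr : Anti r) : ‖r‖ ≤ n11 r + nM r := by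
  have hd : ∀ i, r i i = 0 := fun i => by have := hr i i; linarith
  have h0 : 0 ≤ n11 r + nM r := by simp only [n11, nM]; positivity
  refine (pi_norm_le_iff_of_nonneg h0).2 fun i => (pi_norm_le_iff_of_nonneg h0).2 fun j => ?_
  rw [Real.norm_eq_abs]
  simp only [n11, nM]
  have := abs_nonneg (r 0 1); have := abs_nonneg (r 2 3)
  have := abs_nonneg (r 0 2 + r 1 3); have := abs_nonneg (r 0 2 - r 1 3)
  have := abs_nonneg (r 0 3 - r 1 2); have := abs_nonneg (r 0 3 + r 1 2)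
  have := le_abs_self (r 0 1); have := neg_abs_le (r 0 1)
  have := le_abs_self (r 2 3); have := neg_abs_le (r 2 3)
  have := le_abs_self (r 0 2 + r 1 3); have := neg_abs_le (r 0 2 + r 1 3)
  have := le_abs_self (r 0 2 - r 1 3); have := neg_abs_le (r 0 2 - r 1 3)
  have := le_abs_self (r 0 3 - r 1 2); have := neg_abs_le (r 0 3 - r 1 2)
  have := le_abs_self (r 0 3 + r 1 2); have := neg_abs_le (r 0 3 + r 1 2)
  have := hr 0 1; have := hr 0 2; have := hr 0 3; have := hr 1 2; have := hr 1 3; have := hr 2 3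
  have := hd 0; have := hd 1; have := hd 2; have := hd 3
  rw [abs_le]
  fin_cases i <;> fin_cases j <;> simp only [Fin.zero_eta, Fin.mk_one, Fin.reduceFinMk] <;>
    constructor <;> linarith

/-- the invariant form `u ∧ J u` only sees the invariant part -/
lemma qH_err (r : C2) (u : C1) : |qH r u u| ≤ 4 * n11 r * ‖u‖ ^ 2 := by
  have e : qH r u u = (u 0 ^ 2 + u 1 ^ 2) * r 2 3 + (u 2 ^ 2 + u 3 ^ 2) * r 0 1
      - (u 2 * u 1 - u 0 * u 3) * (r 0 2 + r 1 3)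
      - (u 2 * u 0 + u 1 * u 3) * (r 0 3 - r 1 2) := by
    simp only [qH, wdg, wedge11, J0_mulVec]
    simp only [Matrix.cons_val_zero, Matrix.cons_val_one, Matrix.cons_val_two,
      Matrix.cons_val_three, Matrix.head_cons, Matrix.tail_cons]
    ring
  have hN : ∀ i j, |u i * u j| ≤ ‖u‖ ^ 2 := fun i j => by
    rw [abs_mul, _root_.sq]
    exact mul_le_mul (abs_le_norm_C1 u i) (abs_le_norm_C1 u j) (abs_nonneg _) (norm_nonneg _)
  have b1 : |u 0 ^ 2 + u 1 ^ 2| ≤ 2 * ‖u‖ ^ 2 := by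
    have h1 := hN 0 0; have h2 := hN 1 1
    simp only [abs_le] at *; constructor <;> nlinarith
  have b2 : |u 2 ^ 2 + u 3 ^ 2| ≤ 2 * ‖u‖ ^ 2 := by
    have h1 := hN 2 2; have h2 := hN 3 3
    simp only [abs_le] at *; constructor <;> nlinarith
  have b3 : |u 2 * u 1 - u 0 * u 3| ≤ 2 * ‖u‖ ^ 2 :=
    (abs_sub _ _).trans (by linarith [hN 2 1, hN 0 3])
  have b4 : |u 2 * u 0 + u 1 * u 3| ≤ 2 * ‖u‖ ^ 2 :=
    (abs_add_le _ _).trans (by linarith [hN 2 0, hN 1 3])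
  rw [e, n11]
  have p : ∀ c x : ℝ, |c| ≤ 2 * ‖u‖ ^ 2 → |c * x| ≤ 2 * ‖u‖ ^ 2 * |x| := fun c x hc => by
    rw [abs_mul]; exact mul_le_mul_of_nonneg_right hc (abs_nonneg _)
  have q1 := p _ (r 2 3) b1; have q2 := p _ (r 0 1) b2
  have q3 := p _ (r 0 2 + r 1 3) b3; have q4 := p _ (r 0 3 - r 1 2) b4
  have : 0 ≤ ‖u‖ ^ 2 := by positivity
  simp only [abs_le] at q1 q2 q3 q4
  rw [abs_le]
  constructor <;>
    nlinarith [abs_nonneg (r 0 1), abs_nonneg (r 2 3), abs_nonneg (r 0 2 + r 1 3),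
      abs_nonneg (r 0 3 - r 1 2)]

/-- lower bound of `b ∧ b` for a perturbation of a semipositive form -/
lemma wdg_self_ge {h r : C2} (hh : Semipos h) :
    -(12 * (tr11 h * n11 r + n11 r ^ 2)) ≤
      wdg (fun i j => h i j + r i j) (fun i j => h i j + r i j) := by
  obtain ⟨-, h1, h2, ha, hd, hdet⟩ := hh
  set A := r 0 1
  set D := r 2 3
  set P := r 0 2 + r 1 3
  set Q := r 0 3 - r 1 2
  have e : wdg (fun i j => h i j + r i j) (fun i j => h i j + r i j) =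
      2 * (h 0 1 * h 2 3 - h 0 2 ^ 2 - h 0 3 ^ 2)
      + 2 * (h 0 1 * D + h 2 3 * A - h 0 2 * P - h 0 3 * Q)
      + 2 * (A * D - P ^ 2 / 4 - Q ^ 2 / 4)
      + 2 * ((r 0 2 - r 1 3) ^ 2 / 4 + (r 0 3 + r 1 2) ^ 2 / 4) := by
    have e2 : h 1 2 = -h 0 3 := by linarith
    simp only [wdg, A, D, P, Q, e2, ← h1]
    ring
  rw [e]
  have hN : n11 r = |A| + |D| + |P| + |Q| := rfl
  have hp : |h 0 2| ≤ tr11 h := abs_le_of_sq_le_sq (by rw [tr11]; nlinarith)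
    (by rw [tr11]; linarith)
  have hq : |h 0 3| ≤ tr11 h := abs_le_of_sq_le_sq (by rw [tr11]; nlinarith)
    (by rw [tr11]; linarith)
  have t1 : -(h 0 1 * D) ≤ tr11 h * |D| := by rw [tr11]; nlinarith [neg_abs_le D, abs_nonneg D]
  have t2 : -(h 2 3 * A) ≤ tr11 h * |A| := by rw [tr11]; nlinarith [neg_abs_le A, abs_nonneg A]
  have t3 : h 0 2 * P ≤ tr11 h * |P| :=
    (le_abs_self _).trans (by rw [abs_mul]; exact mul_le_mul_of_nonneg_right hp (abs_nonneg _))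
  have t4 : h 0 3 * Q ≤ tr11 h * |Q| :=
    (le_abs_self _).trans (by rw [abs_mul]; exact mul_le_mul_of_nonneg_right hq (abs_nonneg _))
  have hN0 : 0 ≤ n11 r := by rw [hN]; positivity
  have t5 : -(A * D) ≤ n11 r ^ 2 := by
    have h5 : |A| * |D| ≤ n11 r * n11 r :=
      mul_le_mul (by rw [hN]; linarith [abs_nonneg D, abs_nonneg P, abs_nonneg Q])
        (by rw [hN]; linarith [abs_nonneg A, abs_nonneg P, abs_nonneg Q]) (abs_nonneg _) hN0
    rw [← abs_mul] at h5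
    nlinarith [neg_abs_le (A * D)]
  have t6 : P ^ 2 + Q ^ 2 ≤ 2 * n11 r ^ 2 := by
    have hP : |P| ≤ n11 r := by rw [hN]; linarith [abs_nonneg A, abs_nonneg D, abs_nonneg Q]
    have hQ : |Q| ≤ n11 r := by rw [hN]; linarith [abs_nonneg A, abs_nonneg D, abs_nonneg P]
    have := pow_le_pow_left₀ (abs_nonneg P) hP 2
    have := pow_le_pow_left₀ (abs_nonneg Q) hQ 2
    rw [sq_abs] at *
    linarith
  have ht : 0 ≤ tr11 h := by rw [tr11]; linarith
  have : 0 ≤ tr11 h * n11 r := mul_nonneg ht hN0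
  have expand : tr11 h * n11 r = tr11 h * |A| + tr11 h * |D| + tr11 h * |P| + tr11 h * |Q| := by
    rw [hN]; ring
  nlinarith [sq_nonneg (r 0 2 - r 1 3), sq_nonneg (r 0 3 + r 1 2), sq_nonneg (n11 r)]

/-- the contraction `i ↦ Σ_j u_j b_{j i}` -/
def iot (u : C1) (b : C2) : C1 := fun i => ∑ j, u j * b j i

/-- a component of `u ∧ b` -/
def c3 (u : C1) (b : C2) (i j k : Fin 4) : ℝ := u i * b j k + u j * b k i + u k * b i j

/-- the frame identity: contraction equals trace times `J u`, up to `u ∧ b` and anti-invariant part -/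
lemma iot_identity {b : C2} (hb : Anti b) (u : C1) (i : Fin 4) :
    |iot u b i - tr11 b * J0.mulVec u i| ≤
      |c3 u b 1 2 3| + |c3 u b 0 2 3| + |c3 u b 0 1 3| + |c3 u b 0 1 2| + 2 * ‖u‖ * nM b := by
  have hd : ∀ i, b i i = 0 := fun i => by have := hb i i; linarith
  have a1 : b 1 0 = -b 0 1 := hb 0 1
  have a2 : b 2 0 = -b 0 2 := hb 0 2
  have a3 : b 3 0 = -b 0 3 := hb 0 3
  have a4 : b 2 1 = -b 1 2 := hb 1 2
  have a5 : b 3 1 = -b 1 3 := hb 1 3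
  have a6 : b 3 2 = -b 2 3 := hb 2 3
  have hn : ∀ j, ∀ x : ℝ, |x| ≤ nM b → |u j * x| ≤ ‖u‖ * nM b := fun j x hx => by
    rw [abs_mul]; exact mul_le_mul (abs_le_norm_C1 u j) hx (abs_nonneg _) (norm_nonneg _)
  have m1 : |b 0 2 - b 1 3| ≤ nM b := le_add_of_nonneg_right (abs_nonneg _)
  have m2 : |b 0 3 + b 1 2| ≤ nM b := le_add_of_nonneg_left (abs_nonneg _)
  have x0 := hn 0 _ m1; have x1 := hn 1 _ m1; have x2 := hn 2 _ m1; have x3 := hn 3 _ m1
  have y0 := hn 0 _ m2; have y1 := hn 1 _ m2; have y2 := hn 2 _ m2; have y3 := hn 3 _ m2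
  simp only [abs_le] at x0 x1 x2 x3 y0 y1 y2 y3
  have := le_abs_self (c3 u b 1 2 3); have := neg_abs_le (c3 u b 1 2 3)
  have := le_abs_self (c3 u b 0 2 3); have := neg_abs_le (c3 u b 0 2 3)
  have := le_abs_self (c3 u b 0 1 3); have := neg_abs_le (c3 u b 0 1 3)
  have := le_abs_self (c3 u b 0 1 2); have := neg_abs_le (c3 u b 0 1 2)
  have := abs_nonneg (c3 u b 1 2 3); have := abs_nonneg (c3 u b 0 2 3)
  have := abs_nonneg (c3 u b 0 1 3); have := abs_nonneg (c3 u b 0 1 2)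
  fin_cases i <;>
    simp only [iot, Fin.sum_univ_four, J0_mulVec, tr11, c3, hd, a1, a2, a3, a4, a5, a6,
      Fin.zero_eta, Fin.mk_one, Fin.reduceFinMk, Matrix.cons_val_zero, Matrix.cons_val_one,
      Matrix.cons_val_two, Matrix.cons_val_three, Matrix.head_cons, Matrix.tail_cons] at * <;>
    rw [abs_le] <;> constructor <;> linarith

end Vale.Agent.P204.Heart
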