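import Vale.Agent.P204.Heart.Kernel

/-!
P204, heart: the frozen mollifier is an approximate identity.
-/

namespace Vale.Agent.P204.Heart

open MeasureTheory Vale.Agent.P204.Full
open scoped ContDiff

/-- proof of the frozen statement `ApproxStmt` -/
theorem approxStmt_holds : ApproxStmt := by
  intro F u hu δ hδ
  set φ : E4 → E4 → ℝ := fun y w => bump34 y * u y * kker F 1 y w with hφ
  have hvc : Continuous fun y => bump34 y * u y := bump34.continuous.mul hu
  have hφc : Continuous fun p : E4 × E4 => φ p.1 p.2 :=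
    (hvc.comp continuous_fst).mul (Kernel.contDiff_kker F one_pos).continuous
  have hzero : ∀ y, y ∉ cb 4 → bump34 y = 0 := fun y hy => by
    by_contra h
    have h1 : y ∈ Function.support (bump34 : E4 → ℝ) := h
    rw [bump34.support_eq] at h1
    exact hy (Metric.ball_subset_closedBall h1)
  obtain ⟨C, hC, hK⟩ := Kernel.kernel_bounds F
  obtain ⟨M, hM0, hM⟩ := Kernel.exists_bound hvc
  have hdom : ∀ y w, ‖φ y w‖ ≤ M * C * (8 / (1 + ‖w‖ ^ 2) ^ 3) := by
    intro y w
    by_cases hy : y ∈ cb 4
    · rw [Real.norm_eq_abs, hφ, abs_mul, abs_of_nonneg (Kernel.kker_nonneg one_pos y w), mul_assoc]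
      refine mul_le_mul (hM y hy) ?_ (Kernel.kker_nonneg one_pos y w) hM0
      refine ((hK 1 one_pos y hy w).2.2.2.2.2.2).trans ?_
      rw [one_pow, add_comm (‖w‖ ^ 2) 1, mul_one]
      calc C / (1 + ‖w‖ ^ 2) ^ 3 ≤ 8 * C / (1 + ‖w‖ ^ 2) ^ 3 := by gcongr; linarith
        _ = _ := by ring
    · rw [hφ]; simp only [hzero y hy, zero_mul, norm_zero]; positivity
  set G : E4 × ℝ → ℝ := fun p => ∫ w, φ (p.1 - p.2 • w) w with hG
  have hGc : Continuous G := by
    refine continuous_of_dominated (fun p => ?_) (fun p => Filter.Eventually.of_forall fun w => hdom _ w)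
      (Kernel.mc_integrable.const_mul (M * C)) (Filter.Eventually.of_forall fun w => ?_)
    · exact (hφc.comp ((continuous_const.sub (continuous_id.const_smul p.2)).prodMk
        continuous_id)).aestronglyMeasurable
    · exact hφc.comp ((continuous_fst.sub (continuous_snd.smul continuous_const)).prodMk
        continuous_const)
  have hG0 : ∀ x ∈ cb 3, G (x, 0) = u x := by
    intro x hx
    have h1 : bump34 x = 1 := bump34.one_of_mem_closedBall hx
    simp [hG, hφ, integral_const_mul, Kernel.integral_kker one_pos, h1]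
  have hGσ : ∀ σ, 0 < σ → ∀ x, moll F σ u x = G (x, σ) := by
    intro σ hσ x
    have h := Measure.integral_comp_smul (volume : Measure E4)
      (fun z => bump34 (x - z) * u (x - z) * kker F σ (x - z) z) σ
    have h2 : moll F σ u x = ∫ z, bump34 (x - z) * u (x - z) * kker F σ (x - z) z := by
      rw [moll, ← integral_sub_left_eq_self (fun y => bump34 y * u y * kker F σ y (x - y)) volume x]
      simp only [sub_sub_cancel]
    rw [h2]
    have h3 : G (x, σ) = σ ^ 4 * ∫ w, bump34 (x - σ • w) * u (x - σ • w) *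
        kker F σ (x - σ • w) (σ • w) := by
      rw [← integral_const_mul]
      refine integral_congr_ae (Filter.Eventually.of_forall fun w => ?_)
      simp only [hφ, ← Kernel.kker_scale hσ (x - σ • w) w]
      ring
    rw [h3, h, finrank_euclideanSpace, Fintype.card_fin, smul_eq_mul,
      abs_of_pos (by positivity : 0 < (σ ^ 4)⁻¹), ← mul_assoc,
      mul_inv_cancel₀ (pow_ne_zero 4 hσ.ne'), one_mul]
  have huc : UniformContinuousOn G (cb 3 ×ˢ Set.Icc 0 1) :=
    ((isCompact_closedBall (0 : E4) 3).prod isCompact_Icc).uniformContinuousOn_of_continuous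
      hGc.continuousOn
  rw [Metric.uniformContinuousOn_iff] at huc
  obtain ⟨η, hη, hu'⟩ := huc δ hδ
  refine ⟨min η 1, lt_min hη one_pos, fun σ hσ hσ' x hx => ?_⟩
  have hσ1 : σ ≤ 1 := (hσ'.trans_le (min_le_right _ _)).le
  have hd : dist ((x, σ) : E4 × ℝ) (x, 0) < η := by
    rw [Prod.dist_eq, dist_self, Real.dist_eq, sub_zero, abs_of_pos hσ]
    exact max_lt hη (hσ'.trans_le (min_le_left _ _))
  have h := hu' (x, σ) ⟨hx, hσ.le, hσ1⟩ (x, 0) ⟨hx, le_refl _, zero_le_one⟩ hd
  rw [Real.dist_eq] at h
  rw [hGσ σ hσ x, ← hG0 x hx]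
  exact h.le

end Vale.Agent.P204.Heart
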