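import Vale.Agent.P204.Heart.Defs
import Vale.Agent.P204.Full.Op.Smooth

/-!
P204, analytic heart: integrals against a kernel `G (y, x - y)` frozen at the integration point,
integration by parts, and the local integrals of the powers `‖z‖⁻²`, `‖z‖⁻³`.
-/

namespace Vale.Agent.P204.Heart

open MeasureTheory Vale.Agent.P204.Full Set Metric Module
open scoped ContDiff

/-- a density integrated against a kernel frozen at the integration point -/
noncomputable def kconv (G : E4 × E4 → ℝ) (k : E4 → ℝ) (x : E4) : ℝ := ∫ y, k y * G (y, x - y)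

/-- derivative of a kernel in the point of freezing -/
noncomputable def pdy (G : E4 × E4 → ℝ) (i : Fin 4) (p : E4 × E4) : ℝ := fderiv ℝ G p (ev4 i, 0)

/-- derivative of a kernel in the displacement -/
noncomputable def pdz (G : E4 × E4 → ℝ) (i : Fin 4) (p : E4 × E4) : ℝ := fderiv ℝ G p (0, ev4 i)

section Kconv

variable {G : E4 × E4 → ℝ} {k : E4 → ℝ}

lemma contDiff_pdy (hG : ContDiff ℝ ∞ G) (i : Fin 4) : ContDiff ℝ ∞ (pdy G i) :=
  (hG.fderiv_right (m := ∞) le_rfl).clm_apply contDiff_const

lemma contDiff_pdz (hG : ContDiff ℝ ∞ G) (i : Fin 4) : ContDiff ℝ ∞ (pdz G i) :=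
  (hG.fderiv_right (m := ∞) le_rfl).clm_apply contDiff_const

lemma pdz_eq_pd (hG : ContDiff ℝ ∞ G) (i : Fin 4) (y z : E4) :
    pdz G i (y, z) = pd (fun w => G (y, w)) i z := by
  have h := ((hG.differentiable (by simp) (y, z)).hasFDerivAt.comp z
    (hasFDerivAt_prodMk_right (𝕜 := ℝ) y z)).fderiv
  simp only [Function.comp_def] at h
  simp [pd, pdz, h]

lemma pdy_eq_pd (hG : ContDiff ℝ ∞ G) (i : Fin 4) (y z : E4) :
    pdy G i (y, z) = pd (fun w => G (w, z)) i y := by
  have h := ((hG.differentiable (by simp) (y, z)).hasFDerivAt.comp y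
    (hasFDerivAt_prodMk_left (𝕜 := ℝ) y z)).fderiv
  simp only [Function.comp_def] at h
  simp [pd, pdy, h]

lemma contDiff_kernel_arg :
    ContDiff ℝ ∞ fun p : E4 × E4 => ((p.1, p.2 - p.1) : E4 × E4) :=
  contDiff_fst.prodMk (contDiff_snd.sub contDiff_fst)

lemma continuous_kernel_arg (x : E4) : Continuous fun y : E4 => ((y, x - y) : E4 × E4) :=
  continuous_id.prodMk (continuous_const.sub continuous_id)

lemma integrable_kconv (hG : Continuous G) (hk : Continuous k) (hks : HasCompactSupport k)
    (x : E4) : Integrable fun y => k y * G (y, x - y) :=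
  (hk.mul (hG.comp (continuous_kernel_arg x))).integrable_of_hasCompactSupport hks.mul_right

lemma kconv_eq_parInt : kconv G k = Op.parInt k fun y x => G (y, x - y) := rfl

lemma contDiff_kconv (hG : ContDiff ℝ ∞ G) (hk : Continuous k) (hks : HasCompactSupport k) :
    ContDiff ℝ ∞ (kconv G k) :=
  Op.contDiff_parInt (g := fun y x => G (y, x - y)) hk hks (hG.comp contDiff_kernel_arg)

lemma pd_kconv (hG : ContDiff ℝ ∞ G) (hk : Continuous k) (hks : HasCompactSupport k) (i : Fin 4)
    (x : E4) : pd (kconv G k) i x = kconv (pdz G i) k x := by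
  set g : E4 → E4 → ℝ := fun y w => G (y, w - y) with hg
  have hgs : ContDiff ℝ ∞ fun p : E4 × E4 => g p.1 p.2 := hG.comp contDiff_kernel_arg
  have hd : ∀ y w, fderiv ℝ (g y) w (ev4 i) = pdz G i (y, w - y) := fun y w => by
    have h := ((hG.differentiable (by simp) (y, w - y)).hasFDerivAt.comp w
      ((hasFDerivAt_prodMk_right (𝕜 := ℝ) y (w - y)).comp w
        ((hasFDerivAt_id w).sub_const y))).fderiv
    simp only [Function.comp_def, id] at h
    simp [hg, pdz, h]
  have h3' : ContDiff ℝ ∞ fun p : E4 × E4 => fderiv ℝ (g p.1) p.2 :=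
    ContDiff.fderiv (m := ∞) (f := fun p : E4 × E4 => g p.1)
      (hgs.comp ((contDiff_fst.comp contDiff_fst).prodMk contDiff_snd)) contDiff_snd le_rfl
  have h1 := Op.hasFDerivAt_parInt (g := g) hk hks (hgs.of_le (mod_cast le_top)) x
  rw [kconv_eq_parInt, pd, h1.fderiv]
  simp only [Op.parInt]
  rw [ContinuousLinearMap.integral_apply (Op.integrable_par hk hks h3'.continuous x)]
  simp only [_root_.smul_apply, smul_eq_mul, hd, kconv]

lemma abs_kconv_le (hG : Continuous G) (hk : Continuous k) (hks : HasCompactSupport k) (x : E4)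
    {φ : E4 → ℝ} (hφ : Integrable φ) (h : ∀ y, |k y * G (y, x - y)| ≤ φ y) :
    |kconv G k x| ≤ ∫ y, φ y :=
  abs_integral_le_integral_abs.trans
    (integral_mono (integrable_kconv hG hk hks x).abs hφ h)

/-- the integral of a derivative of a compactly supported function vanishes -/
lemma integral_pd_eq_zero {φ : E4 → ℝ} (hφ : ContDiff ℝ 1 φ) (hc : HasCompactSupport φ)
    (i : Fin 4) : ∫ x, pd φ i x = 0 := by
  have h := integral_mul_fderiv_eq_neg_fderiv_mul_of_integrable (μ := (volume : Measure E4))
    (f := fun _ : E4 => (1 : ℝ)) (g := φ) (v := ev4 i) (by simp)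
    (by simpa using ((hφ.continuous_fderiv one_ne_zero).clm_apply continuous_const
      |>.integrable_of_hasCompactSupport (hc.fderiv_apply ℝ (ev4 i))))
    (by simpa using hφ.continuous.integrable_of_hasCompactSupport hc)
    (fun x _ => differentiableAt_const _) (fun x _ => hφ.differentiable one_ne_zero x)
  simpa [pd] using h

/-- integration by parts, scalar version -/
lemma integral_mul_pd {φ ψ : E4 → ℝ} (hφ : ContDiff ℝ 1 φ) (hψ : ContDiff ℝ 1 ψ)
    (hc : HasCompactSupport φ) (i : Fin 4) :
    ∫ x, φ x * pd ψ i x = -∫ x, pd φ i x * ψ x := by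
  refine integral_mul_fderiv_eq_neg_fderiv_mul_of_integrable ?_ ?_ ?_
    (fun x _ => hφ.differentiable one_ne_zero x) (fun x _ => hψ.differentiable one_ne_zero x)
  · exact (((hφ.continuous_fderiv one_ne_zero).clm_apply continuous_const).mul
      hψ.continuous).integrable_of_hasCompactSupport (hc.fderiv_apply ℝ (ev4 i)).mul_right
  · exact (hφ.continuous.mul ((hψ.continuous_fderiv one_ne_zero).clm_apply
      continuous_const)).integrable_of_hasCompactSupport hc.mul_right
  · exact (hφ.continuous.mul hψ.continuous).integrable_of_hasCompactSupport hc.mul_right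

/-- a derivative in the displacement is moved to the density and to the point of freezing -/
lemma kconv_pdz (hG : ContDiff ℝ ∞ G) (hk : ContDiff ℝ 1 k) (hks : HasCompactSupport k)
    (i : Fin 4) (x : E4) :
    kconv (pdz G i) k x = kconv (pdy G i) k x + kconv G (pd k i) x := by
  set ψ : E4 → ℝ := fun y => G (y, x - y) with hψ
  have hψ1 : ContDiff ℝ 1 ψ :=
    (hG.of_le (mod_cast le_top)).comp (contDiff_id.prodMk (contDiff_const.sub contDiff_id))
  have hd : ∀ y, pd ψ i y = pdy G i (y, x - y) - pdz G i (y, x - y) := fun y => by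
    have h0 : HasFDerivAt (fun w : E4 => ((w, x - w) : E4 × E4))
        ((ContinuousLinearMap.id ℝ E4).prod (-ContinuousLinearMap.id ℝ E4)) y :=
      (hasFDerivAt_id y).prodMk ((hasFDerivAt_id y).const_sub x)
    have h := (HasFDerivAt.comp (x := y) (g := G)
      (hG.differentiable (by simp) (y, x - y)).hasFDerivAt h0).fderiv
    simp only [Function.comp_def] at h
    have hsplit : ((ev4 i, -ev4 i) : E4 × E4) = (ev4 i, 0) - (0, ev4 i) := by simp
    simp only [pd, hψ, h, ContinuousLinearMap.comp_apply, ContinuousLinearMap.prod_apply,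
      ContinuousLinearMap.id_apply, _root_.neg_apply]
    rw [hsplit, map_sub]
    rfl
  have hp := integral_mul_pd hk hψ1 hks i
  simp only [hd, mul_sub] at hp
  rw [integral_sub (integrable_kconv (contDiff_pdy hG i).continuous hk.continuous hks x)
    (integrable_kconv (contDiff_pdz hG i).continuous hk.continuous hks x)] at hp
  simp only [kconv]
  linarith

end Kconv

section Powers

lemma finrank_E4 : finrank ℝ E4 = 4 := finrank_euclideanSpace_fin

/-- the powers `‖z‖⁻ᵐ`, `m ≤ 3`, are integrable near the origin -/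
lemma integrableOn_inv_norm_pow (m : ℕ) (hm : m ≤ 3) (r : ℝ) :
    IntegrableOn (fun z : E4 => (‖z‖ ^ m)⁻¹) (ball 0 r) := by
  refine integrableOn_ball_of_norm_le_rpow (C := 1) (α := m) (by rw [finrank_E4]; norm_num)
    (by rw [finrank_E4]; exact_mod_cast Nat.lt_succ_of_le hm) ?_ ?_
  · refine Filter.Eventually.of_forall fun z => ?_
    rw [Real.rpow_neg (norm_nonneg z), Real.rpow_natCast, one_mul, Real.norm_eq_abs,
      abs_of_nonneg (by positivity)]
  · exact ((measurable_norm.pow_const m).inv).aestronglyMeasurable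

/-- integral of `‖z‖⁻ᵐ` over the unit ball -/
noncomputable def powConst (m : ℕ) : ℝ := ∫ z in ball (0 : E4) 1, (‖z‖ ^ m)⁻¹

lemma powConst_nonneg (m : ℕ) : 0 ≤ powConst m :=
  setIntegral_nonneg measurableSet_ball fun z _ => by positivity

/-- scaling of the integral of `‖z‖⁻ᵐ` over a ball -/
lemma integral_inv_norm_pow_ball (m : ℕ) {r : ℝ} (hr : 0 < r) :
    ∫ z in ball (0 : E4) r, (‖z‖ ^ m)⁻¹ = r ^ 4 * (r ^ m)⁻¹ * powConst m := by
  have h := Measure.setIntegral_comp_smul_of_pos (volume : Measure E4)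
    (fun z : E4 => (‖z‖ ^ m)⁻¹) (ball 0 1) hr
  rw [finrank_E4, smul_eq_mul, _root_.smul_unitBall_of_pos hr] at h
  simp only [norm_smul, Real.norm_eq_abs, abs_of_pos hr, mul_pow, mul_inv] at h
  rw [integral_const_mul] at h
  rw [powConst]
  field_simp at h ⊢
  linarith [h]

end Powers

end Vale.Agent.P204.Heart
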