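import Vale.Agent.P204.Heart.Spec
import Vale.Agent.P204.Heart.Conv
import Vale.Agent.P204.Heart.Kernel

/-!
P204, heart: composition of two kernels of order three.
-/

namespace Vale.Agent.P204.Heart

open MeasureTheory Vale.Agent.P204.Full Set Metric
open scoped ContDiff

namespace Compose

/-- truncated `‖z‖⁻³` -/
noncomputable def trunc (R : ℝ) (z : E4) : ℝ := (ball (0 : E4) R).indicator (fun z => (‖z‖ ^ 3)⁻¹) z

lemma trunc_nonneg (R : ℝ) (z : E4) : 0 ≤ trunc R z :=
  indicator_nonneg (fun z _ => by positivity) z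

lemma integrable_trunc (R : ℝ) : Integrable (trunc R) :=
  (integrable_indicator_iff measurableSet_ball).2 (integrableOn_inv_norm_pow 3 le_rfl R)

lemma integral_trunc {R : ℝ} (hR : 0 < R) : ∫ z, trunc R z = R * powConst 3 := by
  unfold trunc
  rw [integral_indicator measurableSet_ball, integral_inv_norm_pow_ball 3 hR]
  field_simp

/-- smooth tail kernel -/
noncomputable def tail (D : ℝ) (z : E4) : ℝ := 8 / (D ^ 2 + ‖z‖ ^ 2) ^ 3

lemma tail_scale {D : ℝ} (hD : 0 < D) (w : E4) :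
    tail D (D • w) = (D ^ 6)⁻¹ * (8 / (1 + ‖w‖ ^ 2) ^ 3) := by
  rw [tail, norm_smul, Real.norm_eq_abs, abs_of_pos hD,
    show D ^ 2 + (D * ‖w‖) ^ 2 = D ^ 2 * (1 + ‖w‖ ^ 2) by ring, mul_pow]
  field_simp

lemma integrable_tail {D : ℝ} (hD : 0 < D) : Integrable (tail D) := by
  rw [← integrable_comp_smul_iff (volume : Measure E4) (tail D) hD.ne']
  exact (Kernel.mc_integrable.const_mul (D ^ 6)⁻¹).congr
    (Filter.Eventually.of_forall fun w => (tail_scale hD w).symm)

lemma integral_tail {D : ℝ} (hD : 0 < D) : ∫ z, tail D z = mc / D ^ 2 := by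
  have h := Measure.integral_comp_smul (volume : Measure E4) (tail D) D
  simp only [tail_scale hD, integral_const_mul, finrank_E4, smul_eq_mul,
    abs_of_pos (inv_pos.2 (pow_pos hD 4))] at h
  rw [← mc] at h
  field_simp at h ⊢
  linarith

/-- the three-region majorant -/
noncomputable def maj (D : ℝ) (x y u : E4) : ℝ :=
  64 / D ^ 3 * trunc D (u - x) + 64 / D ^ 3 * trunc (3 * D) (u - y) + tail D (u - y)

lemma kernel_le {σ : ℝ} (hσ : 0 < σ) (x y u : E4) (hu : u ≠ y) :
    (Real.sqrt (‖u - y‖ ^ 2 + σ ^ 2) ^ 3)⁻¹ / ‖x - u‖ ^ 3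
      ≤ maj (Real.sqrt (‖x - y‖ ^ 2 + σ ^ 2)) x y u := by
  set D := Real.sqrt (‖x - y‖ ^ 2 + σ ^ 2) with hD
  set S := Real.sqrt (‖u - y‖ ^ 2 + σ ^ 2) with hS
  set v := ‖x - u‖ with hv
  set w := ‖u - y‖ with hw
  have hD0 : 0 < D := Real.sqrt_pos.2 (by positivity)
  have hw0 : 0 < w := by rw [hw]; exact norm_pos_iff.2 (sub_ne_zero.2 hu)
  have hv0 : 0 ≤ v := norm_nonneg _
  have hSw : w ≤ S := Real.le_sqrt_of_sq_le (le_add_of_nonneg_right (sq_nonneg σ))
  have hSD : D ≤ S + v := by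
    rw [hD, Real.sqrt_le_left (by positivity)]
    have hr : ‖x - y‖ ≤ v + w := norm_sub_le_norm_sub_add_norm_sub x u y
    have h2 : ‖x - y‖ ^ 2 ≤ (v + w) ^ 2 := pow_le_pow_left₀ (norm_nonneg _) hr 2
    have hS2 : S ^ 2 = w ^ 2 + σ ^ 2 := Real.sq_sqrt (by positivity)
    nlinarith [mul_le_mul_of_nonneg_left hSw hv0]
  have t1 := trunc_nonneg D (u - x)
  have t2 := trunc_nonneg (3 * D) (u - y)
  have t3 : 0 ≤ tail D (u - y) := by unfold tail; positivity
  have hc : 0 ≤ 64 / D ^ 3 := by positivity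
  rcases lt_or_ge v (D / 4) with h | h
  · have he : trunc D (u - x) = (v ^ 3)⁻¹ := by
      have h1 : u - x ∈ ball (0 : E4) D := by
        rw [mem_ball, dist_zero_right, norm_sub_rev]; linarith
      rw [trunc, indicator_of_mem h1, norm_sub_rev]
    have hS4 : D / 4 ≤ S := by linarith
    calc (S ^ 3)⁻¹ / v ^ 3 ≤ ((D / 4) ^ 3)⁻¹ / v ^ 3 := by gcongr
      _ = 64 / D ^ 3 * trunc D (u - x) := by rw [he]; field_simp; ring
      _ ≤ _ := by unfold maj; linarith [mul_nonneg hc t2]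
  have hvp : 0 < v := lt_of_lt_of_le (by positivity) h
  rcases lt_or_ge w (3 * D) with h' | h'
  · have he : trunc (3 * D) (u - y) = (w ^ 3)⁻¹ := by
      have h1 : u - y ∈ ball (0 : E4) (3 * D) := by rw [mem_ball, dist_zero_right]; exact h'
      rw [trunc, indicator_of_mem h1]
    calc (S ^ 3)⁻¹ / v ^ 3 ≤ (w ^ 3)⁻¹ / (D / 4) ^ 3 := by gcongr
      _ = 64 / D ^ 3 * trunc (3 * D) (u - y) := by rw [he]; field_simp; ring
      _ ≤ _ := by unfold maj; linarith [mul_nonneg hc t1]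
  · have hvw : 2 / 3 * w ≤ v := by
      have hr : ‖x - y‖ ≤ D := Real.le_sqrt_of_sq_le (le_add_of_nonneg_right (sq_nonneg σ))
      have : w ≤ ‖u - x‖ + ‖x - y‖ := norm_sub_le_norm_sub_add_norm_sub u x y
      rw [norm_sub_rev u x, ← hv] at this
      linarith
    calc (S ^ 3)⁻¹ / v ^ 3 ≤ (w ^ 3)⁻¹ / (2 / 3 * w) ^ 3 := by gcongr
      _ ≤ tail D (u - y) := by
        rw [tail, ← hw, inv_eq_one_div, div_div, div_le_div_iff₀ (by positivity) (by positivity)]
        have h1 : D ^ 2 + w ^ 2 ≤ 10 / 9 * w ^ 2 := by nlinarith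
        have h2 : (D ^ 2 + w ^ 2) ^ 3 ≤ (10 / 9 * w ^ 2) ^ 3 := by gcongr
        nlinarith [pow_pos hw0 6]
      _ ≤ _ := by unfold maj; linarith [mul_nonneg hc t1, mul_nonneg hc t2]

lemma integrable_maj {D : ℝ} (hD : 0 < D) (x y : E4) : Integrable (maj D x y) :=
  ((((integrable_trunc D).comp_sub_right x).const_mul _).add
    (((integrable_trunc (3 * D)).comp_sub_right y).const_mul _)).add
    ((integrable_tail hD).comp_sub_right y)

lemma integral_maj {D : ℝ} (hD : 0 < D) (x y : E4) :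
    ∫ u, maj D x y u = (256 * powConst 3 + mc) / D ^ 2 := by
  have a := ((integrable_trunc D).comp_sub_right x).const_mul (64 / D ^ 3)
  have b := ((integrable_trunc (3 * D)).comp_sub_right y).const_mul (64 / D ^ 3)
  have c := (integrable_tail hD).comp_sub_right y
  simp only [maj]
  have ab : Integrable (fun u => 64 / D ^ 3 * trunc D (u - x)
      + 64 / D ^ 3 * trunc (3 * D) (u - y)) := a.add b
  rw [integral_add ab c, integral_add a b, integral_const_mul, integral_const_mul,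
    integral_sub_right_eq_self (trunc D) x, integral_sub_right_eq_self (trunc (3 * D)) y,
    integral_sub_right_eq_self (tail D) y, integral_trunc hD, integral_trunc (by positivity),
    integral_tail hD]
  field_simp
  ring

lemma kernel_integral_le {σ : ℝ} (hσ : 0 < σ) (x y : E4) :
    ∫ u in cb 3, (Real.sqrt (‖u - y‖ ^ 2 + σ ^ 2) ^ 3)⁻¹ / ‖x - u‖ ^ 3
      ≤ (256 * powConst 3 + mc) / (‖x - y‖ ^ 2 + σ ^ 2) := by
  set D := Real.sqrt (‖x - y‖ ^ 2 + σ ^ 2) with hD
  have hD0 : 0 < D := Real.sqrt_pos.2 (by positivity)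
  have hn : ∀ u, 0 ≤ maj D x y u := fun u =>
    add_nonneg (add_nonneg (mul_nonneg (by positivity) (trunc_nonneg _ _))
      (mul_nonneg (by positivity) (trunc_nonneg _ _))) (by unfold tail; positivity)
  calc ∫ u in cb 3, (Real.sqrt (‖u - y‖ ^ 2 + σ ^ 2) ^ 3)⁻¹ / ‖x - u‖ ^ 3
      ≤ ∫ u in cb 3, maj D x y u := by
        refine integral_mono_of_nonneg (Filter.Eventually.of_forall fun u => by positivity)
          (integrable_maj hD0 x y).integrableOn ?_
        refine ae_restrict_of_ae ?_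
        filter_upwards [(volume : Measure E4).ae_ne y] with u hu
        exact kernel_le hσ x y u hu
    _ ≤ ∫ u, maj D x y u :=
        setIntegral_le_integral (integrable_maj hD0 x y) (Filter.Eventually.of_forall hn)
    _ = _ := by rw [integral_maj hD0, Real.sq_sqrt (by positivity)]

end Compose

open Vale.Agent.P204.Heart.Compose in
/-- proof of the frozen statement `ComposeStmt` -/
theorem composeStmt_holds : ComposeStmt := by
  refine ⟨256 * powConst 3 + mc, ?_, fun σ s hσ _ hs hs0 x hx => ?_⟩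
  · have := powConst_nonneg 3; have := Kernel.mc_pos; positivity
  set C := 256 * powConst 3 + mc
  set k : E4 → E4 → ℝ := fun u y =>
    s y * ((Real.sqrt (‖u - y‖ ^ 2 + σ ^ 2) ^ 3)⁻¹ / ‖x - u‖ ^ 3) with hk
  have hsq : Continuous fun p : E4 × E4 => (Real.sqrt (‖p.1 - p.2‖ ^ 2 + σ ^ 2) ^ 3)⁻¹ :=
    ((Real.continuous_sqrt.comp (by fun_prop)).pow 3).inv₀ fun p =>
      (pow_pos (Real.sqrt_pos.2 (by positivity)) 3).ne'
  have hvi : IntegrableOn (fun u => (‖x - u‖ ^ 3)⁻¹) (cb 3) := by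
    refine (((integrable_trunc 7).comp_sub_left x).integrableOn (s := cb 3)).congr_fun
      (fun u hu => ?_) measurableSet_closedBall
    rw [mem_closedBall, dist_zero_right] at hu hx
    refine indicator_of_mem ?_ _
    rw [mem_ball, dist_zero_right]
    linarith [norm_sub_le x u]
  obtain ⟨M, hM⟩ := (isCompact_closedBall (0 : E4) 4).exists_bound_of_continuousOn hs.continuousOn
  have hint : IntegrableOn (fun p : E4 × E4 => k p.1 p.2) (cb 3 ×ˢ cb 4) (volume.prod volume) := by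
    have h4 : IntegrableOn (fun _ : E4 => (1 : ℝ)) (cb 4) :=
      integrableOn_const measure_closedBall_lt_top.ne
    have hb : Integrable (fun p : E4 × E4 => (max M 0 / σ ^ 3) * ((‖x - p.1‖ ^ 3)⁻¹ * 1))
        ((volume.restrict (cb 3)).prod (volume.restrict (cb 4))) :=
      (hvi.mul_prod h4).const_mul _
    rw [Measure.prod_restrict] at hb
    refine hb.mono' (((hs.comp continuous_snd).measurable.mul
      (hsq.measurable.div (by fun_prop))).aestronglyMeasurable) ?_
    refine ae_restrict_of_forall_mem (measurableSet_closedBall.prod measurableSet_closedBall)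
      fun p hp => ?_
    have h1 : |s p.2| ≤ max M 0 := le_max_of_le_left (by simpa using hM p.2 hp.2)
    have h2 : (Real.sqrt (‖p.1 - p.2‖ ^ 2 + σ ^ 2) ^ 3)⁻¹ ≤ (σ ^ 3)⁻¹ := by
      gcongr
      exact Real.le_sqrt_of_sq_le (le_add_of_nonneg_left (sq_nonneg _))
    rw [Real.norm_eq_abs, hk, abs_mul, abs_of_nonneg (by positivity :
      0 ≤ (Real.sqrt (‖p.1 - p.2‖ ^ 2 + σ ^ 2) ^ 3)⁻¹ / ‖x - p.1‖ ^ 3), div_eq_mul_inv _ (‖x - p.1‖ ^ 3)]
    calc |s p.2| * ((Real.sqrt (‖p.1 - p.2‖ ^ 2 + σ ^ 2) ^ 3)⁻¹ * (‖x - p.1‖ ^ 3)⁻¹)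
        ≤ max M 0 * ((σ ^ 3)⁻¹ * (‖x - p.1‖ ^ 3)⁻¹) := by gcongr
      _ = _ := by ring
  rw [IntegrableOn, ← Measure.prod_restrict] at hint
  have hL : (∫ u in cb 3, sing3 4 σ s u / ‖x - u‖ ^ 3) = ∫ u in cb 3, ∫ y in cb 4, k u y := by
    refine integral_congr_ae (Filter.Eventually.of_forall fun u => ?_)
    simp only [hk, sing3]
    rw [← integral_div]
    refine integral_congr_ae (Filter.Eventually.of_forall fun y => ?_)
    ring
  have hpot : IntegrableOn (fun y => C * (s y / (‖x - y‖ ^ 2 + σ ^ 2))) (cb 4) :=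
    (continuous_const.mul (hs.div (by fun_prop) fun y => by positivity)).continuousOn
      |>.integrableOn_compact (isCompact_closedBall _ _)
  rw [hL, integral_integral_swap hint, potB, ← integral_const_mul]
  refine setIntegral_mono_on hint.integral_prod_right hpot measurableSet_closedBall fun y hy => ?_
  simp only [hk, integral_const_mul]
  calc s y * ∫ u in cb 3, (Real.sqrt (‖u - y‖ ^ 2 + σ ^ 2) ^ 3)⁻¹ / ‖x - u‖ ^ 3
      ≤ s y * (C / (‖x - y‖ ^ 2 + σ ^ 2)) :=
        mul_le_mul_of_nonneg_left (kernel_integral_le hσ x y) (hs0 y hy)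
    _ = _ := by ring

end Vale.Agent.P204.Heart
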