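import Vale.Agent.P204.Heart.Defs

/-!
P204, analytic heart (step 4): frozen statements of its modules (propositions only, nothing is asserted).
Each module proves `theorem ..._holds : <Stmt>` in its own file.
-/

namespace Vale.Agent.P204.Heart

open MeasureTheory Vale.Agent.P204.Full
open scoped ContDiff

/-- Kernel: approximate identity. -/
def ApproxStmt : Prop :=
  ∀ (F : Frame) (u : E4 → ℝ), Continuous u → ∀ δ > (0 : ℝ), ∃ σ0 > (0 : ℝ), ∀ σ, 0 < σ → σ < σ0 →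
    ∀ x ∈ cb 3, |moll F σ u x - u x| ≤ δ

/-- Potential: regularity, comparison with the reference potentials, gradient bound, mass. -/
def PotentialStmt : Prop :=
  ∀ F : Frame, ∃ C : ℝ, 0 < C ∧ ∀ (σ : ℝ) (s : E4 → ℝ), 0 < σ → σ ≤ 1 → Continuous s →
    (∀ x ∈ cb 4, 0 ≤ s x) →
      ContDiff ℝ ∞ (upot F σ s) ∧
      (∀ x, 1 ≤ upot F σ s x) ∧
      (∀ x ∈ cb 3, upot F σ s x ≤ C * (1 + potB 4 σ s x)) ∧
      (∀ x ∈ cb 3, 1 + potB 3 σ s x ≤ C * upot F σ s x) ∧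
      (∀ x ∈ cb 3, ∀ i, |pd (upot F σ s) i x| ≤ C * sing3 4 σ s x) ∧
      (∫ x in cb 3, upot F σ s x) ≤ C * (1 + ∫ x in cb 4, s x)

/-- Splitting of the kernel of order three at the scale `e`. -/
def SplitStmt : Prop :=
  ∃ C : ℝ, 0 < C ∧ ∀ (σ e M : ℝ) (s : E4 → ℝ), 0 < σ → σ ≤ e → e ≤ 1 → Continuous s →
    (∀ x ∈ cb 4, 0 ≤ s x) → (∀ x ∈ cb 4, e ^ 2 * s x ≤ M) →
      ∀ x ∈ cb 3, e * sing3 4 σ s x ≤ C * (potB 4 σ s x + M)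

/-- Hardy inequality for the potential of a density. -/
def HardyStmt : Prop :=
  ∀ F : Frame, ∃ C : ℝ, 0 < C ∧ ∀ (σ : ℝ) (s : E4 → ℝ), 0 < σ → σ ≤ 1 → Continuous s →
    (∀ x ∈ cb 4, 0 ≤ s x) → (∀ x ∈ cb (5 / 2), |moll F σ s x - s x| ≤ 1) →
      ∀ w : E4 → ℝ, ContDiff ℝ 1 w → tsupport w ⊆ cb 2 →
        (∫ x, w x ^ 2 * sq (frC F x (dd (fun y => Real.log (upot F σ s y)) x)))
            + (∫ x, w x ^ 2 * s x / upot F σ s x)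
          ≤ C * ∫ x, (w x ^ 2 + sq (dd w x))

/-- Weight: the Gaussian potential of order three. -/
def WeightStmt : Prop :=
  ∃ C : ℝ, 0 < C ∧ ∀ (σ : ℝ) (f : E4 → ℝ), 0 < σ → σ ≤ 1 → Continuous f → HasCompactSupport f →
    (∀ x, 0 ≤ f x) →
      ContDiff ℝ 1 (pot3 σ 32 f) ∧
      (∀ x, 0 ≤ pot3 σ 32 f x) ∧
      (∀ x ∈ cb 4, sing3 4 σ f x ≤ C * pot3 σ 32 f x) ∧
      Integrable (fun x => pot3 σ 32 f x ^ 2 + sq (dd (pot3 σ 32 f) x)) ∧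
      (∫ x, pot3 σ 32 f x ^ 2 + sq (dd (pot3 σ 32 f) x)) ≤ C * ∫ x, f x ^ 2

/-- Homotopy: exact primitive of a closed two-form on a ball, with kernel bound. -/
def HomotopyStmt : Prop :=
  ∃ C : ℝ, 0 < C ∧ ∀ E : E4 → C2, (∀ i j, ContDiff ℝ 1 (fun x => E x i j)) → (∀ x, Anti (E x)) →
    (∀ x ∈ ob 3, ∀ a b c, d2 E x a b c = 0) →
      ∃ A : E4 → C1, (∀ i, ContDiffOn ℝ 1 (fun x => A x i) (ob (5 / 2))) ∧
        (∀ x ∈ ob (5 / 2), d1 A x = E x) ∧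
        (∀ x ∈ ob (5 / 2), ‖A x‖ ≤ C * ∫ y in cb 3, ‖E y‖ / ‖x - y‖ ^ 3)

/-- Composition of the two kernels of order three. -/
def ComposeStmt : Prop :=
  ∃ C : ℝ, 0 < C ∧ ∀ (σ : ℝ) (s : E4 → ℝ), 0 < σ → σ ≤ 1 → Continuous s →
    (∀ x ∈ cb 4, 0 ≤ s x) →
      ∀ x ∈ cb 3, (∫ u in cb 3, sing3 4 σ s u / ‖x - u‖ ^ 3) ≤ C * potB 4 σ s x

/-- Parametrix: a primitive of `B` which is `-J dU` up to `C (U + W)`. -/
def ParametrixStmt : Prop :=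
  ∀ (F : Frame) (C0 : ℝ), ∃ C : ℝ, 0 < C ∧ ∀ D : Data F C0, ∃ σ0 > (0 : ℝ), ∀ σ, 0 < σ → σ < σ0 →
    ∃ A : E4 → C1, (∀ i, ContDiffOn ℝ 1 (fun x => A x i) (ob (5 / 2))) ∧
      (∀ x ∈ ob (5 / 2), d1 A x = D.B x) ∧
      ∀ x ∈ ob (5 / 2),
        ‖frC F x (A x) + J0.mulVec (frC F x (dd (upot F σ D.t) x))‖
          ≤ C * (upot F σ D.t x + pot3 σ 32 D.f x)

/-- Energy: the output of step 4 in a chart. -/
def EnergyStmt : Prop :=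
  ∀ (F : Frame) (C0 : ℝ), ∃ C : ℝ, 0 < C ∧ ∀ D : Data F C0, ∃ σ0 > (0 : ℝ), ∀ σ, 0 < σ → σ < σ0 →
    σ ≤ D.e ∧
    ContDiff ℝ ∞ (upot F σ D.t) ∧
    (∀ x, 1 ≤ upot F σ D.t x) ∧
    (∀ x ∈ cb (5 / 2), upot F σ D.t x ≤ C * (1 + potB 3 σ D.t x)) ∧
    (∀ x ∈ cb (5 / 2), 1 + potB 3 σ D.t x ≤ C * upot F σ D.t x) ∧
    (∀ x ∈ cb (5 / 2), 1 + potB 4 σ D.τ x ≤ C * upot F σ D.t x) ∧
    (∫ x in cb 3, upot F σ D.t x) ≤ C ∧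
    (∀ x ∈ cb 1, ∀ i, D.e * |pd (D.h σ) i x| ≤ C) ∧
    (∫ x in cb 1, sq (dd (D.h σ) x)) ≤ C ∧
    (∫ x in cb 1, qH (pullC (F.P x) (D.H x)) (frC F x (dd (D.h σ) x))
      (frC F x (dd (D.h σ) x))) ≤ C

end Vale.Agent.P204.Heart
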