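import Vale.Agent.P204.Heart.EnergyFrame
import Vale.Agent.P204.Heart.Spec

/-!
P204 heart: the energy estimate in a chart, from the module statements.
-/

namespace Vale.Agent.P204.Heart

open MeasureTheory Vale.Agent.P204.Full Set Metric
open scoped ContDiff

/-- cutoff from `cb 1` to `cb 2` -/
noncomputable def bump12 : ContDiffBump (0 : E4) where
  rIn := 1
  rOut := 2
  rIn_pos := by norm_num
  rIn_lt_rOut := by norm_num

lemma tsupport_bump12 : tsupport (bump12 : E4 → ℝ) = cb 2 := bump12.tsupport_eq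

lemma bump12_bound : ∃ K, 1 ≤ K ∧ ∀ x : E4, ‖dd (bump12 : E4 → ℝ) x‖ ≤ K := by
  have hc : Continuous fun x : E4 => dd (bump12 : E4 → ℝ) x :=
    continuous_dd bump12.contDiff
  obtain ⟨K, hK⟩ := (isCompact_closedBall (0 : E4) 2).exists_bound_of_continuousOn hc.continuousOn
  refine ⟨max K 1, le_max_right _ _, fun x => ?_⟩
  by_cases hx : x ∈ cb 2
  · exact (hK x hx).trans (le_max_left _ _)
  · have hz : dd (bump12 : E4 → ℝ) x = 0 := by
      funext i
      rw [← tsupport_bump12] at hx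
      simp [dd, pd, fderiv_of_notMem_tsupport ℝ hx]
    simp [hz]

lemma cutoff_weight {W : E4 → ℝ} {Kd M : ℝ} (hKd1 : 1 ≤ Kd)
    (hKd : ∀ x : E4, ‖dd (bump12 : E4 → ℝ) x‖ ≤ Kd) (hWc : ContDiff ℝ 1 W)
    (hWi : Integrable fun x => W x ^ 2 + sq (dd W x))
    (hWb : (∫ x, W x ^ 2 + sq (dd W x)) ≤ M) :
    (∫ x, ((bump12 x * W x) ^ 2 + sq (dd (fun y => bump12 y * W y) x))) ≤ 9 * Kd ^ 2 * M := by
  set w : E4 → ℝ := fun x => bump12 x * W x with hw
  have hwc : ContDiff ℝ 1 w := bump12.contDiff.mul hWc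
  have hws : tsupport w ⊆ cb 2 := by
    rw [← tsupport_bump12]; exact tsupport_mul_subset_left
  have hint : Integrable fun x => w x ^ 2 + sq (dd w x) :=
    Continuous.integrable_of_hasCompactSupport
      ((hwc.continuous.pow 2).add (continuous_sq (continuous_dd hwc)))
      (HasCompactSupport.intro (isCompact_closedBall _ _) (K := cb 2) fun x hx => by
        simp [image_eq_zero_of_notMem_tsupport (fun h => hx (hws h)), sq, dd, pd,
          fderiv_of_notMem_tsupport ℝ fun h => hx (hws h)])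
  refine le_trans (integral_mono (g := fun x => 9 * Kd ^ 2 * (W x ^ 2 + sq (dd W x))) hint
    (hWi.const_mul _) fun x => ?_) ?_
  · have e : dd w x = W x • dd (bump12 : E4 → ℝ) x + bump12 x • dd W x :=
      dd_mul (bump12.contDiffAt.differentiableAt (n := 1) one_ne_zero)
        (hWc.differentiable one_ne_zero x)
    have hc2 : bump12 x ^ 2 ≤ 1 := pow_le_one₀ bump12.nonneg bump12.le_one
    have hsd : sq (dd (bump12 : E4 → ℝ) x) ≤ 4 * Kd ^ 2 :=
      (sq_le_norm _).trans (by gcongr; exact hKd x)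
    have hK2' : 1 ≤ Kd ^ 2 := one_le_pow₀ hKd1
    have h2 : sq (dd w x) ≤
        2 * (W x ^ 2 * sq (dd (bump12 : E4 → ℝ) x)) + 2 * (bump12 x ^ 2 * sq (dd W x)) := by
      rw [e]
      simp only [sq, Finset.mul_sum, ← Finset.sum_add_distrib]
      refine Finset.sum_le_sum fun i _ => ?_
      simp only [Pi.add_apply, Pi.smul_apply, smul_eq_mul]
      have := two_mul_le_add_sq (W x * dd (bump12 : E4 → ℝ) x i) (bump12 x * dd W x i)
      linarith
    have h3 : w x ^ 2 ≤ W x ^ 2 := by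
      rw [hw, mul_pow]; exact mul_le_of_le_one_left (sq_nonneg _) hc2
    have h4 := mul_le_mul_of_nonneg_left hsd (sq_nonneg (W x))
    have h5 := mul_le_of_le_one_left (sq_nonneg' (dd W x)) hc2
    have h6 := mul_le_mul_of_nonneg_right hK2' (sq_nonneg (W x))
    have h7 := mul_le_mul_of_nonneg_right hK2' (sq_nonneg' (dd W x))
    linarith [sq_nonneg (W x), sq_nonneg' (dd W x)]
  · rw [integral_const_mul]; exact mul_le_mul_of_nonneg_left hWb (by positivity)

lemma integral_phi_le {χ U W τ f g : E4 → ℝ} {e a1 a2 a3 a4 a5 a6 a7 a8 a9 : ℝ} {v : E4 → C1}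
    (hχ : Continuous χ) (hU : Continuous U) (hU1 : ∀ x, 1 ≤ U x) (hW : Continuous W)
    (hτ : Continuous τ) (hf : Continuous f) (hg : Continuous g) (hv : Continuous v)
    (P1 : ∫ _ in cb 2, (1 : ℝ) ≤ a1) (P2 : ∫ x in cb 2, τ x ≤ a2)
    (P3 : ∫ x in cb 2, f x ^ 2 ≤ a3) (P4 : ∫ x in cb 2, g x ^ 2 / e ^ 2 ≤ a4)
    (P5 : ∫ x in cb 2, e ^ 2 * τ x ^ 2 ≤ a5) (P6 : ∫ x in cb 2, W x ^ 2 ≤ a6)
    (P7 : ∫ x in cb 2, χ x ^ 2 * sq (v x) ≤ a7)
    (P8 : ∫ x in cb 2, χ x ^ 2 * W x ^ 2 * sq (v x) ≤ a8)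
    (P9 : ∫ x in cb 2, χ x ^ 2 * τ x * W x ^ 2 / U x ≤ a9) :
    IntegrableOn (fun x => phiE (χ x) (U x) (W x) (τ x) (f x) (g x) e (v x)) (cb 2) ∧
      ∫ x in cb 2, phiE (χ x) (U x) (W x) (τ x) (f x) (g x) e (v x) ≤
        a1 + a2 + a3 + a4 + a5 + a6 + a7 + a8 + a9 := by
  have ii : ∀ {k : E4 → ℝ}, Continuous k → Integrable k (volume.restrict (cb 2)) := fun hk =>
    hk.continuousOn.integrableOn_compact (isCompact_closedBall _ _)
  have hS := continuous_sq hv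
  have i1 := ii (continuous_const (y := (1 : ℝ)))
  have i2 := ii hτ
  have i3 := ii (hf.fun_pow 2)
  have i4 := ii ((hg.fun_pow 2).div_const (e ^ 2))
  have i5 := ii ((continuous_const (y := e ^ 2)).fun_mul (hτ.fun_pow 2))
  have i6 := ii (hW.fun_pow 2)
  have i7 := ii ((hχ.fun_pow 2).fun_mul hS)
  have i8 := ii (((hχ.fun_pow 2).fun_mul (hW.fun_pow 2)).fun_mul hS)
  have i9 := ii ((((hχ.fun_pow 2).fun_mul hτ).fun_mul (hW.fun_pow 2)).div₀ hU
    fun x => (one_pos.trans_le (hU1 x)).ne')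
  have s2 := i1.fun_add i2
  have s3 := s2.fun_add i3
  have s4 := s3.fun_add i4
  have s5 := s4.fun_add i5
  have s6 := s5.fun_add i6
  have s7 := s6.fun_add i7
  have s8 := s7.fun_add i8
  simp only [phiE]
  refine ⟨s8.fun_add i9, ?_⟩
  rw [integral_add s8 i9, integral_add s7 i8, integral_add s6 i7, integral_add s5 i6,
    integral_add s4 i5, integral_add s3 i4, integral_add s2 i3, integral_add i1 i2]
  linarith

lemma energy_comparisons {F : Frame} {C0 CP CS E : ℝ} (D : Data F C0) (hCP : 0 < CP)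
    (hCS : 0 < CS) (hE0 : 0 ≤ E) (hCC : C0 ≤ E) {σ : ℝ} (hσ : 0 < σ) (hσe : σ ≤ D.e)
    (htc : Continuous D.t) (ht0 : ∀ x ∈ cb 4, 0 ≤ D.t x)
    (hS : ∀ (σ e M : ℝ) (s : E4 → ℝ), 0 < σ → σ ≤ e → e ≤ 1 → Continuous s →
      (∀ x ∈ cb 4, 0 ≤ s x) → (∀ x ∈ cb 4, e ^ 2 * s x ≤ M) →
      ∀ x ∈ cb 3, e * sing3 4 σ s x ≤ CS * (potB 4 σ s x + M))
    (hUc : ContDiff ℝ ∞ (upot F σ D.t)) (hU1 : ∀ x, 1 ≤ upot F σ D.t x)
    (hUup : ∀ x ∈ cb 3, upot F σ D.t x ≤ CP * (1 + potB 4 σ D.t x))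
    (hUlo : ∀ x ∈ cb 3, 1 + potB 3 σ D.t x ≤ CP * upot F σ D.t x)
    (hUgr : ∀ x ∈ cb 3, ∀ i, |pd (upot F σ D.t) i x| ≤ CP * sing3 4 σ D.t x) :
    (∀ x ∈ cb (5 / 2), 1 + potB 4 σ D.τ x ≤ CP * (1 + E) * upot F σ D.t x) ∧
    (∀ x ∈ cb (5 / 2), upot F σ D.t x ≤ CP * (1 + E) * (1 + potB 3 σ D.t x)) ∧
    (∀ x ∈ cb (5 / 2), ∀ i,
      D.e * |pd (D.h σ) i x| ≤ CP * CS * (1 + E) * (CP * (1 + E))) := by
  set t := D.t with ht
  set U := upot F σ t with hUdef
  set K1 := CP * (1 + E) with hK1def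
  have htτ : ∀ x ∈ cb 4, t x ≤ D.τ x := D.trace_le
  have sub52 : cb (5 / 2) ⊆ cb 3 := closedBall_subset_closedBall (by norm_num)
  have sub34 : cb 3 ⊆ cb 4 := closedBall_subset_closedBall (by norm_num)
  have hpot0 : ∀ (r : ℝ) (s : E4 → ℝ), (∀ y ∈ cb r, 0 ≤ s y) → ∀ x, 0 ≤ potB r σ s x :=
    fun r s h x => setIntegral_nonneg measurableSet_closedBall fun y hy =>
      div_nonneg (h y hy) (by positivity)
  have hpot34 : ∀ x, potB 4 σ t x ≤ potB 4 σ D.τ x := fun x => by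
    have hc : ∀ {s : E4 → ℝ}, Continuous s →
        IntegrableOn (fun y => s y / (‖x - y‖ ^ 2 + σ ^ 2)) (cb 4) := fun hs =>
      (hs.div (((continuous_const.sub continuous_id).norm.pow 2).add continuous_const)
        fun y => ne_of_gt (add_pos_of_nonneg_of_pos (sq_nonneg _) (pow_pos hσ 2))).continuousOn.integrableOn_compact
          (isCompact_closedBall _ _)
    exact setIntegral_mono_on (hc htc) (hc D.τ_cont) measurableSet_closedBall fun y hy =>
      div_le_div_of_nonneg_right (htτ y hy) (by positivity)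
  -- comparisons
  have cτ : ∀ x ∈ cb (5 / 2), 1 + potB 4 σ D.τ x ≤ K1 * U x := fun x hx => by
    have h3 := hpot0 3 t (fun y hy => ht0 y (sub34 hy)) x
    have h1 : potB 4 σ D.τ x ≤ E * (1 + potB 3 σ t x) :=
      (D.pot_τ σ hσ hσe x hx).trans (mul_le_mul_of_nonneg_right hCC (show (0 : ℝ) ≤ 1 + potB 3 σ t x by linarith))
    calc 1 + potB 4 σ D.τ x ≤ (1 + E) * (1 + potB 3 σ t x) := by linarith
      _ ≤ (1 + E) * (CP * U x) := mul_le_mul_of_nonneg_left (hUlo x (sub52 hx)) (by linarith)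
      _ = K1 * U x := by rw [hK1def]; ring
  have cup : ∀ x ∈ cb (5 / 2), U x ≤ CP * (1 + E) * (1 + potB 3 σ t x) := fun x hx => by
    have h3 := hpot0 3 t (fun y hy => ht0 y (sub34 hy)) x
    have h1 : potB 4 σ D.τ x ≤ E * (1 + potB 3 σ t x) :=
      (D.pot_τ σ hσ hσe x hx).trans (mul_le_mul_of_nonneg_right hCC (show (0 : ℝ) ≤ 1 + potB 3 σ t x by linarith))
    calc U x ≤ CP * (1 + potB 4 σ t x) := hUup x (sub52 hx)
      _ ≤ CP * ((1 + E) * (1 + potB 3 σ t x)) :=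
        mul_le_mul_of_nonneg_left (by linarith [hpot34 x]) hCP.le
      _ = _ := by ring
  have hUd : ∀ x, DifferentiableAt ℝ U x := fun x => hUc.differentiable (by simp) x
  have hU0 : ∀ x, 0 < U x := fun x => one_pos.trans_le (hU1 x)
  have hh : ∀ x, dd (D.h σ) x = (U x)⁻¹ • dd U x := fun x => dd_log (hUd x) (hU0 x).ne'
  have hgrad : ∀ x ∈ cb (5 / 2), ∀ i, D.e * |pd (D.h σ) i x| ≤ CP * CS * (1 + E) * K1 := fun x hx i => by
    have h1 : D.e * |pd U i x| ≤ CP * CS * (1 + E) * (K1 * U x) := by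
      have hsup : ∀ y ∈ cb 4, D.e ^ 2 * t y ≤ E := fun y hy =>
        (mul_le_mul_of_nonneg_left (htτ y hy) (sq_nonneg _)).trans ((D.sup_τ y hy).trans hCC)
      calc D.e * |pd U i x| ≤ D.e * (CP * sing3 4 σ t x) :=
            mul_le_mul_of_nonneg_left (hUgr x (sub52 hx) i) D.e_pos.le
        _ = CP * (D.e * sing3 4 σ t x) := by ring
        _ ≤ CP * (CS * (potB 4 σ t x + E)) := mul_le_mul_of_nonneg_left
            (hS σ D.e E t hσ hσe D.e_le htc ht0 hsup x (sub52 hx)) hCP.le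
        _ ≤ CP * (CS * ((1 + E) * (1 + potB 4 σ D.τ x))) := by
            gcongr
            have := hpot0 4 D.τ (fun y _ => D.τ_nonneg y) x
            linarith [hpot34 x, mul_nonneg hE0 this]
        _ ≤ CP * (CS * ((1 + E) * (K1 * U x))) := by
            gcongr
            exact cτ x hx
        _ = _ := by ring
    have h2 : pd (D.h σ) i x = (U x)⁻¹ * pd U i x := congrFun (hh x) i
    rw [h2, abs_mul, abs_of_pos (inv_pos.2 (hU0 x)), mul_left_comm, inv_mul_le_iff₀ (hU0 x)]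
    linarith
  exact ⟨cτ, cup, hgrad⟩

lemma energy_point {F : Frame} {C0 : ℝ} (D : Data F C0) {σ : ℝ} {A : E4 → C1}
    {K K2 Kd CA L : ℝ} {W : E4 → ℝ} {x : E4} (hx : x ∈ cb 2) (hK1 : 1 ≤ K)
    (hKx : (F.P x).det ≤ K ∧ 1 ≤ K * (F.P x).det ∧
      (∀ u, ‖frC F x u‖ ≤ K * ‖u‖) ∧ ∀ u, ‖u‖ ≤ K * ‖frC F x u‖)
    (hKd1 : 1 ≤ Kd) (hKd : ‖dd (bump12 : E4 → ℝ) x‖ ≤ Kd) (hK20 : 0 ≤ K2) (hCA : 0 < CA)
    (hL : L = 1 + K * K2 + K * Kd + CA) (hL1 : 1 ≤ L)
    (hUc : ContDiff ℝ ∞ (upot F σ D.t)) (hU1 : ∀ y, 1 ≤ upot F σ D.t y)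
    (hgrad : ∀ i, D.e * |pd (D.h σ) i x| ≤ K2) (hW' : 0 ≤ W x)
    (hAd : d1 A x = D.B x)
    (hAb : ‖frC F x (A x) + J0.mulVec (frC F x (dd (upot F σ D.t) x))‖
      ≤ CA * (upot F σ D.t x + W x)) :
    (bump12 x) ^ 2 * qH (pullC (F.P x) (D.H x)) (frC F x (dd (D.h σ) x))
        (frC F x (dd (D.h σ) x)) ≤
      2 * K * ((fun y => bump12 y ^ 2 * (upot F σ D.t y)⁻¹) x * wdg (d1 A x) (D.B x)
        + wdg (wedge11 (dd (fun y => bump12 y ^ 2 * (upot F σ D.t y)⁻¹) x) (A x)) (D.B x))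
      + 2 * K * (K * (5000 * L ^ 4)) * phiE (bump12 x) (upot F σ D.t x) (W x) (D.τ x) (D.f x)
          (D.f11 x) D.e (frC F x (dd (D.h σ) x)) := by
  set t := D.t with ht
  set U := upot F σ t with hUdef
  have htτ : ∀ y ∈ cb 4, t y ≤ D.τ y := D.trace_le
  have sub24 : cb 2 ⊆ cb 4 := closedBall_subset_closedBall (by norm_num)
  have hUd : ∀ y, DifferentiableAt ℝ U y := fun y => hUc.differentiable (by simp) y
  have hU0 : ∀ y, 0 < U y := fun y => one_pos.trans_le (hU1 y)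
  have hh : ∀ y, dd (D.h σ) y = (U y)⁻¹ • dd U y := fun y => dd_log (hUd y) (hU0 y).ne'
  set χ : E4 → ℝ := fun y => bump12 y with hχdef
  set v : E4 → C1 := fun y => frC F y (dd (D.h σ) y) with hvdef
  set q : E4 → C1 := fun y => frC F y (dd χ y) with hqdef
  set b : E4 → C2 := fun y => pullC (F.P y) (D.B y) with hbdef
  set hh' : E4 → C2 := fun y => pullC (F.P y) (D.H y) with hhdef
  set c : E4 → ℝ := fun y => χ y ^ 2 * (U y)⁻¹ with hcdef
  have hχc : ContDiff ℝ 1 χ := bump12.contDiff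
  set G : E4 → ℝ := fun y => c y * wdg (d1 A y) (D.B y) + wdg (wedge11 (dd c y) (A y)) (D.B y)
  set Φ : E4 → ℝ := fun y =>
    phiE (χ y) (U y) (W y) (D.τ y) (D.f y) (D.f11 y) D.e (v y) with hΦdef
  show χ x ^ 2 * qH (hh' x) (v x) (v x) ≤ 2 * K * G x + 2 * K * (K * (5000 * L ^ 4)) * Φ x
  obtain ⟨hdet, hdet', hfr, -⟩ := hKx
  have hD := F.det_pos x
  set β0 := frC F x (A x) + J0.mulVec (frC F x (dd U x)) with hβ0
  have hUv : frC F x (dd U x) = U x • v x := by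
    rw [hvdef]; simp only [hh, frC_smul, smul_smul, mul_inv_cancel₀ (hU0 x).ne', one_smul]
  have hAe : frC F x (A x) = U x • ((U x)⁻¹ • β0) - J0.mulVec (U x • v x) := by
    rw [smul_smul, mul_inv_cancel₀ (hU0 x).ne', one_smul, hβ0, hUv]; abel
  have hdc : frC F x (dd c x) = (U x)⁻¹ • ((2 * χ x) • q x - χ x ^ 2 • v x) := by
    have e1 : dd c x = (U x)⁻¹ • ((2 * χ x) • dd χ x - χ x ^ 2 • dd (D.h σ) x) := by
      rw [hcdef, dd_mul ((hχc.differentiable one_ne_zero x).fun_pow 2)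
        ((hUd x).fun_inv (hU0 x).ne'), dd_pow_two (hχc.differentiable one_ne_zero x),
        dd_inv (hUd x) (hU0 x).ne', hh x]
      funext i
      simp only [Pi.add_apply, Pi.sub_apply, Pi.smul_apply, smul_eq_mul]
      have := (hU0 x).ne'
      field_simp
      ring
    rw [e1, frC_smul, frC_sub, frC_smul, frC_smul]
  have key := frame_integrand F (D.B_anti x) (c := c x) (hU0 x).ne' hdc hAe
  have hG : G x = c x * wdg (D.B x) (D.B x) + wdg (wedge11 (dd c x) (A x)) (D.B x) := by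
    simp only [G, hAd]
  set r : C2 := fun i j => b x i j - hh' x i j with hr
  have hbr : (fun i j => hh' x i j + r i j) = b x := by funext i j; simp [hr]
  have hanti : Anti r := fun i j => by
    simp only [hr, hbdef, hhdef]
    rw [Alg.anti_pullC (D.B_anti x) _ i j, (D.H_pos x (sub24 hx)).1 i j]
    ring
  have hβb : ‖(U x)⁻¹ • β0‖ ≤ L * (1 + W x / U x) := by
    rw [norm_smul, Real.norm_eq_abs, abs_of_pos (inv_pos.2 (hU0 x)), inv_mul_le_iff₀ (hU0 x)]
    refine hAb.trans ?_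
    have : U x * (L * (1 + W x / U x)) = L * (U x + W x) := by
      have := (hU0 x).ne'; field_simp
    rw [this]
    exact mul_le_mul_of_nonneg_right (by
      have : 0 ≤ K * K2 := by positivity
      have : 0 ≤ K * Kd := by positivity
      linarith) (add_nonneg (hU0 x).le hW')
  have hev : D.e * ‖v x‖ ≤ L := by
    have h1 : D.e * ‖dd (D.h σ) x‖ ≤ K2 := by
      rw [← le_div_iff₀' D.e_pos]
      refine (pi_norm_le_iff_of_nonneg (by have := D.e_pos; positivity)).2 fun i => ?_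
      rw [Real.norm_eq_abs, le_div_iff₀' D.e_pos]
      exact hgrad i
    have h2 : D.e * ‖v x‖ ≤ K * (D.e * ‖dd (D.h σ) x‖) := by
      rw [mul_left_comm]; exact mul_le_mul_of_nonneg_left (hfr _) D.e_pos.le
    have h3 : K * (D.e * ‖dd (D.h σ) x‖) ≤ K * K2 := by gcongr
    have : 0 ≤ K * Kd := by positivity
    linarith
  have hqb : ‖q x‖ ≤ L := by
    have h1 : ‖q x‖ ≤ K * Kd := (hfr _).trans (by gcongr)
    have : 0 ≤ K * K2 := by positivity
    linarith
  have hp := energy_pointwise (h := hh' x) (r := r) (D.H_pos x (sub24 hx)) hanti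
    (χ := χ x) (U := U x) (W := W x) (τ := D.τ x) (f := D.f x) (g := D.f11 x) (e := D.e)
    (L := L) (v := v x) (q := q x) (β := (U x)⁻¹ • β0)
    bump12.nonneg bump12.le_one (hU1 x) hW' (htτ x (sub24 hx)) (D.f11_nonneg x) (D.f11_le x)
    D.e_pos D.e_le (D.inv_le x (sub24 hx)) (D.anti_le x (sub24 hx)) hL1 hev hqb hβb
  rw [hbr, show χ x ^ 2 / U x = c x from div_eq_mul_inv _ _, ← key, ← hG] at hp
  have hq0 : 0 ≤ χ x ^ 2 * qH (hh' x) (v x) (v x) :=
    mul_nonneg (sq_nonneg _) (qH_self_bounds (D.H_pos x (sub24 hx)) _).1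
  have hL4 : 0 ≤ 5000 * L ^ 4 * Φ x :=
    mul_nonneg (by positivity) (phiE_ge (D.τ_nonneg x) (hU0 x).le).1.1
  -- divide by the determinant
  set X := χ x ^ 2 * qH (hh' x) (v x) (v x)
  set Y := 5000 * L ^ 4 * Φ x
  have h4 : X ≤ X * (K / (F.P x).det) := by
    refine le_mul_of_one_le_right hq0 ?_
    rw [le_div_iff₀ hD]; linarith
  have h5 : Y / (F.P x).det ≤ K * Y := by
    rw [div_le_iff₀ hD]
    calc Y = 1 * Y := (one_mul Y).symm
      _ ≤ (K * (F.P x).det) * Y := mul_le_mul_of_nonneg_right hdet' hL4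
      _ = K * Y * (F.P x).det := by ring
  calc X ≤ X * (K / (F.P x).det) := h4
    _ = 2 * K * ((X / 2) / (F.P x).det) := by field_simp
    _ ≤ 2 * K * (((F.P x).det * G x + Y) / (F.P x).det) := by gcongr
    _ = 2 * K * G x + 2 * K * (Y / (F.P x).det) := by field_simp
    _ ≤ 2 * K * G x + 2 * K * (K * Y) := by gcongr
    _ = _ := by ring

lemma energy_integrals {F : Frame} {C0 CP CW CH E K1 H2 Kd σ : ℝ} (D : Data F C0) (hCC : C0 ≤ E)
    (hCP : 0 < CP) (hCH : 0 < CH) (hK10 : 0 < K1) (hCW : 0 < CW) (hKd1 : 1 ≤ Kd)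
    (hKd : ∀ x : E4, ‖dd (bump12 : E4 → ℝ) x‖ ≤ Kd) (hH2 : H2 = CH * (9 * Kd ^ 2 * (CW * E)))
    {t U Uτ W : E4 → ℝ} {v : E4 → C1} (ht0 : ∀ x ∈ cb 4, 0 ≤ t x)
    (hUc : ContDiff ℝ ∞ U) (hU1 : ∀ x, 1 ≤ U x) (hTc : ContDiff ℝ ∞ Uτ) (hT1 : ∀ x, 1 ≤ Uτ x)
    (hTup : ∀ x ∈ cb 3, Uτ x ≤ CP * (1 + potB 4 σ D.τ x))
    (cτ : ∀ x ∈ cb (5 / 2), 1 + potB 4 σ D.τ x ≤ K1 * U x)
    (hWc : ContDiff ℝ 1 W) (hWi : Integrable fun x => W x ^ 2 + sq (dd W x))
    (hWb : (∫ x, W x ^ 2 + sq (dd W x)) ≤ CW * ∫ x, D.f x ^ 2) (hvc : Continuous v)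
    {vτ : E4 → C1}
    (Hχ : (∫ x, (bump12 x : ℝ) ^ 2 * sq (v x)) + (∫ x, (bump12 x : ℝ) ^ 2 * t x / U x)
      ≤ CH * ∫ x : E4, ((bump12 x : ℝ) ^ 2 + sq (dd (bump12 : E4 → ℝ) x)))
    (Hw : (∫ x, (bump12 x * W x) ^ 2 * sq (v x)) + (∫ x, (bump12 x * W x) ^ 2 * t x / U x)
      ≤ CH * ∫ x, ((bump12 x * W x) ^ 2 + sq (dd (fun y => bump12 y * W y) x)))
    (Hτ : (∫ x, (bump12 x * W x) ^ 2 * sq (vτ x)) + (∫ x, (bump12 x * W x) ^ 2 * D.τ x / Uτ x)
      ≤ CH * ∫ x, ((bump12 x * W x) ^ 2 + sq (dd (fun y => bump12 y * W y) x))) :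
    IntegrableOn (fun x => phiE (bump12 x) (U x) (W x) (D.τ x) (D.f x) (D.f11 x) D.e (v x)) (cb 2) ∧
      ∫ x in cb 2, phiE (bump12 x) (U x) (W x) (D.τ x) (D.f x) (D.f11 x) D.e (v x) ≤
        (volume (cb 2)).toReal + E + E + E + E + CW * E
          + CH * (∫ x : E4, ((bump12 x : ℝ) ^ 2 + sq (dd (bump12 : E4 → ℝ) x))) + H2
          + CP * K1 * H2 ∧
      ∫ x in cb 2, (bump12 x : ℝ) ^ 2 * sq (v x) ≤
        CH * ∫ x : E4, ((bump12 x : ℝ) ^ 2 + sq (dd (bump12 : E4 → ℝ) x)) := by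
  set χ : E4 → ℝ := fun x => bump12 x with hχdef
  have hχc : ContDiff ℝ 1 χ := bump12.contDiff
  have hU0 : ∀ x, 0 < U x := fun x => one_pos.trans_le (hU1 x)
  have sub52 : cb (5 / 2) ⊆ cb 3 := closedBall_subset_closedBall (by norm_num)
  have sub25 : cb 2 ⊆ cb (5 / 2) := closedBall_subset_closedBall (by norm_num)
  have sub24 : cb 2 ⊆ cb 4 := closedBall_subset_closedBall (by norm_num)
  set V := (volume (cb 2)).toReal with hV
  set Kχ := ∫ x : E4, ((bump12 x : ℝ) ^ 2 + sq (dd (bump12 : E4 → ℝ) x)) with hKχ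
  -- integrals of the summands
  have ii : ∀ {g : E4 → ℝ}, Continuous g → IntegrableOn g (cb 2) := fun hg =>
    hg.continuousOn.integrableOn_compact (isCompact_closedBall _ _)
  have hWcont : Continuous W := hWc.continuous
  set w : E4 → ℝ := fun x => χ x * W x with hwdef
  have hwc : ContDiff ℝ 1 w := hχc.mul hWc
  have hws : tsupport w ⊆ cb 2 := by
    rw [← tsupport_bump12]; exact tsupport_mul_subset_left
  have hχs : tsupport χ ⊆ cb 2 := tsupport_bump12.subset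
  have hz : ∀ {g : E4 → ℝ}, tsupport g ⊆ cb 2 → ∀ x, x ∉ cb 2 → g x = 0 := fun h x hx =>
    image_eq_zero_of_notMem_tsupport fun h' => hx (h h')
  have hcpt : ∀ {g : E4 → ℝ}, Continuous g → (∀ x, x ∉ cb 2 → g x = 0) → Integrable g :=
    fun hg h => hg.integrable_of_hasCompactSupport
      (HasCompactSupport.intro (isCompact_closedBall _ _) h)
  have hnn : ∀ (s : E4 → ℝ), (∀ x ∈ cb 4, 0 ≤ s x) → ∀ (Z : E4 → ℝ), (∀ x, 1 ≤ Z x) →
      ∀ g : E4 → ℝ, tsupport g ⊆ cb 2 → 0 ≤ ∫ x, g x ^ 2 * s x / Z x := by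
    intro s hs Z hZ g hg
    refine integral_nonneg fun x => ?_
    by_cases hx : x ∈ cb 2
    · exact div_nonneg (mul_nonneg (sq_nonneg _) (hs x (sub24 hx))) (zero_le_one.trans (hZ x))
    · simp [hz hg x hx]
  have hEH : (∫ x, (w x ^ 2 + sq (dd w x))) ≤ 9 * Kd ^ 2 * (CW * E) :=
    cutoff_weight hKd1 hKd hWc hWi
      (hWb.trans (mul_le_mul_of_nonneg_left (D.int_f.trans hCC) hCW.le))
  have hwH : CH * (∫ x, (w x ^ 2 + sq (dd w x))) ≤ H2 := by
    rw [hH2]; exact mul_le_mul_of_nonneg_left hEH hCH.le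
  -- the summands on `cb 2`
  have hto : ∀ {g : E4 → ℝ}, (∀ x, x ∉ cb 2 → g x = 0) → ∫ x in cb 2, g x = ∫ x, g x :=
    fun h => setIntegral_eq_integral_of_forall_compl_eq_zero h
  have hint24 : ∀ {g : E4 → ℝ}, Continuous g → (∀ x, 0 ≤ g x) →
      ∫ x in cb 2, g x ≤ ∫ x in cb 4, g x := fun hg h0 =>
    setIntegral_mono_set (hg.continuousOn.integrableOn_compact (isCompact_closedBall _ _))
      (Filter.Eventually.of_forall h0) (LE.le.eventuallyLE sub24)
  set S : E4 → ℝ := fun x => sq (v x) with hSdef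
  have hSc : Continuous S := continuous_sq hvc
  have P1 : ∫ x in cb 2, (1 : ℝ) ≤ V := by
    rw [setIntegral_const, smul_eq_mul, mul_one]; exact le_of_eq rfl
  have P2 : ∫ x in cb 2, D.τ x ≤ E :=
    (hint24 D.τ_cont D.τ_nonneg).trans (D.int_τ.trans hCC)
  have P3 : ∫ x in cb 2, D.f x ^ 2 ≤ E :=
    (setIntegral_le_integral ((D.f_cont.fun_pow 2).integrable_of_hasCompactSupport
      (D.f_supp.mono fun x hx h => hx (by simp [h])))
      (Filter.Eventually.of_forall fun x => sq_nonneg _)).trans (D.int_f.trans hCC)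
  have P4 : ∫ x in cb 2, D.f11 x ^ 2 / D.e ^ 2 ≤ E := by
    rw [integral_div, div_le_iff₀ (pow_pos D.e_pos 2)]
    exact (hint24 (D.f11_cont.pow 2) fun x => sq_nonneg _).trans
      (D.int_f11.trans (mul_le_mul_of_nonneg_right hCC (sq_nonneg _)))
  have P5 : ∫ x in cb 2, D.e ^ 2 * D.τ x ^ 2 ≤ E := by
    rw [integral_const_mul]
    exact (mul_le_mul_of_nonneg_left (hint24 (D.τ_cont.pow 2) fun x => sq_nonneg _)
      (sq_nonneg _)).trans (D.int_τ2.trans hCC)
  have P6 : ∫ x in cb 2, W x ^ 2 ≤ CW * E := by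
    refine le_trans ?_ (hWb.trans (mul_le_mul_of_nonneg_left (D.int_f.trans hCC) hCW.le))
    refine le_trans (setIntegral_mono_on (ii (hWcont.pow 2)) hWi.integrableOn
      measurableSet_closedBall fun x _ => le_add_of_nonneg_right (sq_nonneg' _))
      (setIntegral_le_integral hWi
        (Filter.Eventually.of_forall fun x => add_nonneg (sq_nonneg _) (sq_nonneg' _)))
  have P7 : ∫ x in cb 2, χ x ^ 2 * S x ≤ CH * Kχ := by
    rw [hto fun x hx => by simp [hz hχs x hx]]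
    exact (le_add_of_nonneg_right (hnn t ht0 U hU1 χ hχs)).trans Hχ
  have P8 : ∫ x in cb 2, χ x ^ 2 * W x ^ 2 * S x ≤ H2 := by
    have e : ∀ x, χ x ^ 2 * W x ^ 2 * S x = w x ^ 2 * S x := fun x => by simp only [hwdef]; ring
    simp only [e]
    rw [hto fun x hx => by simp [hz hws x hx]]
    exact ((le_add_of_nonneg_right (hnn t ht0 U hU1 w hws)).trans Hw).trans hwH
  have P9 : ∫ x in cb 2, χ x ^ 2 * D.τ x * W x ^ 2 / U x ≤ CP * K1 * H2 := by
    have hTp : ∀ x, 0 < Uτ x := fun x => one_pos.trans_le (hT1 x)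
    have hcU : Continuous fun x => w x ^ 2 * D.τ x / Uτ x :=
      ((hwc.continuous.pow 2).mul D.τ_cont).div hTc.continuous fun x => (hTp x).ne'
    calc ∫ x in cb 2, χ x ^ 2 * D.τ x * W x ^ 2 / U x
        ≤ ∫ x in cb 2, CP * K1 * (w x ^ 2 * D.τ x / Uτ x) := by
          refine setIntegral_mono_on (ii ((((hχc.continuous.pow 2).mul D.τ_cont).mul
            (hWcont.pow 2)).div hUc.continuous fun x => (hU0 x).ne'))
            (ii (continuous_const.mul hcU)) measurableSet_closedBall fun x hx => ?_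
          have hcmp : Uτ x ≤ CP * K1 * U x := by
            refine (hTup x (sub52 (sub25 hx))).trans ?_
            rw [mul_assoc]
            exact mul_le_mul_of_nonneg_left (cτ x (sub25 hx)) hCP.le
          rw [show χ x ^ 2 * D.τ x * W x ^ 2 = w x ^ 2 * D.τ x by simp only [hwdef]; ring,
            ← mul_div_assoc, div_le_div_iff₀ (hU0 x) (hTp x)]
          calc w x ^ 2 * D.τ x * Uτ x ≤ w x ^ 2 * D.τ x * (CP * K1 * U x) :=
                mul_le_mul_of_nonneg_left hcmp (mul_nonneg (sq_nonneg _) (D.τ_nonneg x))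
            _ = _ := by ring
      _ ≤ CP * K1 * H2 := by
          rw [integral_const_mul, hto fun x hx => by simp [hz hws x hx]]
          refine mul_le_mul_of_nonneg_left (le_trans ?_ (Hτ.trans hwH)) (by positivity)
          exact le_add_of_nonneg_left (integral_nonneg fun x =>
            mul_nonneg (sq_nonneg _) (sq_nonneg' _))
  obtain ⟨R1, R2⟩ := integral_phi_le hχc.continuous hUc.continuous hU1 hWcont D.τ_cont
    D.f_cont D.f11_cont hvc P1 P2 P3 P4 P5 P6 P7 P8 P9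
  exact ⟨R1, R2, P7⟩

lemma energy_conclude {F : Frame} {C0 σ K N M M7 : ℝ} (D : Data F C0) {U : E4 → ℝ} {A : E4 → C1}
    {Φ : E4 → ℝ} (hUc : ContDiff ℝ ∞ U) (hU1 : ∀ x, 1 ≤ U x) (hK1 : 1 ≤ K) (hN : 0 ≤ N)
    (hhd : ContDiff ℝ 1 (D.h σ))
    (hAc : ∀ i, ContDiffOn ℝ 1 (fun x => A x i) (ob (5 / 2)))
    (hK : ∀ x ∈ cb 4, ∀ u : C1, ‖u‖ ≤ K * ‖frC F x u‖)
    (hΦint : IntegrableOn Φ (cb 2)) (hΦle : ∫ x in cb 2, Φ x ≤ M)
    (P7 : ∫ x in cb 2, (bump12 x : ℝ) ^ 2 * sq (frC F x (dd (D.h σ) x)) ≤ M7)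
    (point : ∀ x ∈ cb 2, (bump12 x : ℝ) ^ 2 * qH (pullC (F.P x) (D.H x))
        (frC F x (dd (D.h σ) x)) (frC F x (dd (D.h σ) x)) ≤
      2 * K * ((fun y => (bump12 y : ℝ) ^ 2 * (U y)⁻¹) x * wdg (d1 A x) (D.B x)
        + wdg (wedge11 (dd (fun y => (bump12 y : ℝ) ^ 2 * (U y)⁻¹) x) (A x)) (D.B x))
      + N * Φ x) :
    (∫ x in cb 1, qH (pullC (F.P x) (D.H x)) (frC F x (dd (D.h σ) x))
      (frC F x (dd (D.h σ) x))) ≤ N * M ∧
    (∫ x in cb 1, sq (dd (D.h σ) x)) ≤ 4 * K ^ 2 * M7 := by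
  set χ : E4 → ℝ := fun x => bump12 x with hχdef
  set v : E4 → C1 := fun x => frC F x (dd (D.h σ) x) with hvdef
  set hh' : E4 → C2 := fun x => pullC (F.P x) (D.H x) with hhdef
  set c : E4 → ℝ := fun x => χ x ^ 2 * (U x)⁻¹ with hcdef
  have hχc : ContDiff ℝ 1 χ := bump12.contDiff
  have hU0 : ∀ x, 0 < U x := fun x => one_pos.trans_le (hU1 x)
  have hcc : ContDiff ℝ 1 c :=
    (hχc.pow 2).mul ((hUc.of_le (mod_cast le_top)).inv fun x => (hU0 x).ne')
  have hcs : tsupport c ⊆ cb 2 := by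
    rw [← tsupport_bump12]
    refine closure_mono fun x hx => ?_
    simp only [Function.mem_support, hcdef, hχdef] at hx ⊢
    exact fun h => hx (by simp [h])
  have sub24 : cb 2 ⊆ cb 4 := closedBall_subset_closedBall (by norm_num)
  have sub12 : cb 1 ⊆ cb 2 := closedBall_subset_closedBall (by norm_num)
  have hvc : Continuous v := continuous_frC F (continuous_dd hhd)
  set S : E4 → ℝ := fun x => sq (v x) with hSdef
  have hSc : Continuous S := continuous_sq hvc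
  have ii : ∀ {g : E4 → ℝ}, Continuous g → IntegrableOn g (cb 2) := fun hg =>
    hg.continuousOn.integrableOn_compact (isCompact_closedBall _ _)
  set G : E4 → ℝ := fun x => c x * wdg (d1 A x) (D.B x) + wdg (wedge11 (dd c x) (A x)) (D.B x)
  -- the identity and the energy
  have hGint : IntegrableOn G (cb 2) := by
    refine ContinuousOn.integrableOn_compact (isCompact_closedBall _ _) ?_
    have hsub : cb 2 ⊆ ob (5 / 2) := closedBall_subset_ball (by norm_num)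
    have hA' : ∀ i, ContinuousOn (fun x => A x i) (cb 2) := fun i => (hAc i).continuousOn.mono hsub
    have hpA : ∀ i j, ContinuousOn (fun x => pd (fun y => A y i) j x) (cb 2) := fun i j =>
      (continuousOn_pd isOpen_ball (hAc i) j).mono hsub
    have hB' : ∀ i j, ContinuousOn (fun x => D.B x i j) (cb 2) := fun i j =>
      (D.B_smooth i j).continuous.continuousOn
    have hd' : ∀ i, ContinuousOn (fun x => dd c x i) (cb 2) := fun i =>
      (continuous_pd hcc i).continuousOn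
    have hc' : ContinuousOn c (cb 2) := hcc.continuous.continuousOn
    simp only [G, wdg, d1, wedge11]
    fun_prop
  have h0 : ∫ x in cb 2, G x = 0 := stokes_weight hcc hcs hAc D.B_smooth D.B_anti D.B_closed
  have hqc : Continuous fun x => χ x ^ 2 * qH (hh' x) (v x) (v x) :=
    (hχc.continuous.pow 2).mul (continuous_qH (continuous_pullC F D.H_cont) hvc)
  have hmain : ∫ x in cb 2, χ x ^ 2 * qH (hh' x) (v x) (v x) ≤ N * M := by
    refine (setIntegral_mono_on (ii hqc) (Integrable.fun_add (hGint.const_mul (2 * K))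
      (hΦint.const_mul N)) measurableSet_closedBall point).trans ?_
    rw [integral_add (hGint.const_mul _) (hΦint.const_mul _), integral_const_mul,
      integral_const_mul, h0, mul_zero, zero_add]
    exact mul_le_mul_of_nonneg_left hΦle hN
  have hχone : ∀ x ∈ cb 1, χ x ^ 2 = 1 := fun x hx => by
    simp [hχdef, bump12.one_of_mem_closedBall hx]
  have hq1 : ∫ x in cb 1, qH (hh' x) (v x) (v x) ≤ N * M := by
    refine le_trans (le_of_eq (setIntegral_congr_fun measurableSet_closedBall fun x hx => ?_))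
      ((setIntegral_mono_set (ii hqc) ?_ (LE.le.eventuallyLE sub12)).trans hmain)
    · simp [hχone x hx]
    · rw [Filter.EventuallyLE, ae_restrict_iff' measurableSet_closedBall]
      exact Filter.Eventually.of_forall fun x hx =>
        mul_nonneg (sq_nonneg _) (qH_self_bounds (D.H_pos x (sub24 hx)) _).1
  have hs12 : ∫ x in cb 1, sq (dd (D.h σ) x) ≤ 4 * K ^ 2 * M7 := by
    have hci : Continuous fun x => 4 * K ^ 2 * (χ x ^ 2 * S x) :=
      continuous_const.mul ((hχc.continuous.pow 2).mul hSc)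
    refine (setIntegral_mono_on ((continuous_sq (continuous_dd hhd)).continuousOn.integrableOn_compact
      (isCompact_closedBall _ _)) (hci.continuousOn.integrableOn_compact (isCompact_closedBall _ _))
      measurableSet_closedBall fun x hx => ?_).trans ?_
    · rw [hχone x hx, one_mul]
      calc sq (dd (D.h σ) x) ≤ 4 * ‖dd (D.h σ) x‖ ^ 2 := sq_le_norm _
        _ ≤ 4 * (K * ‖v x‖) ^ 2 := by
          gcongr; exact hK x (sub24 (sub12 hx)) _
        _ ≤ 4 * K ^ 2 * S x := by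
          rw [mul_pow, ← mul_assoc]
          exact mul_le_mul_of_nonneg_left (norm_sq_le_sq _) (by positivity)
    · rw [integral_const_mul]
      refine mul_le_mul_of_nonneg_left (le_trans ?_ P7) (by positivity)
      exact setIntegral_mono_set (ii ((hχc.continuous.pow 2).mul hSc)) (Filter.Eventually.of_forall fun x =>
        mul_nonneg (sq_nonneg _) (sq_nonneg' _)) (LE.le.eventuallyLE sub12)
  exact ⟨hq1, hs12⟩

theorem energyStmt_of_parts (hP : PotentialStmt) (hS : SplitStmt) (hH : HardyStmt)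
    (hWt : WeightStmt) (hA : ParametrixStmt) (hAp : ApproxStmt) : EnergyStmt := by
  intro F C0
  obtain ⟨CP, hCP, hP⟩ := hP F
  obtain ⟨CS, hCS, hS⟩ := hS
  obtain ⟨CH, hCH, hH⟩ := hH F
  obtain ⟨CW, hCW, hWt⟩ := hWt
  obtain ⟨CA, hCA, hA⟩ := hA F C0
  obtain ⟨K, hK1, hK⟩ := frame_bounds F
  obtain ⟨Kd, hKd1, hKd⟩ := bump12_bound
  set E := max C0 0 with hE
  have hE0 : 0 ≤ E := le_max_right _ _
  set K1 := CP * (1 + E) with hK1def
  set K2 := CP * CS * (1 + E) * K1 with hK2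
  set L := 1 + K * K2 + K * Kd + CA with hL
  set Kχ := ∫ x : E4, ((bump12 x : ℝ) ^ 2 + sq (dd (bump12 : E4 → ℝ) x)) with hKχ
  have hKχ0 : 0 ≤ Kχ := integral_nonneg fun x => add_nonneg (sq_nonneg _) (sq_nonneg' _)
  set V := (volume (cb 2)).toReal with hV
  have hV0 : 0 ≤ V := ENNReal.toReal_nonneg
  have hK10 : 0 < K1 := by positivity
  have hK20 : 0 ≤ K2 := by positivity
  have hL1 : 1 ≤ L := by
    have : 0 ≤ K * K2 := by positivity
    have : 0 ≤ K * Kd := by positivity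
    linarith
  set H2 := CH * (9 * Kd ^ 2 * (CW * E)) with hH2
  have hH20 : 0 ≤ H2 := by positivity
  set IΦ := V + E + E + E + E + CW * E + CH * Kχ + H2 + CP * K1 * H2 with hIΦ
  have hIΦ0 : 0 ≤ IΦ := by positivity
  set Q := 2 * K * (K * (5000 * L ^ 4)) * IΦ with hQ
  refine ⟨K1 + CP * (1 + E) + K2 + 4 * K ^ 2 * (CH * Kχ) + Q + 1, by positivity, fun D => ?_⟩
  set t := D.t with ht
  have hCC : C0 ≤ E := le_max_left _ _
  have htc : Continuous t := continuous_tr11 (continuous_pullC F D.H_cont)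
  have ht0 : ∀ x ∈ cb 4, 0 ≤ t x := fun x hx =>
    add_nonneg (D.H_pos x hx).2.2.2.1 (D.H_pos x hx).2.2.2.2.1
  have htτ : ∀ x ∈ cb 4, t x ≤ D.τ x := D.trace_le
  obtain ⟨σA, hσA, hA⟩ := hA D
  obtain ⟨σt, hσt, hAt⟩ := hAp F t htc 1 one_pos
  obtain ⟨στ, hστ, hAτ⟩ := hAp F D.τ D.τ_cont 1 one_pos
  refine ⟨min (min σA σt) (min στ D.e), lt_min (lt_min hσA hσt) (lt_min hστ D.e_pos),
    fun σ hσ hσ0 => ?_⟩
  simp only [lt_min_iff] at hσ0
  obtain ⟨⟨hs1, hs2⟩, hs3, hs4⟩ := hσ0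
  have hσe : σ ≤ D.e := hs4.le
  have hσ1 : σ ≤ 1 := hσe.trans D.e_le
  obtain ⟨hUc, hU1, hUup, hUlo, hUgr, hUint⟩ := hP σ t hσ hσ1 htc ht0
  obtain ⟨hTc, hT1, hTup, -, -, -⟩ := hP σ D.τ hσ hσ1 D.τ_cont fun x _ => D.τ_nonneg x
  obtain ⟨A, hAc, hAd, hAb⟩ := hA σ hσ hs1
  obtain ⟨hWc, hW0, -, hWi, hWb⟩ := hWt σ D.f hσ hσ1 D.f_cont D.f_supp D.f_nonneg
  set U := upot F σ t with hUdef
  set Uτ := upot F σ D.τ with hUτdef
  set W := pot3 σ 32 D.f with hWdef
  have sub52 : cb (5 / 2) ⊆ cb 3 := closedBall_subset_closedBall (by norm_num)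
  have sub34 : cb 3 ⊆ cb 4 := closedBall_subset_closedBall (by norm_num)
  have sub25 : cb 2 ⊆ cb (5 / 2) := closedBall_subset_closedBall (by norm_num)
  have sub12 : cb 1 ⊆ cb 2 := closedBall_subset_closedBall (by norm_num)
  have sub24 : cb 2 ⊆ cb 4 := closedBall_subset_closedBall (by norm_num)
  obtain ⟨cτ, cup, hgrad⟩ := energy_comparisons D hCP hCS hE0 hCC hσ hσe htc ht0 hS hUc hU1 hUup
    hUlo hUgr
  have hpot0 : ∀ (r : ℝ) (s : E4 → ℝ), (∀ y ∈ cb r, 0 ≤ s y) → ∀ x, 0 ≤ potB r σ s x :=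
    fun r s h x => setIntegral_nonneg measurableSet_closedBall fun y hy =>
      div_nonneg (h y hy) (add_nonneg (sq_nonneg _) (sq_nonneg _))
  have hU0 : ∀ x, 0 < U x := fun x => one_pos.trans_le (hU1 x)
  have hUc1 : ContDiff ℝ 1 U := hUc.of_le (mod_cast le_top)
  have hhd : ContDiff ℝ 1 (D.h σ) := hUc1.log fun x => (hU0 x).ne'
  have hvc : Continuous fun x => frC F x (dd (D.h σ) x) := continuous_frC F (continuous_dd hhd)
  have hwc : ContDiff ℝ 1 fun x => bump12 x * W x := bump12.contDiff.mul hWc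
  have hws : tsupport (fun x => bump12 x * W x) ⊆ cb 2 := by
    rw [← tsupport_bump12]; exact tsupport_mul_subset_left
  have hx5 : ∀ x ∈ cb 2, x ∈ ob (5 / 2) := fun x hx =>
    mem_ball.2 (lt_of_le_of_lt (mem_closedBall.1 hx) (by norm_num))
  have hmoll : ∀ {s : E4 → ℝ}, (∀ x ∈ cb 3, |moll F σ s x - s x| ≤ 1) →
      ∀ x ∈ cb (5 / 2), |moll F σ s x - s x| ≤ 1 := fun h x hx => h x (sub52 hx)
  have Hχ := hH σ t hσ hσ1 htc ht0 (hmoll (hAt σ hσ hs2)) bump12 bump12.contDiff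
    tsupport_bump12.subset
  have Hw := hH σ t hσ hσ1 htc ht0 (hmoll (hAt σ hσ hs2)) _ hwc hws
  have Hτ := hH σ D.τ hσ hσ1 D.τ_cont (fun x _ => D.τ_nonneg x) (hmoll (hAτ σ hσ hs3)) _
    hwc hws
  obtain ⟨hΦint, hΦle, P7⟩ := energy_integrals D hCC hCP hCH hK10 hCW hKd1 hKd hH2 ht0 hUc hU1
    hTc hT1 hTup cτ hWc hWi hWb hvc Hχ Hw Hτ
  -- the identity and the energy
  obtain ⟨hq1, hs12⟩ := energy_conclude D hUc hU1 hK1
    (by positivity : (0 : ℝ) ≤ 2 * K * (K * (5000 * L ^ 4))) hhd hAc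
    (fun x hx => (hK x hx).2.2.2) hΦint hΦle P7 fun x hx =>
      energy_point D hx hK1 (hK x (sub24 hx)) hKd1 (hKd x) hK20 hCA hL hL1 hUc hU1
        (fun i => hgrad x (sub25 hx) i) (hW0 x) (hAd x (hx5 x hx)) (hAb x (hx5 x hx))
  have hKK : 0 ≤ 4 * K ^ 2 * (CH * Kχ) := by positivity
  have hQ0 : 0 ≤ Q := by rw [hQ]; positivity
  have hCP1 : 0 ≤ CP * (1 + E) := by positivity
  refine ⟨hσe, hUc, hU1, fun x hx => ?_, fun x hx => ?_, fun x hx => ?_, ?_, fun x hx i => ?_,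
    ?_, ?_⟩
  · refine (cup x hx).trans (mul_le_mul_of_nonneg_right (by linarith) ?_)
    linarith [hpot0 3 t (fun y hy => ht0 y (sub34 hy)) x]
  · refine (hUlo x (sub52 hx)).trans (mul_le_mul_of_nonneg_right ?_ (hU0 x).le)
    linarith [le_mul_of_one_le_right hCP.le (show (1 : ℝ) ≤ 1 + E by linarith)]
  · exact (cτ x hx).trans (mul_le_mul_of_nonneg_right (by linarith) (hU0 x).le)
  · refine hUint.trans ?_
    have : ∫ x in cb 4, t x ≤ E :=
      (setIntegral_mono_on (htc.continuousOn.integrableOn_compact (isCompact_closedBall _ _))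
        (D.τ_cont.continuousOn.integrableOn_compact (isCompact_closedBall _ _))
        measurableSet_closedBall htτ).trans (D.int_τ.trans hCC)
    linarith [mul_le_mul_of_nonneg_left this hCP.le]
  · exact (hgrad x (sub25 (sub12 hx)) i).trans (by linarith)
  · exact hs12.trans (by linarith)
  · exact le_trans hq1 (show Q ≤ _ by linarith)

end Vale.Agent.P204.Heart
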