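import Vale.Agent.P204.Heart.Conv

/-!
P204 heart: Stokes' formula for the wedge pairing on the model space.
-/

namespace Vale.Agent.P204.Heart

open MeasureTheory Vale.Agent.P204.Full Set Metric
open scoped ContDiff

lemma pd_mul {f g : E4 → ℝ} {x : E4} (hf : DifferentiableAt ℝ f x) (hg : DifferentiableAt ℝ g x)
    (i : Fin 4) : pd (fun y => f y * g y) i x = pd f i x * g x + f x * pd g i x := by
  simp [pd, fderiv_fun_mul hf hg]; ring

lemma pd_congr {f g : E4 → ℝ} {x : E4} (h : f =ᶠ[nhds x] g) (i : Fin 4) :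
    pd f i x = pd g i x := by rw [pd, pd, h.fderiv_eq]

lemma pd_neg (f : E4 → ℝ) (i : Fin 4) (x : E4) : pd (fun y => -f y) i x = -pd f i x := by
  simp [pd, fderiv_fun_neg]

lemma pd_add' {f g : E4 → ℝ} {x : E4} (hf : DifferentiableAt ℝ f x) (hg : DifferentiableAt ℝ g x)
    (i : Fin 4) : pd (fun y => f y + g y) i x = pd f i x + pd g i x := by
  simp [pd, fderiv_fun_add hf hg]

lemma pd_sub' {f g : E4 → ℝ} {x : E4} (hf : DifferentiableAt ℝ f x) (hg : DifferentiableAt ℝ g x)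
    (i : Fin 4) : pd (fun y => f y - g y) i x = pd f i x - pd g i x := by
  simp [pd, fderiv_fun_sub hf hg]

lemma continuous_pd {f : E4 → ℝ} (hf : ContDiff ℝ 1 f) (i : Fin 4) :
    Continuous fun x => pd f i x :=
  (hf.continuous_fderiv one_ne_zero).clm_apply continuous_const

lemma continuousOn_pd {f : E4 → ℝ} {s : Set E4} (hs : IsOpen s) (hf : ContDiffOn ℝ 1 f s)
    (i : Fin 4) : ContinuousOn (fun x => pd f i x) s :=
  (hf.continuousOn_fderiv_of_isOpen hs le_rfl).clm_apply continuousOn_const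

lemma stokes_global {α : E4 → C1} {B : E4 → C2} (hα : ∀ i, ContDiff ℝ 1 fun x => α x i)
    (hc : HasCompactSupport α) (hB : ∀ i j, ContDiff ℝ 1 fun x => B x i j)
    (hA : ∀ x, Anti (B x)) (hcl : ∀ x, α x ≠ 0 → ∀ a b c, d2 B x a b c = 0) :
    ∫ x, wdg (d1 α x) (B x) = 0 := by
  set α' : Fin 4 → E4 → ℝ := fun i x => α x i with hα'
  set B' : Fin 4 → Fin 4 → E4 → ℝ := fun i j x => B x i j with hB'
  set G : Fin 4 → E4 → ℝ := ![
    fun x => α' 1 x * B' 2 3 x - α' 2 x * B' 1 3 x + α' 3 x * B' 1 2 x,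
    fun x => -(α' 0 x * B' 2 3 x) + α' 2 x * B' 0 3 x - α' 3 x * B' 0 2 x,
    fun x => α' 0 x * B' 1 3 x - α' 1 x * B' 0 3 x + α' 3 x * B' 0 1 x,
    fun x => -(α' 0 x * B' 1 2 x) + α' 1 x * B' 0 2 x - α' 2 x * B' 0 1 x] with hG
  have hGs : ∀ i, ContDiff ℝ 1 (G i) := by
    intro i
    fin_cases i <;> simp only [hG, hα', hB', Fin.zero_eta, Fin.mk_one, Fin.reduceFinMk,
      Matrix.cons_val_zero, Matrix.cons_val_one, Matrix.cons_val_two, Matrix.cons_val_three,
      Matrix.head_cons, Matrix.tail_cons]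
    · exact (((hα 1).mul (hB 2 3)).sub ((hα 2).mul (hB 1 3))).add ((hα 3).mul (hB 1 2))
    · exact ((((hα 0).mul (hB 2 3)).neg).add ((hα 2).mul (hB 0 3))).sub ((hα 3).mul (hB 0 2))
    · exact (((hα 0).mul (hB 1 3)).sub ((hα 1).mul (hB 0 3))).add ((hα 3).mul (hB 0 1))
    · exact ((((hα 0).mul (hB 1 2)).neg).add ((hα 1).mul (hB 0 2))).sub ((hα 2).mul (hB 0 1))
  have hGc : ∀ i, HasCompactSupport (G i) := by
    intro i
    refine hc.mono ?_
    intro x hx
    simp only [Function.mem_support] at hx ⊢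
    intro h0
    apply hx
    fin_cases i <;> simp [hG, hα', h0]
  have key : ∀ x, wdg (d1 α x) (B x) = ∑ i, pd (G i) i x := by
    intro x
    have dα : ∀ i, DifferentiableAt ℝ (α' i) x := fun i => (hα i).differentiable one_ne_zero x
    have dB : ∀ i j, DifferentiableAt ℝ (B' i j) x := fun i j =>
      (hB i j).differentiable one_ne_zero x
    have e0 : pd (G 0) 0 x = pd (α' 1) 0 x * B' 2 3 x + α' 1 x * pd (B' 2 3) 0 x
        - (pd (α' 2) 0 x * B' 1 3 x + α' 2 x * pd (B' 1 3) 0 x)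
        + (pd (α' 3) 0 x * B' 1 2 x + α' 3 x * pd (B' 1 2) 0 x) := by
      show pd (fun y => (α' 1 y * B' 2 3 y) - α' 2 y * B' 1 3 y + α' 3 y * B' 1 2 y) 0 x = _
      rw [pd_add' ((((dα 1).fun_mul (dB 2 3))).fun_sub ((dα 2).fun_mul (dB 1 3))) ((dα 3).fun_mul (dB 1 2)), pd_sub' (((dα 1).fun_mul (dB 2 3))) ((dα 2).fun_mul (dB 1 3)),
        pd_mul (dα 1) (dB 2 3), pd_mul (dα 2) (dB 1 3), pd_mul (dα 3) (dB 1 2)]
    have e1 : pd (G 1) 1 x = -(pd (α' 0) 1 x * B' 2 3 x + α' 0 x * pd (B' 2 3) 1 x)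
        + (pd (α' 2) 1 x * B' 0 3 x + α' 2 x * pd (B' 0 3) 1 x)
        - (pd (α' 3) 1 x * B' 0 2 x + α' 3 x * pd (B' 0 2) 1 x) := by
      show pd (fun y => -(α' 0 y * B' 2 3 y) + α' 2 y * B' 0 3 y - α' 3 y * B' 0 2 y) 1 x = _
      rw [pd_sub' (((((dα 0).fun_mul (dB 2 3))).fun_neg).fun_add ((dα 2).fun_mul (dB 0 3))) ((dα 3).fun_mul (dB 0 2)), pd_add' ((((dα 0).fun_mul (dB 2 3))).fun_neg) ((dα 2).fun_mul (dB 0 3)), pd_neg,
        pd_mul (dα 0) (dB 2 3), pd_mul (dα 2) (dB 0 3), pd_mul (dα 3) (dB 0 2)]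
    have e2 : pd (G 2) 2 x = pd (α' 0) 2 x * B' 1 3 x + α' 0 x * pd (B' 1 3) 2 x
        - (pd (α' 1) 2 x * B' 0 3 x + α' 1 x * pd (B' 0 3) 2 x)
        + (pd (α' 3) 2 x * B' 0 1 x + α' 3 x * pd (B' 0 1) 2 x) := by
      show pd (fun y => (α' 0 y * B' 1 3 y) - α' 1 y * B' 0 3 y + α' 3 y * B' 0 1 y) 2 x = _
      rw [pd_add' ((((dα 0).fun_mul (dB 1 3))).fun_sub ((dα 1).fun_mul (dB 0 3))) ((dα 3).fun_mul (dB 0 1)), pd_sub' (((dα 0).fun_mul (dB 1 3))) ((dα 1).fun_mul (dB 0 3)),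
        pd_mul (dα 0) (dB 1 3), pd_mul (dα 1) (dB 0 3), pd_mul (dα 3) (dB 0 1)]
    have e3 : pd (G 3) 3 x = -(pd (α' 0) 3 x * B' 1 2 x + α' 0 x * pd (B' 1 2) 3 x)
        + (pd (α' 1) 3 x * B' 0 2 x + α' 1 x * pd (B' 0 2) 3 x)
        - (pd (α' 2) 3 x * B' 0 1 x + α' 2 x * pd (B' 0 1) 3 x) := by
      show pd (fun y => -(α' 0 y * B' 1 2 y) + α' 1 y * B' 0 2 y - α' 2 y * B' 0 1 y) 3 x = _
      rw [pd_sub' (((((dα 0).fun_mul (dB 1 2))).fun_neg).fun_add ((dα 1).fun_mul (dB 0 2))) ((dα 2).fun_mul (dB 0 1)), pd_add' ((((dα 0).fun_mul (dB 1 2))).fun_neg) ((dα 1).fun_mul (dB 0 2)), pd_neg,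
        pd_mul (dα 0) (dB 1 2), pd_mul (dα 1) (dB 0 2), pd_mul (dα 2) (dB 0 1)]
    have hz : ∀ a b c i, α' i x * d2 B x a b c = 0 := by
      intro a b c i
      by_cases h : α x = 0
      · simp [hα', h]
      · rw [hcl x h, mul_zero]
    have f31 : pd (B' 3 1) 2 x = -pd (B' 1 3) 2 x := by
      rw [show B' 3 1 = fun y => -B' 1 3 y from funext fun y => hA y 1 3, pd_neg]
    have f30a : pd (B' 3 0) 1 x = -pd (B' 0 3) 1 x := by
      rw [show B' 3 0 = fun y => -B' 0 3 y from funext fun y => hA y 0 3, pd_neg]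
    have f30b : pd (B' 3 0) 2 x = -pd (B' 0 3) 2 x := by
      rw [show B' 3 0 = fun y => -B' 0 3 y from funext fun y => hA y 0 3, pd_neg]
    have f20 : pd (B' 2 0) 1 x = -pd (B' 0 2) 1 x := by
      rw [show B' 2 0 = fun y => -B' 0 2 y from funext fun y => hA y 0 2, pd_neg]
    have z0 := hz 1 2 3 0
    have z1 := hz 0 2 3 1
    have z2 := hz 0 1 3 2
    have z3 := hz 0 1 2 3
    simp only [d2] at z0 z1 z2 z3
    rw [Fin.sum_univ_four, e0, e1, e2, e3]
    simp only [wdg, d1]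
    simp only [hα', hB'] at f31 f30a f30b f20 z0 z1 z2 z3 ⊢
    rw [f31] at z0
    rw [f30b] at z1
    rw [f30a] at z2
    rw [f20] at z3
    linear_combination z0 - z1 + z2 - z3
  simp only [key]
  rw [integral_finset_sum _ fun i _ =>
    (continuous_pd (hGs i) i).integrable_of_hasCompactSupport ((hGc i).fderiv_apply ℝ _)]
  exact Finset.sum_eq_zero fun i _ => integral_pd_eq_zero (hGs i) (hGc i) i

/-- cutoff from `cb (9/4)` to `cb (19/8)` -/
noncomputable def bumpA : ContDiffBump (0 : E4) where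
  rIn := 9 / 4
  rOut := 19 / 8
  rIn_pos := by norm_num
  rIn_lt_rOut := by norm_num

/-- the form used in the energy identity -/
lemma stokes_weight {c : E4 → ℝ} {A : E4 → C1} {B : E4 → C2} (hc : ContDiff ℝ 1 c)
    (hcs : tsupport c ⊆ cb 2) (hA : ∀ i, ContDiffOn ℝ 1 (fun x => A x i) (ob (5 / 2)))
    (hB : ∀ i j, ContDiff ℝ 1 fun x => B x i j) (hanti : ∀ x, Anti (B x))
    (hcl : ∀ x ∈ ob 4, ∀ a b c, d2 B x a b c = 0) :
    (∫ x in cb 2, c x * wdg (d1 A x) (B x) + wdg (wedge11 (dd c x) (A x)) (B x)) = 0 := by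
  classical
  set Ae : Fin 4 → E4 → ℝ := fun i x => bumpA x * A x i with hAe
  have hAes : ∀ i, ContDiff ℝ 1 (Ae i) := by
    intro i
    refine contDiff_iff_contDiffAt.2 fun x => ?_
    by_cases hx : x ∈ ob (5 / 2)
    · exact (bumpA.contDiff.contDiffAt).mul ((hA i).contDiffAt (isOpen_ball.mem_nhds hx))
    · refine (contDiffAt_const (c := (0 : ℝ))).congr_of_eventuallyEq ?_
      have hx' : x ∉ tsupport (bumpA : E4 → ℝ) := by
        rw [bumpA.tsupport_eq]
        intro h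
        exact hx (mem_ball.2 (lt_of_le_of_lt (mem_closedBall.1 h) (by norm_num [bumpA])))
      filter_upwards [notMem_tsupport_iff_eventuallyEq.1 hx'] with y hy
      simp [hAe, hy]
  set α : E4 → C1 := fun x i => c x * Ae i x with hα
  have hαs : ∀ i, ContDiff ℝ 1 fun x => α x i := fun i => hc.mul (hAes i)
  have hcc : HasCompactSupport c :=
    HasCompactSupport.of_support_subset_isCompact (isCompact_closedBall _ _)
      ((subset_tsupport c).trans hcs)
  have hαc : HasCompactSupport α := hcc.mono fun x hx => by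
    simp only [Function.mem_support] at hx ⊢
    exact fun h => hx (funext fun i => by simp [hα, h])
  have h0 := stokes_global hαs hαc hB hanti (by
    intro x hx
    have : x ∈ cb 2 := hcs (subset_tsupport c fun h => hx (funext fun i => by simp [hα, h]))
    exact hcl x (mem_ball.2 (lt_of_le_of_lt (mem_closedBall.1 this) (by norm_num))))
  have hsupp : ∀ x, x ∉ cb 2 → wdg (d1 α x) (B x) = 0 := by
    intro x hx
    have he : ∀ i, pd (fun y => α y i) = fun j y => pd (fun z => α z i) j y := fun i => rfl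
    have hz : ∀ i j, pd (fun y => α y i) j x = 0 := fun i j => by
      rw [pd_congr (g := fun _ => (0 : ℝ))]
      · simp [pd]
      · filter_upwards [notMem_tsupport_iff_eventuallyEq.1 (fun h => hx (hcs h))] with y hy
        simp [hα, hy]
    simp [wdg, d1, hz]
  rw [← setIntegral_eq_integral_of_forall_compl_eq_zero hsupp] at h0
  refine Eq.trans (setIntegral_congr_fun measurableSet_closedBall fun x hx => ?_) h0
  have hx94 : x ∈ ball (0 : E4) (9 / 4) :=
    mem_ball.2 (lt_of_le_of_lt (mem_closedBall.1 hx) (by norm_num))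
  have hev : ∀ i, Ae i =ᶠ[nhds x] fun y => A y i := fun i => by
    filter_upwards [isOpen_ball.mem_nhds hx94] with y hy
    have : bumpA y = 1 := bumpA.one_of_mem_closedBall (ball_subset_closedBall hy)
    simp [hAe, this]
  have hp : ∀ i j, pd (fun y => α y i) j x = pd c j x * A x i + c x * pd (fun y => A y i) j x := by
    intro i j
    show pd (fun y => c y * Ae i y) j x = _
    rw [pd_mul (hc.differentiable one_ne_zero x) ((hAes i).differentiable one_ne_zero x),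
      pd_congr (hev i) j, (hev i).self_of_nhds]
  simp only [wdg, d1, hp, wedge11, dd]
  ring

end Vale.Agent.P204.Heart
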