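import Vale.Agent.P204.Heart.EnergyPoint
import Vale.Agent.P204.Heart.Stokes
import Vale.Agent.P204.Heart.Kernel
import Vale.Agent.P204.Full.Alg.Basic

/-!
P204 heart: frame bookkeeping for the energy estimate.
-/

namespace Vale.Agent.P204.Heart

open MeasureTheory Vale.Agent.P204.Full
open scoped ContDiff

lemma frC_apply (F : Frame) (x : E4) (u : C1) (i : Fin 4) :
    frC F x u i = ∑ k, F.P x k i * u k := by
  simp [frC, Matrix.mulVec, dotProduct, Matrix.transpose_apply]

lemma frC_smul (F : Frame) (x : E4) (c : ℝ) (u : C1) : frC F x (c • u) = c • frC F x u := by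
  simp [frC, Matrix.mulVec_smul]

lemma frC_sub (F : Frame) (x : E4) (u v : C1) : frC F x (u - v) = frC F x u - frC F x v := by
  simp [frC, Matrix.mulVec_sub]

lemma pullC_wedge (A : Matrix (Fin 4) (Fin 4) ℝ) (u v : C1) :
    pullC A (wedge11 u v) = wedge11 (A.transpose.mulVec u) (A.transpose.mulVec v) := by
  funext a b
  simp only [pullC, wedge11, Matrix.mulVec, dotProduct, Matrix.transpose_apply,
    Fin.sum_univ_four]
  ring

lemma anti_wedge11 (u v : C1) : Anti (wedge11 u v) := fun a b => by simp only [wedge11]; ring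

lemma abs_sum_le_norm (g u : C1) {M : ℝ} (hM : 0 ≤ M) (h : ∀ k, |g k| ≤ M) :
    |∑ k, g k * u k| ≤ 4 * M * ‖u‖ := by
  refine (Finset.abs_sum_le_sum_abs _ _).trans ?_
  refine (Finset.sum_le_sum (g := fun _ => M * ‖u‖) fun k _ => ?_).trans ?_
  · rw [abs_mul]; exact mul_le_mul (h k) (abs_le_norm_C1 u k) (abs_nonneg _) hM
  · simp; linarith

/-- constants of the frame on `cb 4` -/
lemma frame_bounds (F : Frame) :
    ∃ K, 1 ≤ K ∧ ∀ x ∈ cb 4, (F.P x).det ≤ K ∧ 1 ≤ K * (F.P x).det ∧
      (∀ u, ‖frC F x u‖ ≤ K * ‖u‖) ∧ ∀ u, ‖u‖ ≤ K * ‖frC F x u‖ := by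
  obtain ⟨C, hC1, hC⟩ := Kernel.exists_const F
  choose a ha0 ha using fun p : Fin 4 × Fin 4 =>
    Kernel.exists_bound (Kernel.contDiff_Pinv F p.1 p.2).continuous
  have hsa := Finset.sum_nonneg (s := Finset.univ) fun p _ => ha0 p
  set M := C + ∑ p, a p with hM
  refine ⟨4 * M, by linarith, fun x hx => ?_⟩
  obtain ⟨-, -, -, hd, hd', hP⟩ := hC x hx
  have hD := F.det_pos x
  have hPinv : ∀ i j, |(F.P x)⁻¹ i j| ≤ M := fun i j => by
    have := Finset.single_le_sum (fun p _ => ha0 p) (Finset.mem_univ (i, j))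
    linarith [ha (i, j) x hx]
  refine ⟨by linarith, ?_, fun u => ?_, fun u => ?_⟩
  · have := mul_le_mul_of_nonneg_right (show C ≤ 4 * M by linarith) hD.le
    linarith
  · refine (pi_norm_le_iff_of_nonneg (mul_nonneg (by linarith) (norm_nonneg u))).2 fun i => ?_
    rw [Real.norm_eq_abs, frC_apply]
    exact abs_sum_le_norm _ u (by linarith) fun k => (hP k i).trans (by linarith)
  · have hu : u = ((F.P x)⁻¹).transpose.mulVec (frC F x u) := by
      rw [frC, Matrix.mulVec_mulVec, ← Matrix.transpose_mul, Kernel.mul_inv, Matrix.transpose_one,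
        Matrix.one_mulVec]
    refine (pi_norm_le_iff_of_nonneg (mul_nonneg (by linarith) (norm_nonneg _))).2 fun i => ?_
    conv_lhs => rw [hu]
    rw [Real.norm_eq_abs, Matrix.mulVec, dotProduct]
    exact abs_sum_le_norm _ _ (by linarith) fun k => by
      simpa [Matrix.transpose_apply] using hPinv k i

lemma dd_mul {f g : E4 → ℝ} {x : E4} (hf : DifferentiableAt ℝ f x) (hg : DifferentiableAt ℝ g x) :
    dd (fun y => f y * g y) x = g x • dd f x + f x • dd g x := by
  funext i
  simp only [dd, Pi.add_apply, Pi.smul_apply, smul_eq_mul, pd_mul hf hg]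
  ring

lemma dd_log {f : E4 → ℝ} {x : E4} (hf : DifferentiableAt ℝ f x) (h : f x ≠ 0) :
    dd (fun y => Real.log (f y)) x = (f x)⁻¹ • dd f x := by
  funext i
  simp [dd, pd, fderiv.log hf h]

lemma dd_inv {f : E4 → ℝ} {x : E4} (hf : DifferentiableAt ℝ f x) (h : f x ≠ 0) :
    dd (fun y => (f y)⁻¹) x = (-((f x) ^ 2)⁻¹) • dd f x := by
  funext i
  simp only [dd, pd, Pi.smul_apply, smul_eq_mul]
  rw [(Kernel.hasFDerivAt_inv_real hf.hasFDerivAt h).fderiv]
  simp

lemma dd_pow_two {f : E4 → ℝ} {x : E4} (hf : DifferentiableAt ℝ f x) :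
    dd (fun y => f y ^ 2) x = (2 * f x) • dd f x := by
  rw [show (fun y => f y ^ 2) = fun y => f y * f y from funext fun y => pow_two _, dd_mul hf hf]
  funext i
  simp only [Pi.add_apply, Pi.smul_apply, smul_eq_mul]
  ring

lemma continuous_frC (F : Frame) {g : E4 → C1} (hg : Continuous g) :
    Continuous fun x => frC F x (g x) := by
  refine continuous_pi fun i => ?_
  simp only [frC_apply]
  exact continuous_finsetSum _ fun k _ =>
    (F.smooth k i).continuous.mul ((continuous_apply k).comp hg)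

lemma continuous_pullC (F : Frame) {w : E4 → C2} (hw : ∀ i j, Continuous fun x => w x i j) :
    Continuous fun x => pullC (F.P x) (w x) := by
  refine continuous_pi fun a => continuous_pi fun b => ?_
  exact continuous_finsetSum _ fun c _ => continuous_finsetSum _ fun d _ =>
    ((F.smooth c a).continuous.mul (F.smooth d b).continuous).mul (hw c d)

lemma continuous_tr11 {b : E4 → C2} (hb : Continuous b) : Continuous fun x => tr11 (b x) :=
  ((continuous_apply 1).comp ((continuous_apply 0).comp hb)).add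
    ((continuous_apply 3).comp ((continuous_apply 2).comp hb))

lemma continuous_sq {g : E4 → C1} (hg : Continuous g) : Continuous fun x => sq (g x) :=
  continuous_finsetSum _ fun i _ => ((continuous_apply i).comp hg).pow 2

lemma continuous_qH {b : E4 → C2} {u : E4 → C1} (hb : Continuous b) (hu : Continuous u) :
    Continuous fun x => qH (b x) (u x) (u x) := by
  have hbc : ∀ i j, Continuous fun x => b x i j := fun i j =>
    (continuous_apply j).comp ((continuous_apply i).comp hb)
  have huc : ∀ i, Continuous fun x => u x i := fun i => (continuous_apply i).comp hu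
  simp only [qH, wdg, wedge11, J0_mulVec, Matrix.cons_val_zero, Matrix.cons_val_one,
    Matrix.cons_val_two, Matrix.cons_val_three, Matrix.head_cons, Matrix.tail_cons]
  fun_prop

lemma continuous_dd {f : E4 → ℝ} (hf : ContDiff ℝ 1 f) : Continuous fun x => dd f x :=
  continuous_pi fun i => continuous_pd hf i

/-- the frame form of the Stokes integrand -/
lemma frame_integrand (F : Frame) {x : E4} {B : C2} (hB : Anti B) {A dc : C1} {U χ c : ℝ}
    {v q β : C1} (hU : U ≠ 0)
    (hdc : frC F x dc = U⁻¹ • ((2 * χ) • q - χ ^ 2 • v))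
    (hA : frC F x A = U • β - J0.mulVec (U • v)) :
    (F.P x).det * (c * wdg B B + wdg (wedge11 dc A) B) =
      c * wdg (pullC (F.P x) B) (pullC (F.P x) B)
        - 2 * χ * qH (pullC (F.P x) B) q v + χ ^ 2 * qH (pullC (F.P x) B) v v
        + wdg (wedge11 ((2 * χ) • q - χ ^ 2 • v) β) (pullC (F.P x) B) := by
  rw [mul_add, mul_left_comm, ← Alg.wdg_pullC _ hB hB, ← Alg.wdg_pullC _ (anti_wedge11 _ _) hB,
    pullC_wedge]
  show _ + wdg (wedge11 (frC F x dc) (frC F x A)) _ = _
  rw [hdc, hA]
  generalize pullC (F.P x) B = b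
  simp only [qH, wdg, wedge11, J0_mulVec, Pi.smul_apply, Pi.sub_apply, smul_eq_mul]
  simp only [Matrix.cons_val_zero, Matrix.cons_val_one,
    Matrix.cons_val_two, Matrix.cons_val_three, Matrix.head_cons, Matrix.tail_cons]
  field_simp
  ring

end Vale.Agent.P204.Heart
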