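import Vale.Agent.P204.Heart.Alg

/-!
P204 heart: the pointwise inequality behind the energy estimate.
-/

namespace Vale.Agent.P204.Heart

open Vale.Agent.P204.Full

lemma abs_qH_le (r : C2) (x y : C1) : |qH r x y| ≤ 12 * ‖r‖ * ‖x‖ * ‖y‖ := by
  have h := wdg_abs_le (wedge11 x (J0.mulVec y)) r
  have h1 : ‖wedge11 x (J0.mulVec y)‖ ≤ 2 * ‖x‖ * ‖y‖ :=
    (wedge11_norm_le _ _).trans (mul_le_mul_of_nonneg_left (norm_J0_mulVec y) (by positivity))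
  calc |qH r x y| ≤ 6 * ‖wedge11 x (J0.mulVec y)‖ * ‖r‖ := h
    _ ≤ 6 * (2 * ‖x‖ * ‖y‖) * ‖r‖ := by gcongr
    _ = 12 * ‖r‖ * ‖x‖ * ‖y‖ := by ring

lemma wdg_add_right (x p q : C2) :
    wdg x (fun i j => p i j + q i j) = wdg x p + wdg x q := by
  simp only [wdg]; ring

lemma wdg_wedge_eq_qH (x β : C1) (b : C2) :
    wdg (wedge11 x β) b = qH b x (-(J0.mulVec β)) := by
  simp only [qH, wdg, wedge11, J0_mulVec, Pi.neg_apply]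
  simp only [Matrix.cons_val_zero, Matrix.cons_val_one, Matrix.cons_val_two,
    Matrix.cons_val_three, Matrix.head_cons, Matrix.tail_cons, neg_neg]

lemma qH_sub_left (b : C2) (x y w : C1) : qH b (x - y) w = qH b x w - qH b y w := by
  simp only [qH, wdg, wedge11, Pi.sub_apply]; ring

lemma qH_smul_both {b : C2} (hb : Semipos b) (c : ℝ) (u : C1) :
    qH b (c • u) (c • u) = c ^ 2 * qH b u u := by
  rw [qH_smul_left, qH_symm hb u, qH_smul_left]; ring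

/-- the dominating density -/
noncomputable def phiE (χ U W τ f g e : ℝ) (v : C1) : ℝ :=
  1 + τ + f ^ 2 + g ^ 2 / e ^ 2 + e ^ 2 * τ ^ 2 + W ^ 2 + χ ^ 2 * sq v + χ ^ 2 * W ^ 2 * sq v
    + χ ^ 2 * τ * W ^ 2 / U

/-- each summand of the dominating density is below it -/
lemma phiE_ge {χ U W τ f g e : ℝ} {v : C1} (hτ : 0 ≤ τ) (hU : 0 ≤ U) :
    let Φ := phiE χ U W τ f g e v
    (0 ≤ Φ ∧ τ ≤ Φ) ∧ f ^ 2 ≤ Φ ∧ g ^ 2 / e ^ 2 ≤ Φ ∧ e ^ 2 * τ ^ 2 ≤ Φ ∧ W ^ 2 ≤ Φ ∧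
      χ ^ 2 * sq v ≤ Φ ∧ χ ^ 2 * W ^ 2 * sq v ≤ Φ ∧ τ + χ ^ 2 * τ * W ^ 2 / U ≤ Φ ∧ 1 ≤ Φ := by
  have a0 := sq_nonneg' v
  have a1 := sq_nonneg f
  have a2 : 0 ≤ g ^ 2 / e ^ 2 := by positivity
  have a3 : 0 ≤ e ^ 2 * τ ^ 2 := by positivity
  have a4 := sq_nonneg W
  have a5 : 0 ≤ χ ^ 2 * sq v := by positivity
  have a6 : 0 ≤ χ ^ 2 * W ^ 2 * sq v := by positivity
  have a7 : 0 ≤ χ ^ 2 * τ * W ^ 2 / U := by positivity
  simp only [phiE]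
  refine ⟨⟨?_, ?_⟩, ?_, ?_, ?_, ?_, ?_, ?_, ?_, ?_⟩ <;> linarith

lemma point_det {χ U t N τ g e Φ : ℝ} (hχ0 : 0 ≤ χ) (hχ1 : χ ≤ 1) (hU : 1 ≤ U) (ht : 0 ≤ t)
    (hN0 : 0 ≤ N) (htτ : t ≤ τ) (hN : N ≤ g + e ^ 2 * τ) (he : 0 < e) (he1 : e ≤ 1)
    (h1 : g ^ 2 / e ^ 2 ≤ Φ) (h2 : e ^ 2 * τ ^ 2 ≤ Φ) :
    χ ^ 2 / U * (12 * (t * N + N ^ 2)) ≤ 96 * Φ := by
  have hτ : 0 ≤ τ := ht.trans htτ
  have hc : χ ^ 2 / U ≤ 1 := by
    rw [div_le_one (by linarith)]; linarith [pow_le_one₀ hχ0 hχ1 (n := 2)]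
  have hx : (g / e) ^ 2 ≤ Φ := by rw [div_pow]; exact h1
  have hy : (e * τ) ^ 2 ≤ Φ := by rw [mul_pow]; exact h2
  have a1 : t * N ≤ (e * τ) * (g / e) + e ^ 2 * τ ^ 2 := by
    have h3 : (e * τ) * (g / e) = τ * g := by field_simp
    rw [h3]
    calc t * N ≤ τ * (g + e ^ 2 * τ) := mul_le_mul htτ hN hN0 hτ
      _ = _ := by ring
  have a2 : (e * τ) * (g / e) ≤ Φ := by linarith [sq_nonneg (e * τ - g / e), two_mul_le_add_sq (e * τ) (g / e)]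
  have a3 : N ^ 2 ≤ 4 * Φ := by
    have h3 := pow_le_pow_left₀ hN0 hN 2
    have h4 : g ^ 2 ≤ Φ :=
      (le_div_self (sq_nonneg g) (by positivity) (pow_le_one₀ he.le he1)).trans h1
    have h5 : (e ^ 2 * τ) ^ 2 ≤ Φ := by
      calc (e ^ 2 * τ) ^ 2 = e ^ 2 * (e ^ 2 * τ ^ 2) := by ring
        _ ≤ e ^ 2 * τ ^ 2 := mul_le_of_le_one_left (by positivity) (pow_le_one₀ he.le he1)
        _ ≤ Φ := h2
    linarith [two_mul_le_add_sq g (e ^ 2 * τ)]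
  calc χ ^ 2 / U * (12 * (t * N + N ^ 2)) ≤ 1 * (12 * (t * N + N ^ 2)) :=
        mul_le_mul_of_nonneg_right hc (by positivity)
    _ ≤ 96 * Φ := by linarith [(sq_nonneg (g / e)).trans hx]

lemma point_quad {χ N τ g e L nv S Φ : ℝ} (hτ : 0 ≤ τ) (hg : 0 ≤ g) (hχ1 : χ ^ 2 ≤ 1)
    (hN : N ≤ g + e ^ 2 * τ) (he : 0 < e) (hnv : 0 ≤ nv) (hS : nv ^ 2 ≤ S) (hv : e * nv ≤ L)
    (hL : 1 ≤ L) (h1 : g ^ 2 / e ^ 2 ≤ Φ) (h2 : χ ^ 2 * S ≤ Φ) (h3 : τ ≤ Φ) :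
    χ ^ 2 * (4 * N * nv ^ 2) ≤ 12 * L ^ 2 * Φ := by
  have hΦ : 0 ≤ Φ := hτ.trans h3
  have hLL : L ≤ L ^ 2 := le_self_pow₀ hL (by norm_num)
  have a1 : χ ^ 2 * (g * nv ^ 2) ≤ 2 * L * Φ := by
    have h4 : (g / e) * nv ≤ g ^ 2 / e ^ 2 + S := by
      rw [← div_pow]
      linarith [two_mul_le_add_sq (g / e) nv, mul_nonneg (div_nonneg hg he.le) hnv]
    calc χ ^ 2 * (g * nv ^ 2) = χ ^ 2 * ((e * nv) * ((g / e) * nv)) := by field_simp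
      _ ≤ χ ^ 2 * (L * (g ^ 2 / e ^ 2 + S)) := by
        gcongr
      _ = L * (χ ^ 2 * (g ^ 2 / e ^ 2) + χ ^ 2 * S) := by ring
      _ ≤ L * (Φ + Φ) := by
        gcongr
        exact (mul_le_of_le_one_left (by positivity) hχ1).trans h1
      _ = _ := by ring
  have a2 : χ ^ 2 * (e ^ 2 * τ * nv ^ 2) ≤ L ^ 2 * Φ := by
    calc χ ^ 2 * (e ^ 2 * τ * nv ^ 2) ≤ e ^ 2 * τ * nv ^ 2 :=
          mul_le_of_le_one_left (by positivity) hχ1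
      _ = (e * nv) ^ 2 * τ := by ring
      _ ≤ L ^ 2 * Φ := mul_le_mul (pow_le_pow_left₀ (by positivity) hv 2) h3 hτ (by positivity)
  calc χ ^ 2 * (4 * N * nv ^ 2) ≤ χ ^ 2 * (4 * (g + e ^ 2 * τ) * nv ^ 2) := by gcongr
    _ = 4 * (χ ^ 2 * (g * nv ^ 2)) + 4 * (χ ^ 2 * (e ^ 2 * τ * nv ^ 2)) := by ring
    _ ≤ 12 * L ^ 2 * Φ := by linarith [mul_le_mul_of_nonneg_right hLL hΦ]

lemma point_mixed {χ τ f e L nv S R W U Φ : ℝ} (hχ0 : 0 ≤ χ) (hχ1 : χ ≤ 1) (hτ : 0 ≤ τ)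
    (hf : 0 ≤ f) (he : 0 < e) (he1 : e ≤ 1) (hnv : 0 ≤ nv) (hS : nv ^ 2 ≤ S) (hv : e * nv ≤ L)
    (hL : 1 ≤ L) (hR : 0 ≤ R) (hRW : R ≤ W) (hR2 : R ^ 2 ≤ W ^ 2 / U)
    (h0 : 1 ≤ Φ) (h1 : f ^ 2 ≤ Φ) (h2 : χ ^ 2 * S ≤ Φ) (h3 : W ^ 2 ≤ Φ)
    (h4 : χ ^ 2 * W ^ 2 * S ≤ Φ) (h5 : τ + χ ^ 2 * τ * W ^ 2 / U ≤ Φ) :
    χ * (f + e * τ) * (1 + R) * (L + χ * nv) ≤ 32 * L ^ 2 * Φ := by
  have hχ2 : χ ^ 2 ≤ 1 := pow_le_one₀ hχ0 hχ1
  set X := χ * (1 + R) * (L + χ * nv) with hX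
  have hX2 : X ^ 2 ≤ 20 * L ^ 2 * Φ := by
    have a1 : (1 + R) ^ 2 ≤ 2 * (1 + W ^ 2) := by
      linarith [two_mul_le_add_sq 1 R, pow_le_pow_left₀ hR hRW 2]
    have a2 : (χ * (L + χ * nv)) ^ 2 ≤ 2 * (L ^ 2 * χ ^ 2 + χ ^ 2 * S) := by
      have b1 : χ ^ 2 * (χ * nv) ^ 2 ≤ χ ^ 2 * S := by
        rw [mul_pow]
        exact mul_le_mul_of_nonneg_left
          ((mul_le_of_le_one_left (sq_nonneg nv) hχ2).trans hS) (sq_nonneg χ)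
      linarith [two_mul_le_add_sq (χ * L) (χ * (χ * nv))]
    have a3 : χ ^ 2 * L ^ 2 * (1 + W ^ 2) ≤ L ^ 2 * (Φ + Φ) :=
      mul_le_mul (mul_le_of_le_one_left (sq_nonneg L) hχ2) (by linarith) (by positivity)
        (by positivity)
    calc X ^ 2 = (1 + R) ^ 2 * (χ * (L + χ * nv)) ^ 2 := by rw [hX]; ring
      _ ≤ (2 * (1 + W ^ 2)) * (2 * (L ^ 2 * χ ^ 2 + χ ^ 2 * S)) :=
        mul_le_mul a1 a2 (sq_nonneg _) (by positivity)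
      _ = 4 * (χ ^ 2 * L ^ 2 * (1 + W ^ 2)) + 4 * (χ ^ 2 * S) + 4 * (χ ^ 2 * W ^ 2 * S) := by ring
      _ ≤ 20 * L ^ 2 * Φ := by
        linarith [le_mul_of_one_le_left (zero_le_one.trans h0) (one_le_pow₀ (n := 2) hL)]
  have hfX : f * X ≤ 21 / 2 * L ^ 2 * Φ := by
    linarith [two_mul_le_add_sq f X,
      le_mul_of_one_le_left (zero_le_one.trans h0) (one_le_pow₀ (n := 2) hL)]
  have hτX : e * τ * X ≤ 4 * L * Φ := by
    have c1 : e * (L + χ * nv) ≤ 2 * L := by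
      calc e * (L + χ * nv) = e * L + χ * (e * nv) := by ring
        _ ≤ 1 * L + 1 * L :=
          add_le_add (mul_le_mul_of_nonneg_right he1 (by linarith))
            (mul_le_mul hχ1 hv (by positivity) zero_le_one)
        _ = 2 * L := by ring
    have c2 : χ * (1 + R) ≤ 2 * (1 + χ ^ 2 * (W ^ 2 / U)) := by
      linarith [two_mul_le_add_sq 1 (χ * R), mul_le_mul_of_nonneg_left hR2 (sq_nonneg χ),
        mul_nonneg (sq_nonneg χ) ((sq_nonneg R).trans hR2)]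
    calc e * τ * X = τ * ((χ * (1 + R)) * (e * (L + χ * nv))) := by rw [hX]; ring
      _ ≤ τ * ((2 * (1 + χ ^ 2 * (W ^ 2 / U))) * (2 * L)) :=
        mul_le_mul_of_nonneg_left (mul_le_mul c2 c1 (by positivity)
          (mul_nonneg zero_le_two (add_nonneg zero_le_one
            (mul_nonneg (sq_nonneg χ) ((sq_nonneg R).trans hR2))))) hτ
      _ = 4 * L * (τ + χ ^ 2 * τ * W ^ 2 / U) := by ring
      _ ≤ 4 * L * Φ := by gcongr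
  calc χ * (f + e * τ) * (1 + R) * (L + χ * nv) = f * X + e * τ * X := by rw [hX]; ring
    _ ≤ 32 * L ^ 2 * Φ := by
      linarith [mul_le_mul_of_nonneg_right (le_self_pow₀ hL (n := 2) (by norm_num))
        (zero_le_one.trans h0), mul_nonneg (sq_nonneg L) (zero_le_one.trans h0)]

lemma energy_pointwise {h r : C2} (hh : Semipos h) (hr : Anti r)
    {χ U W τ f g e L : ℝ} {v q β : C1}
    (hχ0 : 0 ≤ χ) (hχ1 : χ ≤ 1) (hU : 1 ≤ U) (hW : 0 ≤ W) (hτ : tr11 h ≤ τ)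
    (hg : 0 ≤ g) (hgf : g ≤ f) (he : 0 < e) (he1 : e ≤ 1)
    (hN : n11 r ≤ g + e ^ 2 * τ) (hM : nM r ≤ f + e * τ) (hL : 1 ≤ L)
    (hv : e * ‖v‖ ≤ L) (hq : ‖q‖ ≤ L) (hβ : ‖β‖ ≤ L * (1 + W / U)) :
    χ ^ 2 * qH h v v / 2 ≤
      (χ ^ 2 / U * wdg (fun i j => h i j + r i j) (fun i j => h i j + r i j)
        - 2 * χ * qH (fun i j => h i j + r i j) q v
        + χ ^ 2 * qH (fun i j => h i j + r i j) v v
        + wdg (wedge11 ((2 * χ) • q - χ ^ 2 • v) β) (fun i j => h i j + r i j))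
      + 5000 * L ^ 4 * phiE χ U W τ f g e v := by
  have hU0 : 0 < U := one_pos.trans_le hU
  have ht0 : 0 ≤ tr11 h := add_nonneg hh.2.2.2.1 hh.2.2.2.2.1
  have hτ0 : 0 ≤ τ := ht0.trans hτ
  have hf : 0 ≤ f := hg.trans hgf
  have hN0 : 0 ≤ n11 r := by simp only [n11]; positivity
  have hχ2 : χ ^ 2 ≤ 1 := pow_le_one₀ hχ0 hχ1
  have hR0 : 0 ≤ W / U := div_nonneg hW hU0.le
  have hRW : W / U ≤ W := div_le_self hW hU
  have hR2 : (W / U) ^ 2 ≤ W ^ 2 / U := by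
    rw [div_pow, pow_two U]
    exact div_le_div_of_nonneg_left (sq_nonneg W) hU0 (le_mul_of_one_le_left hU0.le hU)
  obtain ⟨⟨hΦ0, hτΦ⟩, hfΦ, hgΦ, heΦ, hWΦ, hSΦ, hWSΦ, hTWΦ, h1Φ⟩ :=
    phiE_ge (χ := χ) (U := U) (W := W) (τ := τ) (f := f) (g := g) (e := e) (v := v) hτ0 hU0.le
  set Φ := phiE χ U W τ f g e v
  have hvS : ‖v‖ ^ 2 ≤ sq v := norm_sq_le_sq v
  -- the left-hand side
  have T1 : -(χ ^ 2 / U * wdg (fun i j => h i j + r i j) (fun i j => h i j + r i j)) ≤ 96 * Φ := by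
    rw [← mul_neg]
    exact (mul_le_mul_of_nonneg_left (neg_le.1 (wdg_self_ge hh)) (by positivity)).trans
      (point_det hχ0 hχ1 hU ht0 hN0 hτ hN he he1 hgΦ heΦ)
  have T2 : χ ^ 2 * |qH r v v| ≤ 12 * L ^ 2 * Φ :=
    (mul_le_mul_of_nonneg_left (qH_err r v) (sq_nonneg χ)).trans
      (point_quad hτ0 hg hχ2 hN he (norm_nonneg v) hvS hv hL hgΦ hSΦ hτΦ)
  have hrn : ‖r‖ ≤ 2 * (f + e * τ) := by
    have h1 := norm_le_parts hr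
    have h2 : e ^ 2 * τ ≤ e * τ :=
      mul_le_mul_of_nonneg_right (pow_le_of_le_one he.le he1 two_ne_zero) hτ0
    linarith
  have T3 := point_mixed hχ0 hχ1 hτ0 hf he he1 (norm_nonneg v) hvS hv hL hR0 hRW hR2 h1Φ hfΦ hSΦ
    hWΦ hWSΦ hTWΦ
  set R := W / U
  -- the cross terms
  set z : C1 := -(J0.mulVec β) with hz
  have hzn : ‖z‖ ≤ L * (1 + R) := by
    rw [hz, norm_neg]; exact (norm_J0_mulVec β).trans hβ
  have hsq4 : ∀ x : C1, ∀ B : ℝ, ‖x‖ ≤ B → qH h x x ≤ 8 * τ * B ^ 2 := fun x B hx => by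
    calc qH h x x ≤ 2 * tr11 h * sq x := (qH_self_bounds hh x).2
      _ ≤ 2 * τ * (4 * ‖x‖ ^ 2) :=
        mul_le_mul (by linarith) (sq_le_norm x) (sq_nonneg' x) (by positivity)
      _ ≤ 2 * τ * (4 * B ^ 2) := by gcongr
      _ = 8 * τ * B ^ 2 := by ring
  have qq := hsq4 q L hq
  have qz := hsq4 z _ hzn
  have T4 : 2 * χ * |qH h q v| ≤ χ ^ 2 * qH h v v / 4 + 32 * L ^ 2 * τ := by
    have h1 := qH_cs hh (χ • v) q (ε := 1 / 8) (by norm_num)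
    rw [qH_smul_left, qH_smul_both hh, abs_mul, abs_of_nonneg hχ0, qH_symm hh v q] at h1
    norm_num at h1
    linarith
  have T5 : 2 * χ * |qH h q z| + χ ^ 2 * |qH h v z| ≤ χ ^ 2 * qH h v v / 4 + 40 * L ^ 2 * Φ := by
    have h1 := qH_cs hh (χ • z) q (ε := 1 / 2) (by norm_num)
    rw [qH_smul_left, qH_smul_both hh, abs_mul, abs_of_nonneg hχ0, qH_symm hh z q] at h1
    have h2 := mul_le_mul_of_nonneg_left (qH_cs hh v z (ε := 1 / 4) (by norm_num)) (sq_nonneg χ)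
    have h4 : χ ^ 2 * (1 + R) ^ 2 ≤ 2 * (1 + χ ^ 2 * (W ^ 2 / U)) := by
      have h6 : (1 + R) ^ 2 ≤ 2 * (1 + W ^ 2 / U) := by linarith [two_mul_le_add_sq 1 R]
      have := mul_le_mul_of_nonneg_left h6 (sq_nonneg χ)
      linarith
    have h5 : χ ^ 2 * qH h z z ≤ 16 * L ^ 2 * Φ := by
      calc χ ^ 2 * qH h z z ≤ χ ^ 2 * (8 * τ * (L * (1 + R)) ^ 2) :=
            mul_le_mul_of_nonneg_left qz (sq_nonneg χ)
        _ = 8 * L ^ 2 * ((χ ^ 2 * (1 + R) ^ 2) * τ) := by ring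
        _ ≤ 8 * L ^ 2 * ((2 * (1 + χ ^ 2 * (W ^ 2 / U))) * τ) := by gcongr
        _ = 16 * L ^ 2 * (τ + χ ^ 2 * τ * W ^ 2 / U) := by ring
        _ ≤ 16 * L ^ 2 * Φ := by gcongr
    linarith [mul_le_mul_of_nonneg_left hτΦ (sq_nonneg L)]
  have T6 : 2 * χ * |qH r q v| ≤ 48 * L * (2 * L * Φ) := by
    have h2 : |qH r q v| ≤ 12 * (2 * (f + e * τ)) * L * ‖v‖ :=
      (abs_qH_le r q v).trans (by gcongr)
    have h4 : χ * (f + e * τ) * ‖v‖ ≤ 2 * L * Φ := by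
      have a1 : f * (χ * ‖v‖) ≤ Φ := by
        have : (χ * ‖v‖) ^ 2 ≤ Φ := by
          rw [mul_pow]; exact (mul_le_mul_of_nonneg_left hvS (sq_nonneg χ)).trans hSΦ
        linarith [two_mul_le_add_sq f (χ * ‖v‖)]
      have a2 : χ * (e * ‖v‖) * τ ≤ L * Φ :=
        mul_le_mul ((mul_le_of_le_one_left (by positivity) hχ1).trans hv) hτΦ hτ0 (by linarith)
      linarith [le_mul_of_one_le_left hΦ0 hL]
    calc 2 * χ * |qH r q v| ≤ 2 * χ * (12 * (2 * (f + e * τ)) * L * ‖v‖) := by gcongr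
      _ = 48 * L * (χ * (f + e * τ) * ‖v‖) := by ring
      _ ≤ 48 * L * (2 * L * Φ) := by gcongr
  have T7 : |qH r ((2 * χ) • q - χ ^ 2 • v) z| ≤ 48 * L * (32 * L ^ 2 * Φ) := by
    have hn : ‖(2 * χ) • q - χ ^ 2 • v‖ ≤ χ * (2 * (L + χ * ‖v‖)) := by
      refine (norm_sub_le _ _).trans ?_
      rw [norm_smul, norm_smul, Real.norm_eq_abs, Real.norm_eq_abs,
        abs_of_nonneg (by linarith : 0 ≤ 2 * χ), abs_of_nonneg (sq_nonneg χ)]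
      linarith [mul_le_mul_of_nonneg_left hq hχ0, mul_nonneg (sq_nonneg χ) (norm_nonneg v)]
    calc |qH r ((2 * χ) • q - χ ^ 2 • v) z|
        ≤ 12 * ‖r‖ * ‖(2 * χ) • q - χ ^ 2 • v‖ * ‖z‖ := abs_qH_le _ _ _
      _ ≤ 12 * (2 * (f + e * τ)) * (χ * (2 * (L + χ * ‖v‖))) * (L * (1 + R)) := by gcongr
      _ = 48 * L * (χ * (f + e * τ) * (1 + R) * (L + χ * ‖v‖)) := by ring
      _ ≤ 48 * L * (32 * L ^ 2 * Φ) := by gcongr
  -- expansion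
  have X1 : qH (fun i j => h i j + r i j) v v = qH h v v + qH r v v := by
    simp only [qH, wdg_add_right]
  have X2 : qH (fun i j => h i j + r i j) q v = qH h q v + qH r q v := by
    simp only [qH, wdg_add_right]
  have X3 : wdg (wedge11 ((2 * χ) • q - χ ^ 2 • v) β) (fun i j => h i j + r i j)
      = 2 * χ * qH h q z - χ ^ 2 * qH h v z + qH r ((2 * χ) • q - χ ^ 2 • v) z := by
    rw [wdg_add_right, wdg_wedge_eq_qH, wdg_wedge_eq_qH, ← hz, qH_sub_left h, qH_smul_left,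
      qH_smul_left]
  rw [X1, X2, X3]
  have p1 : -(χ ^ 2 * qH r v v) ≤ χ ^ 2 * |qH r v v| := by
    rw [← mul_neg]; exact mul_le_mul_of_nonneg_left (neg_le_abs _) (sq_nonneg χ)
  have p2 : 2 * χ * qH h q v ≤ 2 * χ * |qH h q v| := by gcongr; exact le_abs_self _
  have p3 : 2 * χ * qH r q v ≤ 2 * χ * |qH r q v| := by gcongr; exact le_abs_self _
  have p4 : -(2 * χ * qH h q z) ≤ 2 * χ * |qH h q z| := by
    rw [← mul_neg]; gcongr; exact neg_le_abs _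
  have p5 : χ ^ 2 * qH h v z ≤ χ ^ 2 * |qH h v z| := by gcongr; exact le_abs_self _
  have p6 := neg_le_abs (qH r ((2 * χ) • q - χ ^ 2 • v) z)
  have k1 : L ^ 2 * τ ≤ L ^ 4 * Φ :=
    mul_le_mul (pow_le_pow_right₀ hL (by norm_num)) hτΦ hτ0 (by positivity)
  have k3 : L ^ 3 * Φ ≤ L ^ 4 * Φ :=
    mul_le_mul_of_nonneg_right (pow_le_pow_right₀ hL (by norm_num)) hΦ0
  have k4 : L ^ 2 * Φ ≤ L ^ 4 * Φ :=
    mul_le_mul_of_nonneg_right (pow_le_pow_right₀ hL (by norm_num)) hΦ0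
  have k5 : Φ ≤ L ^ 4 * Φ := le_mul_of_one_le_left hΦ0 (one_le_pow₀ hL)
  linarith

end Vale.Agent.P204.Heart
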