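import Vale.Agent.P204.Heart.Potential

/-!
P204, analytic heart: the field `P Pᵀ : D_z` of the frozen kernel and the flux of the potential.
-/

namespace Vale.Agent.P204.Heart

open MeasureTheory Vale.Agent.P204.Full Set Metric
open scoped ContDiff

/-- the coefficients `P Pᵀ` -/
noncomputable def met (F : Frame) (y : E4) : Matrix (Fin 4) (Fin 4) ℝ :=
  F.P y * (F.P y).transpose

/-- the field `P Pᵀ D_z N` of the frozen kernel -/
noncomputable def gk (F : Frame) (σ : ℝ) (c : Fin 4) (p : E4 × E4) : ℝ :=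
  ∑ d, met F p.1 c d * pdz (nk F σ) d p

/-- the frozen mollifier as a function of the pair -/
noncomputable def kk (F : Frame) (σ : ℝ) (p : E4 × E4) : ℝ := kker F σ p.1 p.2

lemma moll_eq (F : Frame) (σ : ℝ) (s : E4 → ℝ) (x : E4) :
    moll F σ s x = kconv (kk F σ) (cut34 s) x := rfl

lemma contDiff_met (F : Frame) (a b : Fin 4) : ContDiff ℝ ∞ fun y => met F y a b := by
  simp only [met, Matrix.mul_apply, Matrix.transpose_apply]
  exact ContDiff.sum fun c _ => (F.smooth a c).mul (F.smooth b c)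

lemma met_symm (F : Frame) (y : E4) (a b : Fin 4) : met F y a b = met F y b a := by
  simp only [met, Matrix.mul_apply, Matrix.transpose_apply, mul_comm]

lemma contDiff_nk (F : Frame) {σ : ℝ} (hσ : 0 < σ) : ContDiff ℝ ∞ (nk F σ) :=
  Kernel.contDiff_nker F hσ

lemma contDiff_gk (F : Frame) {σ : ℝ} (hσ : 0 < σ) (c : Fin 4) : ContDiff ℝ ∞ (gk F σ c) :=
  ContDiff.sum fun d _ =>
    ((contDiff_met F c d).comp contDiff_fst).mul (contDiff_pdz (contDiff_nk F hσ) d)

/-- the divergence of the field is minus the mollifier -/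
lemma div_gk (F : Frame) {σ : ℝ} (hσ : 0 < σ) (y z : E4) :
    ∑ c, pdz (gk F σ c) c (y, z) = -kker F σ y z := by
  have hN : ∀ d, (fun w => pdz (nk F σ) d (y, w)) = pd (fun w => nker F σ y w) d := fun d => by
    funext w; exact pdz_eq_pd (contDiff_nk F hσ) d y w
  have h : ∀ c, pdz (gk F σ c) c (y, z)
      = ∑ d, met F y c d * pd (fun w => pd (fun v => nker F σ y v) d w) c z := fun c => by
    rw [pdz_eq_pd (contDiff_gk F hσ c)]
    have hd : ∀ d, DifferentiableAt ℝ (fun w => pdz (nk F σ) d (y, w)) z := fun d =>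
      ((contDiff_pdz (contDiff_nk F hσ) d).comp
        (contDiff_const.prodMk contDiff_id)).differentiable (by simp) z
    simp only [pd, gk]
    rw [fderiv_fun_sum fun d _ => (hd d).const_mul _]
    simp only [_root_.sum_apply]
    refine Finset.sum_congr rfl fun d _ => ?_
    rw [fderiv_const_mul (hd d)]
    simp only [_root_.smul_apply, smul_eq_mul, hN d]
    rfl
  simp only [h]
  rw [Finset.sum_comm, ← Kernel.ppt_hess_nker hσ y z]
  exact Finset.sum_congr rfl fun d _ => Finset.sum_congr rfl fun c _ => by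
    rw [met_symm F y c d]; rfl

/-- bounds of the field, of its derivative in the point of freezing, and of `P Pᵀ` -/
lemma gk_bounds (F : Frame) :
    ∃ C, 0 < C ∧ (∀ x ∈ cb 4, ∀ y ∈ cb 4, ∀ a b, |met F x a b - met F y a b| ≤ C * ‖x - y‖) ∧
      ∀ σ, 0 < σ → ∀ y ∈ cb 4, ∀ z : E4,
        (∀ d, |pdz (nk F σ) d (y, z)| ≤ C / Real.sqrt (‖z‖ ^ 2 + σ ^ 2) ^ 3) ∧
        (∀ c, |gk F σ c (y, z)| ≤ C / Real.sqrt (‖z‖ ^ 2 + σ ^ 2) ^ 3) ∧
        (∀ c k, |pdy (gk F σ c) k (y, z)| ≤ C / Real.sqrt (‖z‖ ^ 2 + σ ^ 2) ^ 3) ∧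
        (∀ k, |pdy (nk F σ) k (y, z)| ≤ C / (‖z‖ ^ 2 + σ ^ 2)) := by
  obtain ⟨K, hK, hb⟩ := Kernel.kernel_bounds F
  have hM : ∀ a b, ∃ A : ℝ, 0 ≤ A ∧ ∀ y ∈ cb 4, |met F y a b| ≤ A ∧
      ∀ k, |pd (fun y => met F y a b) k y| ≤ A ∧ ‖fderiv ℝ (fun y => met F y a b) y‖ ≤ A := by
    intro a b
    obtain ⟨A1, h1⟩ := (isCompact_closedBall (0 : E4) 4).exists_bound_of_continuousOn
      (contDiff_met F a b).continuous.continuousOn
    obtain ⟨A2, h2⟩ := (isCompact_closedBall (0 : E4) 4).exists_bound_of_continuousOn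
      ((contDiff_met F a b).continuous_fderiv (by simp)).continuousOn
    refine ⟨max (max A1 A2) 0, le_max_right _ _, fun y hy => ?_⟩
    have hA2 := (h2 y hy).trans ((le_max_right A1 A2).trans (le_max_left _ 0))
    refine ⟨(h1 y hy).trans ((le_max_left A1 A2).trans (le_max_left _ 0)), fun k => ⟨?_, hA2⟩⟩
    refine le_trans ?_ hA2
    rw [pd, ← Real.norm_eq_abs]
    exact ((fderiv ℝ _ y).le_opNorm _).trans (by simp [ev4])
  choose A hA0 hA using hM
  set B := ∑ a, ∑ b, A a b with hB
  have hB0 : 0 ≤ B := Finset.sum_nonneg fun a _ => Finset.sum_nonneg fun b _ => hA0 a b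
  have hAB : ∀ a b, A a b ≤ B := fun a b =>
    (Finset.single_le_sum (fun b _ => hA0 a b) (Finset.mem_univ b)).trans
      (Finset.single_le_sum (f := fun a => ∑ b, A a b)
        (fun a _ => Finset.sum_nonneg fun b _ => hA0 a b) (Finset.mem_univ a))
  refine ⟨1 + B + K + 4 * B * K + 8 * B * K + K * K, by positivity,
    fun x hx y hy a b => ?_, fun σ hσ y hy z => ?_⟩
  · have h := (convex_closedBall (0 : E4) 4).norm_image_sub_le_of_norm_fderiv_le
      (f := fun y => met F y a b) (fun w _ => (contDiff_met F a b).differentiable (by simp) w)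
      (fun w hw => (((hA a b w hw).2 0).2).trans (hAB a b)) hy hx
    rw [Real.norm_eq_abs] at h
    exact h.trans (mul_le_mul_of_nonneg_right (by nlinarith) (norm_nonneg _))
  obtain ⟨-, h2, h3, -, h5, h6, -⟩ := hb σ hσ y hy z
  set r := Real.sqrt (‖z‖ ^ 2 + σ ^ 2) ^ 3 with hr
  have hr0 : 0 < r := pow_pos (Real.sqrt_pos.2 (sq_add_pos hσ z)) 3
  have hz : ∀ d, |pdz (nk F σ) d (y, z)| ≤ K / r := fun d => by
    rw [pdz_eq_pd (contDiff_nk F hσ)]; exact h3 d
  have le : ∀ T, T ≤ 1 + B + K + 4 * B * K + 8 * B * K + K * K → ∀ v, |v| ≤ T / r →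
      |v| ≤ (1 + B + K + 4 * B * K + 8 * B * K + K * K) / r := fun T hT v hv =>
    hv.trans (div_le_div_of_nonneg_right hT hr0.le)
  refine ⟨fun d => le K (by nlinarith) _ (hz d), fun c => ?_, fun c k => ?_, fun k => ?_⟩
  · refine le (4 * B * K) (by nlinarith) _ ?_
    refine (Finset.abs_sum_le_sum_abs _ _).trans ?_
    calc ∑ d, |met F y c d * pdz (nk F σ) d (y, z)| ≤ ∑ _d : Fin 4, B * (K / r) :=
          Finset.sum_le_sum fun d _ => by
            rw [abs_mul]
            exact mul_le_mul ((hA c d y hy).1.trans (hAB c d)) (hz d) (abs_nonneg _) hB0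
      _ = _ := by simp; ring
  · refine le (8 * B * K) (by nlinarith) _ ?_
    have hd : ∀ d, DifferentiableAt ℝ (fun w => pdz (nk F σ) d (w, z)) y := fun d =>
      ((contDiff_pdz (contDiff_nk F hσ) d).comp
        (contDiff_id.prodMk contDiff_const)).differentiable (by simp) y
    have hm : ∀ d, DifferentiableAt ℝ (fun w => met F w c d) y := fun d =>
      (contDiff_met F c d).differentiable (by simp) y
    have he : pdy (gk F σ c) k (y, z) = ∑ d, (pd (fun w => met F w c d) k y * pdz (nk F σ) d (y, z)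
        + met F y c d * pd (fun w => pd (fun v => nker F σ w v) d z) k y) := by
      rw [pdy_eq_pd (contDiff_gk F hσ c)]
      simp only [pd, gk]
      rw [fderiv_fun_sum fun d _ => (hm d).fun_mul (hd d)]
      simp only [_root_.sum_apply]
      refine Finset.sum_congr rfl fun d _ => ?_
      have hf : (fun w => pdz (nk F σ) d (w, z)) = fun w => pd (fun v => nker F σ w v) d z := by
        funext w; exact pdz_eq_pd (contDiff_nk F hσ) d w z
      rw [fderiv_fun_mul (hm d) (hd d), hf]
      simp [pd]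
      ring
    rw [he]
    refine (Finset.abs_sum_le_sum_abs _ _).trans ?_
    calc ∑ d, |_| ≤ ∑ _d : Fin 4, (B * (K / r) + B * (K / r)) :=
          Finset.sum_le_sum fun d _ => (abs_add_le _ _).trans (add_le_add
            (by rw [abs_mul]
                exact mul_le_mul (((hA c d y hy).2 k).1.trans (hAB c d)) (hz d) (abs_nonneg _) hB0)
            (by rw [abs_mul]
                exact mul_le_mul ((hA c d y hy).1.trans (hAB c d)) (h6 k d) (abs_nonneg _) hB0))
      _ = _ := by simp; ring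
  · have h := h5 k
    rw [pdy_eq_pd (contDiff_nk F hσ)]
    show |pd (fun w => nker F σ w z) k y| ≤ _
    refine h.trans ?_
    refine (mul_le_mul_of_nonneg_left h2 hK.le).trans ?_
    rw [← mul_div_assoc]
    exact div_le_div_of_nonneg_right (by nlinarith) (sq_add_pos hσ z).le

end Vale.Agent.P204.Heart
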