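import Vale.Agent.P204.Full.Alg.Basic

/-!
P204, analytic heart: pointwise frame algebra of the parametrix.
-/

namespace Vale.Agent.P204.Heart

open Vale.Agent.P204.Full

/-- signs of the components of `u ∧ b` in the frame identity -/
def sgn : Fin 4 → ℝ := ![1, -1, 1, -1]

/-- the indices other than `i`, in increasing order -/
def tri1 : Fin 4 → Fin 4 := ![1, 0, 0, 0]

/-- the indices other than `i`, in increasing order -/
def tri2 : Fin 4 → Fin 4 := ![2, 2, 1, 1]

/-- the indices other than `i`, in increasing order -/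
def tri3 : Fin 4 → Fin 4 := ![3, 3, 3, 2]

/-- the exact frame identity, up to the anti-invariant part -/
lemma iot_c3 {b : C2} (hb : Anti b) (u : C1) (i : Fin 4) :
    |iot u b i - tr11 b * J0.mulVec u i - sgn i * c3 u b (tri1 i) (tri2 i) (tri3 i)| ≤
      2 * ‖u‖ * nM b := by
  have hd : ∀ i, b i i = 0 := fun i => by have := hb i i; linarith
  have a1 : b 1 0 = -b 0 1 := hb 0 1
  have a2 : b 2 0 = -b 0 2 := hb 0 2
  have a3 : b 3 0 = -b 0 3 := hb 0 3
  have a4 : b 2 1 = -b 1 2 := hb 1 2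
  have a5 : b 3 1 = -b 1 3 := hb 1 3
  have a6 : b 3 2 = -b 2 3 := hb 2 3
  have hn : ∀ j, ∀ x : ℝ, |x| ≤ nM b → |u j * x| ≤ ‖u‖ * nM b := fun j x hx => by
    rw [abs_mul]; exact mul_le_mul (abs_le_norm_C1 u j) hx (abs_nonneg _) (norm_nonneg _)
  have m1 : |b 0 2 - b 1 3| ≤ nM b := le_add_of_nonneg_right (abs_nonneg _)
  have m2 : |b 0 3 + b 1 2| ≤ nM b := le_add_of_nonneg_left (abs_nonneg _)
  have x0 := hn 0 _ m1; have x1 := hn 1 _ m1; have x2 := hn 2 _ m1; have x3 := hn 3 _ m1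
  have y0 := hn 0 _ m2; have y1 := hn 1 _ m2; have y2 := hn 2 _ m2; have y3 := hn 3 _ m2
  simp only [abs_le] at x0 x1 x2 x3 y0 y1 y2 y3
  fin_cases i <;>
    simp only [iot, Fin.sum_univ_four, J0_mulVec, tr11, c3, sgn, tri1, tri2, tri3, hd, a1, a2, a3,
      a4, a5, a6, Fin.zero_eta, Fin.mk_one, Fin.reduceFinMk, Matrix.cons_val_zero,
      Matrix.cons_val_one, Matrix.cons_val_two, Matrix.cons_val_three, Matrix.head_cons,
      Matrix.tail_cons] at * <;>
    rw [abs_le] <;> constructor <;> linarith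

/-- `u ∧ b` is natural under a change of frame -/
lemma c3_pull (P : Matrix (Fin 4) (Fin 4) ℝ) (g : C1) (B : C2) (i j k : Fin 4) :
    c3 (P.transpose.mulVec g) (pullC P B) i j k
      = ∑ a, ∑ b, ∑ c, P a i * P b j * P c k * c3 g B a b c := by
  simp only [c3, Matrix.mulVec, dotProduct, Matrix.transpose_apply, pullC, Fin.sum_univ_four]
  ring

/-- the contraction of `B` with `P Pᵀ g`, read in the frame -/
lemma iot_pull (P : Matrix (Fin 4) (Fin 4) ℝ) (g : C1) (B : C2) (j : Fin 4) :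
    ∑ c, ∑ b, P b j * (P * P.transpose).mulVec g c * B c b
      = iot (P.transpose.mulVec g) (pullC P B) j := by
  simp only [iot, Matrix.mulVec, dotProduct, Matrix.transpose_apply, Matrix.mul_apply, pullC,
    Fin.sum_univ_four]
  ring

lemma prod3_sub_le {p1 p2 p3 q1 q2 q3 A L : ℝ} (hA : 0 ≤ A) (a1 : |p1| ≤ A) (a2 : |p2| ≤ A)
    (b2 : |q2| ≤ A) (b3 : |q3| ≤ A) (l1 : |p1 - q1| ≤ L) (l2 : |p2 - q2| ≤ L)
    (l3 : |p3 - q3| ≤ L) : |p1 * p2 * p3 - q1 * q2 * q3| ≤ 3 * A ^ 2 * L := by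
  have e : p1 * p2 * p3 - q1 * q2 * q3
      = (p1 - q1) * (q2 * q3) + p1 * (p2 - q2) * q3 + p1 * p2 * (p3 - q3) := by ring
  have hL : 0 ≤ L := (abs_nonneg _).trans l1
  rw [e]
  refine (abs_add_three _ _ _).trans ?_
  simp only [abs_mul]
  nlinarith [mul_le_mul l1 (mul_le_mul b2 b3 (abs_nonneg _) hA) (by positivity) hL,
    mul_le_mul (mul_le_mul a1 l2 (abs_nonneg _) hA) b3 (abs_nonneg _) (by positivity),
    mul_le_mul (mul_le_mul a1 a2 (abs_nonneg _) hA) l3 (abs_nonneg _) (by positivity)]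

lemma abs_mulVec_le {M : Matrix (Fin 4) (Fin 4) ℝ} {A : ℝ} (h : ∀ i j, |M i j| ≤ A) (u : C1)
    (i : Fin 4) : |M.mulVec u i| ≤ 4 * A * ‖u‖ := by
  simp only [Matrix.mulVec, dotProduct]
  refine (Finset.abs_sum_le_sum_abs _ _).trans ?_
  calc ∑ j, |M i j * u j| ≤ ∑ _j : Fin 4, A * ‖u‖ := Finset.sum_le_sum fun j _ => by
        rw [abs_mul]
        exact mul_le_mul (h i j) (abs_le_norm_C1 u j) (abs_nonneg _) ((abs_nonneg _).trans (h i j))
    _ = _ := by simp; ring

lemma norm_semipos_le {h : C2} (hh : Semipos h) : ‖h‖ ≤ 5 * tr11 h ∧ nM h = 0 := by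
  obtain ⟨ha, h1, h2, p1, p2, hdet⟩ := hh
  have hnM : nM h = 0 := by simp [nM, h1, h2]
  refine ⟨(norm_le_parts ha).trans ?_, hnM⟩
  have ht : 0 ≤ tr11 h := by rw [tr11]; linarith
  have hp : |h 0 2| ≤ tr11 h := abs_le_of_sq_le_sq (by rw [tr11]; nlinarith) ht
  have hq : |h 0 3| ≤ tr11 h := abs_le_of_sq_le_sq (by rw [tr11]; nlinarith) ht
  rw [hnM, n11, ← h1, show h 0 3 - h 1 2 = 2 * h 0 3 by linarith, ← two_mul, abs_mul, abs_mul,
    abs_two, abs_of_nonneg p1, abs_of_nonneg p2]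
  rw [tr11] at *
  linarith

lemma norm_pullC_le' (A : Matrix (Fin 4) (Fin 4) ℝ) {a : ℝ} (hA : ∀ p q, |A p q| ≤ a) (W : C2) :
    ‖pullC A W‖ ≤ 16 * a ^ 2 * ‖W‖ := by
  have ha : 0 ≤ a := (abs_nonneg _).trans (hA 0 0)
  refine (pi_norm_le_iff_of_nonneg (by positivity)).2 fun p =>
    (pi_norm_le_iff_of_nonneg (by positivity)).2 fun q => ?_
  rw [Real.norm_eq_abs]
  calc |pullC A W p q| ≤ ∑ _c : Fin 4, ∑ _d : Fin 4, a * a * ‖W‖ := by
        refine (Finset.abs_sum_le_sum_abs _ _).trans (Finset.sum_le_sum fun c _ =>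
          (Finset.abs_sum_le_sum_abs _ _).trans (Finset.sum_le_sum fun d _ => ?_))
        rw [abs_mul, abs_mul]
        exact mul_le_mul (mul_le_mul (hA c p) (hA d q) (abs_nonneg _) ha) (abs_le_norm_C2 W c d)
          (abs_nonneg _) (by positivity)
    _ = 16 * a ^ 2 * ‖W‖ := by simp; ring

/-- the error of the frame identity when the frame `Q` is taken at another point -/
lemma frame_point {P Q : Matrix (Fin 4) (Fin 4) ℝ} {A L : ℝ} (hP : ∀ i j, |P i j| ≤ A)
    (hQ : ∀ i j, |Q i j| ≤ A) (hPQ : ∀ i j, |P i j - Q i j| ≤ L) (g : C1) {B h : C2}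
    (hB : Anti B) (hh : Semipos h) (j : Fin 4) :
    |∑ c, ∑ b, Q b j * (P * P.transpose).mulVec g c * B c b
      - tr11 h * J0.mulVec (Q.transpose.mulVec g) j
      - sgn j * ∑ a, ∑ b, ∑ c,
          Q a (tri1 j) * Q b (tri2 j) * Q c (tri3 j) * c3 g B a b c| ≤
      4000 * (1 + A ^ 2) * (L * ‖g‖ * ‖B‖ + L * ‖g‖ * tr11 h + ‖g‖ *
        (n11 (fun p q => pullC P B p q - h p q) + nM (fun p q => pullC P B p q - h p q))) := by
  have hA : 0 ≤ A := (abs_nonneg _).trans (hP 0 0)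
  have hL : 0 ≤ L := (abs_nonneg _).trans (hPQ 0 0)
  set b := pullC P B with hb
  set d : C2 := fun p q => b p q - h p q with hd
  set v := P.transpose.mulVec g with hv
  have ht : 0 ≤ tr11 h := by obtain ⟨-, -, -, p1, p2, -⟩ := hh; rw [tr11]; linarith
  have hg := norm_nonneg g
  have hBn := norm_nonneg B
  have n1 : 0 ≤ n11 d := by simp only [n11]; positivity
  have n2 : 0 ≤ nM d := by simp only [nM]; positivity
  have hvn : ‖v‖ ≤ 4 * A * ‖g‖ := (pi_norm_le_iff_of_nonneg (by positivity)).2 fun i => by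
    rw [Real.norm_eq_abs]; exact abs_mulVec_le (fun p q => hP q p) g i
  have hm : ∀ c, |(P * P.transpose).mulVec g c| ≤ 16 * A ^ 2 * ‖g‖ := fun c => by
    refine (abs_mulVec_le (A := 4 * A ^ 2) (fun p q => ?_) g c).trans_eq (by ring)
    simp only [Matrix.mul_apply, Matrix.transpose_apply]
    refine (Finset.abs_sum_le_sum_abs _ _).trans ?_
    calc ∑ k, |P p k * P q k| ≤ ∑ _k : Fin 4, A * A := Finset.sum_le_sum fun k _ => by
          rw [abs_mul]; exact mul_le_mul (hP p k) (hP q k) (abs_nonneg _) hA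
      _ = _ := by simp; ring
  have E1 : |∑ c, ∑ b, Q b j * (P * P.transpose).mulVec g c * B c b - iot v (pullC P B) j|
      ≤ 256 * A ^ 2 * (L * ‖g‖ * ‖B‖) := by
    rw [hv, ← iot_pull]
    simp only [← Finset.sum_sub_distrib, ← sub_mul]
    calc |∑ c, ∑ k, (Q k j - P k j) * (P * P.transpose).mulVec g c * B c k|
        ≤ ∑ _c : Fin 4, ∑ _k : Fin 4, L * (16 * A ^ 2 * ‖g‖) * ‖B‖ :=
          (Finset.abs_sum_le_sum_abs _ _).trans (Finset.sum_le_sum fun c _ =>
            (Finset.abs_sum_le_sum_abs _ _).trans (Finset.sum_le_sum fun k _ => by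
              rw [abs_mul, abs_mul]
              refine mul_le_mul (mul_le_mul ?_ (hm c) (abs_nonneg _) hL) (abs_le_norm_C2 B c k)
                (abs_nonneg _) (by positivity)
              rw [abs_sub_comm]; exact hPQ k j))
      _ = _ := by simp; ring
  have E2 := iot_c3 (Alg.anti_pullC hB P) v j
  have hnM : nM b ≤ nM d := by
    obtain ⟨-, h1, h2, -⟩ := hh
    simp only [nM, hd]
    rw [h1, h2]
    exact le_of_eq (by ring_nf)
  have E2' : |iot v b j - tr11 b * J0.mulVec v j - sgn j * c3 v b (tri1 j) (tri2 j) (tri3 j)|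
      ≤ 8 * A * (‖g‖ * nM d) := by
    refine E2.trans ((mul_le_mul (mul_le_mul_of_nonneg_left hvn two_pos.le) hnM
      (by simp only [nM]; positivity) (by positivity)).trans_eq (by ring))
  have E3 : |tr11 b * J0.mulVec v j - tr11 h * J0.mulVec (Q.transpose.mulVec g) j|
      ≤ 4 * A * (‖g‖ * n11 d) + 4 * (L * ‖g‖ * tr11 h) := by
    have e : tr11 b * J0.mulVec v j - tr11 h * J0.mulVec (Q.transpose.mulVec g) j
        = (tr11 b - tr11 h) * J0.mulVec v j
          + tr11 h * J0.mulVec ((P.transpose - Q.transpose).mulVec g) j := by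
      rw [Matrix.sub_mulVec, Matrix.mulVec_sub, Pi.sub_apply, hv]; ring
    rw [e]
    refine (abs_add_le _ _).trans (add_le_add ?_ ?_)
    · rw [abs_mul]
      refine (mul_le_mul (?_ : |tr11 b - tr11 h| ≤ n11 d)
        (((abs_le_norm_C1 _ j).trans (norm_J0_mulVec v)).trans hvn) (abs_nonneg _) n1).trans_eq
        (by ring)
      rw [show tr11 b - tr11 h = d 0 1 + d 2 3 by simp only [tr11, hd]; ring]
      refine (abs_add_le _ _).trans ?_
      rw [n11]
      linarith [abs_nonneg (d 0 2 + d 1 3), abs_nonneg (d 0 3 - d 1 2)]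
    · rw [abs_mul, abs_of_nonneg ht]
      refine (mul_le_mul_of_nonneg_left ((abs_le_norm_C1 _ j).trans ((norm_J0_mulVec _).trans
        ((pi_norm_le_iff_of_nonneg (by positivity : (0 : ℝ) ≤ 4 * L * ‖g‖)).2 fun i => ?_))) ht
        ).trans_eq (by ring)
      rw [Real.norm_eq_abs]
      exact abs_mulVec_le (fun p q => by simpa using hPQ q p) g i
  have E4 : |sgn j * c3 v b (tri1 j) (tri2 j) (tri3 j) - sgn j * ∑ a, ∑ b, ∑ c,
      Q a (tri1 j) * Q b (tri2 j) * Q c (tri3 j) * c3 g B a b c|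
      ≤ 576 * A ^ 2 * (L * ‖g‖ * ‖B‖) := by
    have hs : |sgn j| = 1 := by fin_cases j <;> simp [sgn]
    rw [← mul_sub, abs_mul, hs, one_mul, hv, hb, c3_pull]
    simp only [← Finset.sum_sub_distrib, ← sub_mul]
    have hc : ∀ a b c, |c3 g B a b c| ≤ 3 * (‖g‖ * ‖B‖) := fun a b c => by
      have h3 : ∀ p q r, |g p * B q r| ≤ ‖g‖ * ‖B‖ := fun p q r => by
        rw [abs_mul]
        exact mul_le_mul (abs_le_norm_C1 g p) (abs_le_norm_C2 B q r) (abs_nonneg _) hg
      refine (abs_add_three _ _ _).trans ?_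
      linarith [h3 a b c, h3 b c a, h3 c a b]
    calc _ ≤ ∑ _a : Fin 4, ∑ _b : Fin 4, ∑ _c : Fin 4, 3 * A ^ 2 * L * (3 * (‖g‖ * ‖B‖)) :=
          (Finset.abs_sum_le_sum_abs _ _).trans (Finset.sum_le_sum fun a _ =>
            (Finset.abs_sum_le_sum_abs _ _).trans (Finset.sum_le_sum fun b _ =>
              (Finset.abs_sum_le_sum_abs _ _).trans (Finset.sum_le_sum fun c _ => by
                rw [abs_mul]
                exact mul_le_mul (prod3_sub_le hA (hP _ _) (hP _ _) (hQ _ _) (hQ _ _) (hPQ _ _)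
                  (hPQ _ _) (hPQ _ _)) (hc a b c) (abs_nonneg _) (by positivity))))
      _ = _ := by simp; ring
  have hA1 : A ≤ 1 + A ^ 2 := by nlinarith [sq_nonneg (A - 1)]
  have hA2 : A ^ 2 ≤ 1 + A ^ 2 := by linarith
  simp only [abs_le] at E1 E2' E3 E4 ⊢
  rw [← hb] at E1
  have u1 := mul_le_mul_of_nonneg_right hA2 (by positivity : 0 ≤ L * ‖g‖ * ‖B‖)
  have u2 := mul_le_mul_of_nonneg_right hA1 (by positivity : 0 ≤ ‖g‖ * n11 d)
  have u3 := mul_le_mul_of_nonneg_right hA1 (by positivity : 0 ≤ ‖g‖ * nM d)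
  have u4 := mul_le_mul_of_nonneg_right (show (1 : ℝ) ≤ 1 + A ^ 2 by nlinarith)
    (by positivity : 0 ≤ L * ‖g‖ * tr11 h)
  constructor <;> nlinarith

end Vale.Agent.P204.Heart
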