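import Vale.Agent.P204.Heart.Flux
import Vale.Agent.P204.Heart.Stokes
import Vale.Agent.P204.Heart.Alg

/-!
P204, analytic heart: the Hardy inequality for the potential of a density.
-/

namespace Vale.Agent.P204.Heart

open MeasureTheory Vale.Agent.P204.Full Set Metric
open scoped ContDiff

/-- the pointwise inequality behind the test with `w² / U` -/
lemma hardy_point {A K w D : ℝ} {u R p q d : C1} (hA : 0 ≤ A) (hK : 0 ≤ K)
    (hp : ∀ c, |p c| ≤ A * ‖u‖) (hq : ∀ c, |q c| ≤ A * ‖u‖) (hR : ∀ c, |R c| ≤ K)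
    (hd : ∀ c, |d c| ≤ D) (hpq : ∑ c, p c * q c = sq u) :
    ∑ c, (p c + R c) * (2 * w * d c - w ^ 2 * q c) ≤
      -(w ^ 2 * sq u) / 2 + (1 + 64 * A ^ 2 + 8 * K + 16 * (K * A) ^ 2) * (w ^ 2 + D ^ 2) := by
  have e : ∑ c, (p c + R c) * (2 * w * d c - w ^ 2 * q c)
      = ∑ c, (2 * w * (p c * d c) + 2 * w * (R c * d c) - w ^ 2 * (R c * q c))
        - w ^ 2 * ∑ c, p c * q c := by
    simp only [Fin.sum_univ_four]; ring
  rw [e, hpq]
  set V := ‖u‖
  have hV : 0 ≤ V := norm_nonneg _
  have hVu : V ^ 2 ≤ sq u := norm_sq_le_sq u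
  have hw := abs_nonneg w
  have t : ∀ c, 2 * w * (p c * d c) + 2 * w * (R c * d c) - w ^ 2 * (R c * q c)
      ≤ 2 * |w| * (A * V * D) + 2 * |w| * (K * D) + w ^ 2 * (K * (A * V)) := fun c => by
    have h1 : |p c * d c| ≤ A * V * D := by
      rw [abs_mul]; exact mul_le_mul (hp c) (hd c) (abs_nonneg _) (by positivity)
    have h2 : |R c * d c| ≤ K * D := by
      rw [abs_mul]; exact mul_le_mul (hR c) (hd c) (abs_nonneg _) hK
    have h3 : |R c * q c| ≤ K * (A * V) := by
      rw [abs_mul]; exact mul_le_mul (hR c) (hq c) (abs_nonneg _) hK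
    have g1 : 2 * w * (p c * d c) ≤ 2 * |w| * (A * V * D) := by
      refine (le_abs_self _).trans ?_
      rw [abs_mul, abs_mul, abs_two]
      exact mul_le_mul_of_nonneg_left h1 (by positivity)
    have g2 : 2 * w * (R c * d c) ≤ 2 * |w| * (K * D) := by
      refine (le_abs_self _).trans ?_
      rw [abs_mul, abs_mul, abs_two]
      exact mul_le_mul_of_nonneg_left h2 (by positivity)
    have g3 := mul_le_mul_of_nonneg_left (neg_le.1 (abs_le.1 h3).1) (sq_nonneg w)
    linarith
  have hsum : ∑ c, (2 * w * (p c * d c) + 2 * w * (R c * d c) - w ^ 2 * (R c * q c))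
      ≤ 4 * (2 * |w| * (A * V * D) + 2 * |w| * (K * D) + w ^ 2 * (K * (A * V))) := by
    refine (Finset.sum_le_sum fun c _ => t c).trans_eq ?_
    simp
    ring
  have hw2 : |w| ^ 2 = w ^ 2 := sq_abs w
  have a1 : 8 * |w| * (A * V * D) ≤ w ^ 2 * V ^ 2 / 4 + 64 * A ^ 2 * D ^ 2 := by
    nlinarith [sq_nonneg (|w| * V / 2 - 8 * A * D)]
  have a2 : 8 * |w| * (K * D) ≤ 4 * K * (w ^ 2 + D ^ 2) := by
    nlinarith [mul_nonneg hK (sq_nonneg (|w| - D))]
  have a3 : 4 * w ^ 2 * (K * (A * V)) ≤ w ^ 2 * V ^ 2 / 4 + 16 * (K * A) ^ 2 * w ^ 2 := by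
    nlinarith [mul_nonneg (sq_nonneg w) (sq_nonneg (V / 2 - 4 * K * A))]
  have a4 : w ^ 2 * V ^ 2 ≤ w ^ 2 * sq u := mul_le_mul_of_nonneg_left hVu (sq_nonneg w)
  nlinarith [sq_nonneg w, sq_nonneg D, mul_nonneg (sq_nonneg A) (sq_nonneg w),
    mul_nonneg (sq_nonneg (K * A)) (sq_nonneg D), mul_nonneg hK (sq_nonneg w),
    mul_nonneg hK (sq_nonneg D)]

lemma mulVec_abs_le {M : Matrix (Fin 4) (Fin 4) ℝ} {A : ℝ} (h : ∀ i j, |M i j| ≤ A) (u : C1)
    (i : Fin 4) : |M.mulVec u i| ≤ 4 * A * ‖u‖ := by
  simp only [Matrix.mulVec, dotProduct]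
  refine (Finset.abs_sum_le_sum_abs _ _).trans ?_
  calc ∑ j, |M i j * u j| ≤ ∑ _j : Fin 4, A * ‖u‖ := Finset.sum_le_sum fun j _ => by
        rw [abs_mul]
        exact mul_le_mul (h i j) (abs_le_norm_C1 u j) (abs_nonneg _) ((abs_nonneg _).trans (h i j))
    _ = _ := by simp; ring

theorem hardyStmt_holds : HardyStmt := by
  intro F
  obtain ⟨CK, hK⟩ := exists_kerBound F
  obtain ⟨CG, hCG, hLip, hG⟩ := gk_bounds F
  obtain ⟨A0, hA01, hA⟩ := Kernel.exists_const F
  have hCK := hK.pos
  set K := 4 * CG * CG * CK with hKdef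
  set A := 4 * A0 + 16 * A0 * A0 with hAdef
  refine ⟨2 * (2 + 64 * A ^ 2 + 8 * K + 16 * (K * A) ^ 2), by positivity,
    fun σ s hσ _ hs hs0 hmoll w hw hws => ?_⟩
  set k := cut34 s with hk'
  have hk : Continuous k := continuous_cut34 hs
  have hks : HasCompactSupport k := hasCompactSupport_cut34 s
  have hk0 := cut34_nonneg hs0
  set U := upot F σ s with hU
  set Φ : Fin 4 → E4 → ℝ := fun c => kconv (gk F σ c) k with hΦ
  set φ : E4 → ℝ := fun x => w x ^ 2 / U x with hφ
  set h : E4 → ℝ := fun y => Real.log (U y) with hh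
  set du : E4 → C1 := fun x => frC F x (dd h x) with hdu
  have hUs : ContDiff ℝ ∞ U := by
    simp only [hU, funext (upot_eq F σ s)]
    exact contDiff_const.add (contDiff_kconv (contDiff_nk F hσ) hk hks)
  have hU1 : ∀ x, 1 ≤ U x := fun x => by
    have : 0 ≤ kconv (nk F σ) k x :=
      integral_nonneg fun y => mul_nonneg (hk0 y) (hK.nonneg σ hσ _ _)
    rw [hU, upot_eq]; linarith
  have hU0 : ∀ x, 0 < U x := fun x => one_pos.trans_le (hU1 x)
  have hh1 : ContDiff ℝ 1 h := (hUs.of_le (mod_cast le_top)).log fun x => (hU0 x).ne'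
  have hΦ1 : ∀ c, ContDiff ℝ 1 (Φ c) := fun c =>
    (contDiff_kconv (contDiff_gk F hσ c) hk hks).of_le (mod_cast le_top)
  have hφ1 : ContDiff ℝ 1 φ := (hw.pow 2).div (hUs.of_le (mod_cast le_top)) fun x => (hU0 x).ne'
  have hwc : HasCompactSupport w :=
    (isCompact_closedBall (0 : E4) 2).of_isClosed_subset (isClosed_tsupport _) hws
  have hφc : HasCompactSupport φ := hwc.mono fun x hx hx0 => hx (by simp [hφ, hx0])
  have hdiv : ∀ x, ∑ c, pd (Φ c) c x = -moll F σ s x := fun x => by
    simp only [hΦ, pd_kconv (contDiff_gk F hσ _) hk hks, kconv]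
    rw [← integral_finsetSum _ fun c _ =>
      integrable_kconv (contDiff_pdz (contDiff_gk F hσ c) c).continuous hk hks x, moll_eq, kconv,
      ← integral_neg]
    refine integral_congr_ae (Filter.Eventually.of_forall fun y => ?_)
    show ∑ c, k y * pdz (gk F σ c) c (y, x - y) = -(cut34 s y * kk F σ (y, x - y))
    rw [← Finset.mul_sum, div_gk F hσ, hk', kk]; ring
  have hR : ∀ x ∈ cb 4, ∀ c, |Φ c x - ∑ d, met F x c d * pd U d x| ≤ K * U x := by
    intro x hx c
    have e : ∑ d, met F x c d * pd U d x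
        = kconv (fun p => ∑ d, met F x c d * pdz (nk F σ) d p) k x := by
      have hd : ∀ d, pd U d x = kconv (pdz (nk F σ) d) k x := fun d => by
        rw [← pd_kconv (contDiff_nk F hσ) hk hks d x]
        simp only [pd, hU, funext (upot_eq F σ s), fderiv_const_add, hk']
      simp only [hd, kconv, ← integral_const_mul, Finset.mul_sum]
      rw [← integral_finsetSum _ fun d _ => (integrable_kconv
        (contDiff_pdz (contDiff_nk F hσ) d).continuous hk hks x).const_mul _]
      exact integral_congr_ae (Filter.Eventually.of_forall fun y =>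
        Finset.sum_congr rfl fun d _ => mul_left_comm _ _ _)
    have hc2 : ContDiff ℝ ∞ fun p => ∑ d, met F x c d * pdz (nk F σ) d p :=
      ContDiff.sum fun d _ => contDiff_const.mul (contDiff_pdz (contDiff_nk F hσ) d)
    have hN := integrable_kconv (contDiff_nk F hσ).continuous hk hks x
    rw [e, hΦ]
    simp only [kconv]
    rw [← integral_sub (integrable_kconv (contDiff_gk F hσ c).continuous hk hks x)
      (integrable_kconv hc2.continuous hk hks x)]
    refine (abs_integral_le_integral_abs.trans (integral_mono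
      ((integrable_kconv (contDiff_gk F hσ c).continuous hk hks x).sub
        (integrable_kconv hc2.continuous hk hks x)).abs (hN.const_mul K) fun y => ?_)).trans ?_
    · simp only [Pi.sub_apply, ← mul_sub, abs_mul, hk', abs_of_nonneg (hk0 y)]
      rw [mul_left_comm K]
      by_cases hy : y ∈ cb 4
      · refine mul_le_mul_of_nonneg_left ?_ (hk0 y)
        simp only [gk, ← Finset.sum_sub_distrib, ← sub_mul]
        set r := Real.sqrt (‖x - y‖ ^ 2 + σ ^ 2) with hr
        have hr0 : 0 < r := Real.sqrt_pos.2 (sq_add_pos hσ _)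
        have hzr : ‖x - y‖ ≤ r := Real.le_sqrt_of_sq_le (le_add_of_nonneg_right (sq_nonneg σ))
        calc |∑ d, (met F y c d - met F x c d) * pdz (nk F σ) d (y, x - y)|
            ≤ ∑ _d : Fin 4, CG * r * (CG / r ^ 3) := (Finset.abs_sum_le_sum_abs _ _).trans
              (Finset.sum_le_sum fun d _ => by
                rw [abs_mul]
                refine mul_le_mul ?_ ((hG σ hσ y hy (x - y)).1 d) (abs_nonneg _) (by positivity)
                rw [abs_sub_comm]
                exact (hLip x hx y hy c d).trans (mul_le_mul_of_nonneg_left hzr hCG.le))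
          _ = 4 * CG * CG * (1 / r ^ 2) := by simp; field_simp
          _ ≤ 4 * CG * CG * (CK * nk F σ (y, x - y)) := by
              refine mul_le_mul_of_nonneg_left ?_ (by positivity)
              rw [hr, Real.sq_sqrt (sq_add_pos hσ _).le]
              exact hK.lower σ hσ y hy _
          _ = _ := by ring
      · rw [cut34_zero s hy, zero_mul, zero_mul]
    · rw [integral_const_mul]
      refine mul_le_mul_of_nonneg_left ?_ (by positivity)
      rw [hU, upot_eq, kconv, hk']
      linarith
  have hpdh : ∀ x c, pd h c x = pd U c x / U x := fun x c => by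
    simp only [pd, hh]
    rw [((hUs.differentiable (by simp) x).hasFDerivAt.log (hU0 x).ne').fderiv]
    simp [div_eq_inv_mul]
  have hpdφ : ∀ x c, pd φ c x = (2 * w x * pd w c x - w x ^ 2 * pd h c x) / U x := fun x c => by
    have e : φ = fun y => w y ^ 2 * (U y)⁻¹ := funext fun y => div_eq_mul_inv _ _
    have hw2 := (hw.differentiable one_ne_zero x).hasFDerivAt.pow 2
    have hUi := (hasDerivAt_inv (hU0 x).ne').comp_hasFDerivAt x
      (hUs.differentiable (by simp) x).hasFDerivAt
    rw [hpdh]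
    simp only [pd, e]
    rw [show fderiv ℝ (fun y => w y ^ 2 * (U y)⁻¹) x = _ from (hw2.mul hUi).fderiv]
    simp
    field_simp [(hU0 x).ne']
    ring
  have hcont : Continuous fun x => sq (du x) := by
    simp only [hdu, sq, frC, Matrix.mulVec, dotProduct, Matrix.transpose_apply, dd]
    exact continuous_finsetSum _ fun i _ => (continuous_finsetSum _ fun j _ =>
      (F.smooth j i).continuous.mul (continuous_pd hh1 j)).pow 2
  have hsqw : Continuous fun x => sq (dd w x) :=
    continuous_finsetSum _ fun i _ => (continuous_pd hw i).pow 2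
  set C1' := 1 + 64 * A ^ 2 + 8 * K + 16 * (K * A) ^ 2 with hC1'
  have point : ∀ x, ∑ c, Φ c x * pd φ c x ≤
      -(w x ^ 2 * sq (du x)) / 2 + C1' * (w x ^ 2 + sq (dd w x)) := by
    intro x
    by_cases hx : x ∈ cb 4
    swap
    · have hxw : x ∉ tsupport w := fun h' => hx (closedBall_subset_closedBall (by norm_num)
        (hws h'))
      have h0 : w x = 0 := image_eq_zero_of_notMem_tsupport hxw
      have h1 : ∀ c, pd w c x = 0 := fun c => by
        rw [pd, fderiv_of_notMem_tsupport ℝ hxw]; rfl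
      simp [hpdφ, h0, h1, sq, dd]
    set M := (met F x).mulVec (dd h x) with hMdef
    have hMv : M = (F.P x).mulVec (du x) := by
      simp only [hMdef, hdu, met, frC, Matrix.mulVec_mulVec]
    have hq : dd h x = (pinv F x).mulVec M := by
      rw [hMdef, Matrix.mulVec_mulVec, met, Kernel.pinv_mul, Matrix.one_mulVec]
    obtain ⟨hQ, -, -, -, -, hP⟩ := hA x hx
    have hp1 : ∀ c, |M c| ≤ A * ‖du x‖ := fun c => by
      rw [hMv]
      exact (mulVec_abs_le hP _ c).trans
        (mul_le_mul_of_nonneg_right (by nlinarith) (norm_nonneg _))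
    have hq1 : ∀ c, |dd h x c| ≤ A * ‖du x‖ := fun c => by
      have hMn : ‖M‖ ≤ 4 * A0 * ‖du x‖ := (pi_norm_le_iff_of_nonneg (by positivity)).2 fun i => by
        rw [Real.norm_eq_abs, hMv]; exact mulVec_abs_le hP _ i
      rw [hq]
      refine (mulVec_abs_le hQ _ c).trans
        ((mul_le_mul_of_nonneg_left hMn (by positivity)).trans ?_)
      nlinarith [norm_nonneg (du x), mul_nonneg (norm_nonneg (du x)) (zero_le_one.trans hA01)]
    have hpq : ∑ c, M c * dd h x c = sq (du x) := by
      simp only [hMv, hdu, frC, sq, Matrix.mulVec, dotProduct, Matrix.transpose_apply,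
        Fin.sum_univ_four]
      ring
    set R : C1 := fun c => Φ c x / U x - M c with hRdef
    have hR1 : ∀ c, |R c| ≤ K := fun c => by
      have e : R c = (Φ c x - ∑ d, met F x c d * pd U d x) / U x := by
        simp only [hRdef, hMdef, Matrix.mulVec, dotProduct, dd, hpdh, sub_div, Finset.sum_div,
          mul_div_assoc]
      rw [e, abs_div, abs_of_pos (hU0 x), div_le_iff₀ (hU0 x)]
      exact hR x hx c
    have hD : ∀ c, |dd w x c| ≤ Real.sqrt (sq (dd w x)) := fun c => by
      rw [← Real.sqrt_sq_eq_abs]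
      exact Real.sqrt_le_sqrt (Finset.single_le_sum (f := fun i => dd w x i ^ 2)
        (fun i _ => sq_nonneg _) (Finset.mem_univ c))
    have hpt := hardy_point (w := w x) (d := dd w x) (by positivity : (0 : ℝ) ≤ A)
      (by positivity : (0 : ℝ) ≤ K) hp1 hq1 hR1 hD hpq
    rw [Real.sq_sqrt (sq_nonneg' _)] at hpt
    refine le_trans (le_of_eq (Finset.sum_congr rfl fun c _ => ?_)) hpt
    rw [hpdφ, hRdef]
    simp only [dd]
    ring
  have hsm : ∀ c, ∫ x, φ x * pd (Φ c) c x = -∫ x, pd φ c x * Φ c x := fun c =>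
    integral_mul_pd hφ1 (hΦ1 c) hφc c
  have i0 : Integrable fun x => φ x * moll F σ s x := by
    have : Continuous fun x => moll F σ s x := by
      simp only [moll_eq]
      exact (contDiff_kconv (G := kk F σ) (Kernel.contDiff_kker F hσ) hk hks).continuous
    exact (hφ1.continuous.mul this).integrable_of_hasCompactSupport hφc.mul_right
  have i1 : ∀ c, Integrable fun x => pd φ c x * Φ c x := fun c =>
    ((continuous_pd hφ1 c).mul (hΦ1 c).continuous).integrable_of_hasCompactSupport
      (hφc.fderiv_apply ℝ (ev4 c)).mul_right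
  have main : ∫ x, φ x * moll F σ s x = ∫ x, ∑ c, Φ c x * pd φ c x := by
    have e : ∀ x, φ x * moll F σ s x = -∑ c, φ x * pd (Φ c) c x := fun x => by
      rw [← Finset.mul_sum, hdiv]; ring
    simp only [e]
    have i5 : ∀ c, Integrable fun x => φ x * pd (Φ c) c x := fun c =>
      (hφ1.continuous.mul (continuous_pd (hΦ1 c) c)).integrable_of_hasCompactSupport hφc.mul_right
    have i6 : ∀ c, Integrable fun x => Φ c x * pd φ c x := fun c => by
      simpa [mul_comm] using i1 c
    rw [integral_neg, integral_finsetSum _ fun c _ => i5 c, integral_finsetSum _ fun c _ => i6 c,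
      ← Finset.sum_neg_distrib]
    refine Finset.sum_congr rfl fun c _ => ?_
    rw [hsm c, neg_neg]
    simp only [mul_comm]
  have i2 : Integrable fun x => w x ^ 2 * sq (du x) :=
    ((hw.continuous.pow 2).mul hcont).integrable_of_hasCompactSupport
      (hwc.mono fun x hx hx0 => hx (by simp [hx0]))
  have i3 : Integrable fun x => w x ^ 2 + sq (dd w x) := by
    refine ((hw.continuous.pow 2).add hsqw).integrable_of_hasCompactSupport ?_
    refine HasCompactSupport.intro hwc fun x hx => ?_
    have h1 : ∀ c, pd w c x = 0 := fun c => by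
      rw [pd, fderiv_of_notMem_tsupport ℝ hx]; rfl
    simp [image_eq_zero_of_notMem_tsupport hx, sq, dd, h1]
  have i4 : Integrable fun x => w x ^ 2 * s x / U x :=
    (((hw.continuous.pow 2).mul hs).div hUs.continuous
      fun x => (hU0 x).ne').integrable_of_hasCompactSupport
        (hwc.mono fun x hx hx0 => hx (by simp [hx0]))
  have hupper : ∫ x, ∑ c, Φ c x * pd φ c x ≤
      -(∫ x, w x ^ 2 * sq (du x)) / 2 + C1' * ∫ x, (w x ^ 2 + sq (dd w x)) := by
    have hi : Integrable fun x => ∑ c, Φ c x * pd φ c x :=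
      integrable_finsetSum _ fun c _ => by simpa [mul_comm] using i1 c
    have hr : Integrable fun x => -(w x ^ 2 * sq (du x)) / 2 + C1' * (w x ^ 2 + sq (dd w x)) :=
      (i2.neg.div_const 2).add (i3.const_mul C1')
    refine (integral_mono hi hr point).trans_eq ?_
    have ha : Integrable fun x => -(w x ^ 2 * sq (du x)) / 2 := i2.neg.div_const 2
    have hb : Integrable fun x => C1' * (w x ^ 2 + sq (dd w x)) := i3.const_mul C1'
    rw [integral_add ha hb, integral_div, integral_neg, integral_const_mul]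
  have hlower : (∫ x, w x ^ 2 * s x / U x) - ∫ x, (w x ^ 2 + sq (dd w x))
      ≤ ∫ x, φ x * moll F σ s x := by
    rw [← integral_sub i4 i3]
    refine integral_mono (i4.sub i3) i0 fun x => ?_
    have hφ0 : 0 ≤ φ x := div_nonneg (sq_nonneg _) (hU0 x).le
    have hφw : φ x ≤ w x ^ 2 := div_le_self (sq_nonneg _) (hU1 x)
    have hsq := sq_nonneg' (dd w x)
    show w x ^ 2 * s x / U x - (w x ^ 2 + sq (dd w x)) ≤ φ x * moll F σ s x
    by_cases hx : x ∈ tsupport w
    · have hb := (abs_le.1 (hmoll x (closedBall_subset_closedBall (by norm_num) (hws hx)))).1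
      have e : w x ^ 2 * s x / U x = φ x * s x := by rw [hφ]; ring
      rw [e]
      nlinarith [mul_le_mul_of_nonneg_left hb hφ0]
    · simp only [hφ, image_eq_zero_of_notMem_tsupport hx]
      simp
      linarith
  have i2' : 0 ≤ ∫ x, w x ^ 2 * sq (du x) :=
    integral_nonneg fun x => mul_nonneg (sq_nonneg _) (sq_nonneg' _)
  have i4' : 0 ≤ ∫ x, w x ^ 2 * s x / U x := integral_nonneg fun x => by
    show 0 ≤ w x ^ 2 * s x / U x
    by_cases hx : x ∈ tsupport w
    · exact div_nonneg (mul_nonneg (sq_nonneg _)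
        (hs0 x (closedBall_subset_closedBall (by norm_num) (hws hx)))) (hU0 x).le
    · simp [image_eq_zero_of_notMem_tsupport hx]
  show (∫ x, w x ^ 2 * sq (du x)) + (∫ x, w x ^ 2 * s x / U x) ≤ _
  rw [hC1'] at hupper
  rw [main] at hlower
  linarith

end Vale.Agent.P204.Heart
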