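import Vale.Agent.P204.Heart.Spec
import Vale.Agent.P204.Heart.Conv

/-!
P204, heart: an averaged homotopy operator on a ball and its kernel bound.
-/

namespace Vale.Agent.P204.Heart

open MeasureTheory Vale.Agent.P204.Full Set Metric
open scoped ContDiff

namespace Homotopy

/-- the profile of the averaging centres -/
noncomputable def cbump : ContDiffBump (0 : E4) where
  rIn := 1 / 2
  rOut := 1
  rIn_pos := by norm_num
  rIn_lt_rOut := by norm_num

/-- unit-mass weight of the averaging centres -/
noncomputable def wt (a : E4) : ℝ := cbump.normed volume a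

/-- parameters: a centre and a time -/
noncomputable def par : Set (E4 × ℝ) := cb 1 ×ˢ Icc (0 : ℝ) 1

/-- the point on the segment -/
def seg (x : E4) (p : E4 × ℝ) : E4 := p.1 + p.2 • (x - p.1)

/-- integrand of the homotopy -/
noncomputable def integrand (E : E4 → C2) (b : Fin 4) (x : E4) (p : E4 × ℝ) : ℝ :=
  wt p.1 * (p.2 * ∑ k, (x - p.1) k * E (seg x p) k b)

/-- the primitive -/
noncomputable def prim (E : E4 → C2) (x : E4) : C1 := fun b => ∫ p in par, integrand E b x p

lemma wt_nonneg (a : E4) : 0 ≤ wt a := cbump.nonneg_normed a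

lemma contDiff_wt : ContDiff ℝ 1 wt := cbump.contDiff_normed

lemma setIntegral_wt : ∫ a in cb 1, wt a = 1 := by
  rw [setIntegral_eq_integral_of_forall_compl_eq_zero]
  · exact cbump.integral_normed
  · intro a ha
    by_contra h
    have h1 : a ∈ Function.support (cbump.normed (volume : Measure E4)) := h
    rw [cbump.support_normed_eq] at h1
    exact ha (ball_subset_closedBall h1)

lemma isCompact_par : IsCompact par := (isCompact_closedBall _ _).prod isCompact_Icc

/-- differentiation under an integral over a compact parameter set -/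
lemma hasFDerivAt_setIntegral {Φ : E4 → E4 × ℝ → ℝ}
    (hΦ : ContDiff ℝ 1 fun q : E4 × (E4 × ℝ) => Φ q.1 q.2) {K : Set (E4 × ℝ)} (hK : IsCompact K) :
    (∀ x, HasFDerivAt (fun x => ∫ p in K, Φ x p)
      (∫ p in K, fderiv ℝ (fun x => Φ x p) x) x) ∧
    ContDiff ℝ 1 (fun x => ∫ p in K, Φ x p) ∧
    ∀ x, IntegrableOn (fun p => fderiv ℝ (fun x => Φ x p) x) K := by
  have hd : Differentiable ℝ fun q : E4 × (E4 × ℝ) => Φ q.1 q.2 := hΦ.differentiable one_ne_zero
  have hs : ∀ x p, HasFDerivAt (fun x => Φ x p)
      ((fderiv ℝ (fun q : E4 × (E4 × ℝ) => Φ q.1 q.2) (x, p)).comp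
        (ContinuousLinearMap.inl ℝ E4 (E4 × ℝ))) x := fun x p =>
    HasFDerivAt.comp (g := fun q : E4 × (E4 × ℝ) => Φ q.1 q.2) (f := fun e : E4 => (e, p)) x
      (hd (x, p)).hasFDerivAt (hasFDerivAt_prodMk_left x p)
  have hc : Continuous fun q : E4 × (E4 × ℝ) => fderiv ℝ (fun x => Φ x q.2) q.1 := by
    simp_rw [fun x p => (hs x p).fderiv]
    exact (hΦ.continuous_fderiv one_ne_zero).clm_comp continuous_const
  have : IsFiniteMeasure ((volume : Measure (E4 × ℝ)).restrict K) :=
    isFiniteMeasure_restrict.2 hK.measure_lt_top.ne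
  have hcs : ∀ x, Continuous fun p => Φ x p := fun x =>
    hΦ.continuous.comp (continuous_const.prodMk continuous_id)
  have hcd : ∀ x, Continuous fun p => fderiv ℝ (fun x => Φ x p) x := fun x =>
    hc.comp (continuous_const.prodMk continuous_id)
  have hint : ∀ x, IntegrableOn (fun p => fderiv ℝ (fun x => Φ x p) x) K := fun x =>
    (hcd x).continuousOn.integrableOn_compact hK
  have h1 : ∀ x, HasFDerivAt (fun x => ∫ p in K, Φ x p)
      (∫ p in K, fderiv ℝ (fun x => Φ x p) x) x := by
    intro x
    obtain ⟨C, hC⟩ := ((isCompact_closedBall x 1).prod hK).exists_bound_of_continuousOn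
      hc.continuousOn
    refine hasFDerivAt_integral_of_dominated_of_fderiv_le (𝕜 := ℝ)
      (μ := (volume : Measure (E4 × ℝ)).restrict K) (bound := fun _ => C)
      (closedBall_mem_nhds x one_pos)
      (Filter.Eventually.of_forall fun y => (hcs y).aestronglyMeasurable)
      ((hcs x).continuousOn.integrableOn_compact hK) (hcd x).aestronglyMeasurable
      (ae_restrict_of_forall_mem hK.measurableSet fun p hp y hy => hC (y, p) ⟨hy, hp⟩)
      (integrable_const C)
      (Filter.Eventually.of_forall fun p y _ => ((hs y p).differentiableAt).hasFDerivAt)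
  refine ⟨h1, contDiff_one_iff_fderiv.2 ⟨fun x => (h1 x).differentiableAt, ?_⟩, hint⟩
  rw [funext fun x => (h1 x).fderiv]
  exact continuous_parametric_integral_of_continuous hc hK

variable {E : E4 → C2}

lemma contDiff_integrand (hE : ∀ i j, ContDiff ℝ 1 fun x => E x i j) (b : Fin 4) :
    ContDiff ℝ 1 fun q : E4 × (E4 × ℝ) => integrand E b q.1 q.2 := by
  have hx : ContDiff ℝ 1 fun q : E4 × (E4 × ℝ) => q.1 - q.2.1 :=
    contDiff_fst.sub (contDiff_fst.comp contDiff_snd)
  have hγ : ContDiff ℝ 1 fun q : E4 × (E4 × ℝ) => seg q.1 q.2 :=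
    (contDiff_fst.comp contDiff_snd).add ((contDiff_snd.comp contDiff_snd).smul hx)
  refine (contDiff_wt.comp (contDiff_fst.comp contDiff_snd)).mul
    ((contDiff_snd.comp contDiff_snd).mul (ContDiff.sum fun k _ => ?_))
  exact ((EuclideanSpace.proj (𝕜 := ℝ) k).contDiff.comp hx).mul ((hE k b).comp hγ)

lemma pd_integrand (hE : ∀ i j, ContDiff ℝ 1 fun x => E x i j) (b c : Fin 4) (x : E4)
    (p : E4 × ℝ) :
    pd (fun x => integrand E b x p) c x = wt p.1 * (p.2 * (E (seg x p) c b
      + p.2 * ∑ k, (x - p.1) k * pd (fun z => E z k b) c (seg x p))) := by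
  have hγ : HasFDerivAt (fun x => seg x p) (p.2 • ContinuousLinearMap.id ℝ E4) x :=
    (((hasFDerivAt_id x).sub_const p.1).const_smul p.2).const_add p.1
  have hk : ∀ k, HasFDerivAt (fun x : E4 => (x - p.1) k) (EuclideanSpace.proj (𝕜 := ℝ) k) x :=
    fun k => by
      simpa [Function.comp_def] using
        (EuclideanSpace.proj (𝕜 := ℝ) k).hasFDerivAt.comp x ((hasFDerivAt_id x).sub_const p.1)
  have hterm : ∀ k, HasFDerivAt (fun x => (x - p.1) k * E (seg x p) k b)
      ((x - p.1) k • (fderiv ℝ (fun z => E z k b) (seg x p)).comp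
          (p.2 • ContinuousLinearMap.id ℝ E4)
        + E (seg x p) k b • EuclideanSpace.proj (𝕜 := ℝ) k) x := fun k =>
    (hk k).fun_mul (HasFDerivAt.comp (g := fun z => E z k b) (f := fun x => seg x p) x
      ((hE k b).differentiable one_ne_zero (seg x p)).hasFDerivAt hγ)
  have h : HasFDerivAt (fun x => integrand E b x p) _ x :=
    ((HasFDerivAt.fun_sum (u := Finset.univ) fun k _ => hterm k).const_mul p.2).const_mul (wt p.1)
  rw [pd, h.fderiv]
  simp only [smul_apply, sum_apply, add_apply, ContinuousLinearMap.comp_apply,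
    ContinuousLinearMap.id_apply, map_smul, smul_eq_mul, pd, Finset.sum_add_distrib, Finset.mul_sum]
  have he : ∑ k, E (seg x p) k b * (EuclideanSpace.proj (𝕜 := ℝ) k) (ev4 c) = E (seg x p) c b := by
    simp [ev4]
  simp only [mul_add, ← Finset.mul_sum, he]
  simp only [Finset.mul_sum]
  rw [add_comm]
  congr 1
  exact Finset.sum_congr rfl fun k _ => by ring

lemma seg_norm_lt {x : E4} (hx : x ∈ ob (5 / 2)) {p : E4 × ℝ} (hp : p ∈ par) :
    ‖seg x p‖ < 3 := by
  obtain ⟨h1, h2⟩ := hp
  rw [mem_closedBall, dist_zero_right] at h1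
  rw [mem_ball, dist_zero_right] at hx
  have h : seg x p = (1 - p.2) • p.1 + p.2 • x := by rw [seg]; module
  rw [h]
  calc ‖(1 - p.2) • p.1 + p.2 • x‖ ≤ ‖(1 - p.2) • p.1‖ + ‖p.2 • x‖ := norm_add_le _ _
    _ = (1 - p.2) * ‖p.1‖ + p.2 * ‖x‖ := by
      rw [norm_smul, norm_smul, Real.norm_eq_abs, Real.norm_eq_abs,
        abs_of_nonneg (by linarith [h2.2]), abs_of_nonneg h2.1]
    _ ≤ (1 - p.2) * (5 / 2) + p.2 * (5 / 2) := by
      apply add_le_add
      · exact mul_le_mul_of_nonneg_left (by linarith) (by linarith [h2.2])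
      · exact mul_le_mul_of_nonneg_left hx.le h2.1
    _ < 3 := by linarith

lemma d1_prim (hE : ∀ i j, ContDiff ℝ 1 fun x => E x i j) (hA : ∀ x, Anti (E x))
    (hcl : ∀ x ∈ ob 3, ∀ a b c, d2 E x a b c = 0) {x : E4} (hx : x ∈ ob (5 / 2)) :
    d1 (prim E) x = E x := by
  funext c b
  have hpd : ∀ b c, pd (fun y => prim E y b) c x
      = ∫ p in par, pd (fun y => integrand E b y p) c x := fun b c => by
    obtain ⟨h1, -, h3⟩ := hasFDerivAt_setIntegral (contDiff_integrand hE b) isCompact_par
    rw [pd, show (fun y => prim E y b) = fun y => ∫ p in par, integrand E b y p from rfl,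
      (h1 x).fderiv, ContinuousLinearMap.integral_apply (h3 x)]
    rfl
  have hint : ∀ b c, IntegrableOn (fun p => pd (fun y => integrand E b y p) c x) par :=
    fun b c => by
      obtain ⟨-, -, h3⟩ := hasFDerivAt_setIntegral (contDiff_integrand hE b) isCompact_par
      exact (h3 x).apply_continuousLinearMap (ev4 c)
  rw [d1, hpd, hpd, ← integral_sub (hint b c) (hint c b)]
  set D : E4 → ℝ → ℝ := fun a s => 2 * s * E (a + s • (x - a)) c b
    + s ^ 2 * fderiv ℝ (fun z => E z c b) (a + s • (x - a)) (x - a) with hD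
  have hpt : ∀ p ∈ par, pd (fun y => integrand E b y p) c x - pd (fun y => integrand E c y p) b x
      = wt p.1 * D p.1 p.2 := by
    intro p hp
    have hz := hcl (seg x p) (by simpa [mem_ball, dist_zero_right] using seg_norm_lt hx hp)
    have hanti : ∀ i j, pd (fun z => E z j i) = fun k y => -pd (fun z => E z i j) k y := by
      intro i j
      funext k y
      rw [show (fun z => E z j i) = fun z => -E z i j from funext fun z => hA z i j, pd, pd]
      simp
    have hc' : ∀ k, pd (fun z => E z k b) c (seg x p) - pd (fun z => E z k c) b (seg x p)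
        = pd (fun z => E z c b) k (seg x p) := fun k => by
      have h := hz c k b
      simp only [d2] at h
      rw [hanti c b, hanti k c] at h
      simp only at h
      linarith
    rw [pd_integrand hE, pd_integrand hE]
    simp only [hD]
    rw [show p.1 + p.2 • (x - p.1) = seg x p from rfl,
      Op.fderiv_apply_eq_sum (fun z => E z c b) (seg x p) (x - p.1), hA (seg x p) c b]
    simp only [smul_eq_mul, ← hc', mul_sub, Finset.sum_sub_distrib]
    ring
  rw [setIntegral_congr_fun isCompact_par.measurableSet hpt]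
  have hDc : Continuous fun p : E4 × ℝ => wt p.1 * D p.1 p.2 := by
    have hγ : Continuous fun p : E4 × ℝ => p.1 + p.2 • (x - p.1) := by fun_prop
    refine (contDiff_wt.continuous.comp continuous_fst).mul (Continuous.add ?_ ?_)
    · exact ((continuous_const.mul continuous_snd).mul ((hE c b).continuous.comp hγ))
    · exact (continuous_snd.pow 2).mul ((((hE c b).continuous_fderiv one_ne_zero).comp hγ).clm_apply
        (continuous_const.sub continuous_fst))
  rw [par, Measure.volume_eq_prod, setIntegral_prod _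
    (hDc.continuousOn.integrableOn_compact isCompact_par)]
  have hin : ∀ a, ∫ s in Icc (0 : ℝ) 1, wt a * D a s = wt a * E x c b := by
    intro a
    rw [integral_const_mul, integral_Icc_eq_integral_Ioc, ← intervalIntegral.integral_of_le
      zero_le_one]
    have hγ : ∀ s, HasDerivAt (fun s : ℝ => a + s • (x - a)) (x - a) s := fun s => by
      simpa using ((hasDerivAt_id s).smul_const (x - a)).const_add a
    have hg : ∀ s, HasDerivAt (fun s : ℝ => s ^ 2 * E (a + s • (x - a)) c b) (D a s) s := fun s => by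
      refine (((hasDerivAt_pow 2 s).fun_mul
        (((hE c b).differentiable one_ne_zero _).hasFDerivAt.comp_hasDerivAt s (hγ s)))).congr_deriv ?_
      simp [hD]
    have hcD : Continuous (D a) := by
      have h1 : Continuous fun s : ℝ => a + s • (x - a) := by fun_prop
      refine Continuous.add ?_ ?_
      · exact (continuous_const.mul continuous_id).mul ((hE c b).continuous.comp h1)
      · exact (continuous_id.pow 2).mul ((((hE c b).continuous_fderiv one_ne_zero).comp h1).clm_apply
          continuous_const)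
    rw [intervalIntegral.integral_eq_sub_of_hasDerivAt (fun s _ => hg s)
      (hcD.intervalIntegrable 0 1)]
    simp
  simp only [hin]
  rw [integral_mul_const, setIntegral_wt, one_mul]

/-- kernel of the estimate before integration in time -/
noncomputable def shell (E : E4 → C2) (x : E4) (s : ℝ) (y : E4) : ℝ :=
  if ‖x - y‖ ≤ 4 * (1 - s) then ‖x - y‖ * ‖E y‖ / (1 - s) ^ 5 else 0

lemma continuous_norm_E (hE : ∀ i j, ContDiff ℝ 1 fun x => E x i j) :
    Continuous fun y => ‖E y‖ :=
  (continuous_pi fun i => continuous_pi fun j => (hE i j).continuous).norm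

lemma slice_le (hE : Continuous fun y => ‖E y‖) {x : E4} (hx : x ∈ ob (5 / 2)) {s : ℝ}
    (h0 : 0 ≤ s) (h1 : s < 1) :
    ∫ a in cb 1, ‖x - a‖ * ‖E (a + s • (x - a))‖ ≤ ∫ y in cb 3, shell E x s y := by
  set q := 1 - s with hq
  have hq0 : 0 < q := by rw [hq]; linarith
  set G : E4 → ℝ := fun y =>
    (cb 3 ∩ {y | ‖x - y‖ ≤ 4 * q}).indicator (fun y => ‖x - y‖ * ‖E y‖ / q) y with hG
  have hms : MeasurableSet (cb 3 ∩ {y : E4 | ‖x - y‖ ≤ 4 * q}) :=
    measurableSet_closedBall.inter (isClosed_le (by fun_prop) continuous_const).measurableSet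
  have hfc : Continuous fun y => ‖x - y‖ * ‖E y‖ / q :=
    ((by fun_prop : Continuous fun y : E4 => ‖x - y‖).mul hE).div_const q
  have hGi : Integrable G := by
    rw [hG, integrable_indicator_iff hms]
    exact (hfc.continuousOn.integrableOn_compact (isCompact_closedBall _ _)).mono_set
      inter_subset_left
  have hGn : ∀ y, 0 ≤ G y := fun y => indicator_nonneg (fun y _ => by positivity) y
  have hcomp : ∫ a, G (q • a + s • x) = (q ^ 4)⁻¹ * ∫ y, G y := by
    rw [Measure.integral_comp_smul (volume : Measure E4) (fun z => G (z + s • x)) q,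
      integral_add_right_eq_self G (s • x), finrank_E4, smul_eq_mul, abs_of_nonneg (by positivity)]
  have hGc : Integrable fun a => G (q • a + s • x) :=
    (hGi.comp_add_right (s • x)).comp_smul hq0.ne'
  have hmain : ∫ a in cb 1, ‖x - a‖ * ‖E (a + s • (x - a))‖ ≤ ∫ a, G (q • a + s • x) := by
    rw [← integral_indicator measurableSet_closedBall]
    refine integral_mono_of_nonneg
      (Filter.Eventually.of_forall fun a => indicator_nonneg (fun _ _ => by positivity) a) hGc
      (Filter.Eventually.of_forall fun a => ?_)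
    by_cases ha : a ∈ cb 1
    swap
    · rw [indicator_of_notMem ha]; exact hGn _
    rw [indicator_of_mem ha]
    rw [mem_closedBall, dist_zero_right] at ha
    rw [mem_ball, dist_zero_right] at hx
    have hy : q • a + s • x = a + s • (x - a) := by rw [hq]; module
    have hxy : ‖x - (q • a + s • x)‖ = q * ‖x - a‖ := by
      rw [show x - (q • a + s • x) = q • (x - a) by rw [hq]; module, norm_smul, Real.norm_eq_abs,
        abs_of_pos hq0]
    have hxa : ‖x - a‖ ≤ 7 / 2 := (norm_sub_le _ _).trans (by linarith)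
    have hin : q • a + s • x ∈ cb 3 ∩ {y | ‖x - y‖ ≤ 4 * q} := by
      refine ⟨?_, ?_⟩
      · rw [mem_closedBall, dist_zero_right]
        calc ‖q • a + s • x‖ ≤ ‖q • a‖ + ‖s • x‖ := norm_add_le _ _
          _ = q * ‖a‖ + s * ‖x‖ := by
            rw [norm_smul, norm_smul, Real.norm_eq_abs, Real.norm_eq_abs, abs_of_pos hq0,
              abs_of_nonneg h0]
          _ ≤ q * 3 + s * 3 :=
            add_le_add (mul_le_mul_of_nonneg_left (by linarith) hq0.le)
              (mul_le_mul_of_nonneg_left (by linarith) h0)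
          _ = 3 := by rw [hq]; ring
      · rw [mem_ofPred_eq, hxy]; nlinarith
    simp only [hG, indicator_of_mem hin, hxy]
    rw [hy, mul_comm q ‖x - a‖, mul_assoc, mul_comm q, ← mul_assoc, mul_div_assoc, div_self hq0.ne',
      mul_one]
  refine hmain.trans (le_of_eq ?_)
  rw [hcomp, ← integral_const_mul, ← integral_indicator measurableSet_closedBall]
  refine integral_congr_ae (Filter.Eventually.of_forall fun y => ?_)
  simp only [hG]
  by_cases h3 : y ∈ cb 3
  · rw [indicator_of_mem h3]
    by_cases h4 : ‖x - y‖ ≤ 4 * q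
    · have hm : y ∈ cb 3 ∩ {y | ‖x - y‖ ≤ 4 * q} := ⟨h3, h4⟩
      rw [indicator_of_mem hm, shell, if_pos h4, ← hq]
      field_simp
    · rw [indicator_of_notMem (fun h => h4 h.2), shell, if_neg h4, mul_zero]
  · rw [indicator_of_notMem h3, indicator_of_notMem (fun h => h3 h.1), mul_zero]

lemma time_le (x y : E4) {T : ℝ} (hT : T < 1) :
    ∫ s in Icc (0 : ℝ) T, shell E x s y ≤ 64 * (‖E y‖ / ‖x - y‖ ^ 3) := by
  by_cases hr : ‖x - y‖ = 0
  · simp [shell, hr]
  have hr0 : 0 < ‖x - y‖ := lt_of_le_of_ne (norm_nonneg _) (Ne.symm hr)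
  set r := ‖x - y‖ with hrdef
  set u := min T (1 - r / 4) with hu
  have hset : (fun s => shell E x s y)
      = (Iic (1 - r / 4)).indicator fun s => r * ‖E y‖ / (1 - s) ^ 5 := by
    funext s
    simp only [shell, indicator_apply, mem_Iic, ← hrdef]
    exact if_congr (by constructor <;> intro h <;> linarith) rfl rfl
  rw [hset, setIntegral_indicator measurableSet_Iic,
    show Icc (0 : ℝ) T ∩ Iic (1 - r / 4) = Icc 0 u by ext; simp [hu, and_assoc]]
  rcases lt_or_ge u 0 with hu0 | hu0
  · rw [Icc_eq_empty_of_lt hu0]; simp; positivity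
  have hu1 : ∀ s ∈ Icc (0 : ℝ) u, (1 : ℝ) - s ≠ 0 := fun s hs => by
    have h := hs.2
    have h2 : u ≤ T := min_le_left _ _
    intro h3; linarith
  have hd : ∀ s ∈ Icc (0 : ℝ) u, HasDerivAt (fun s : ℝ => r * ‖E y‖ / (4 * (1 - s) ^ 4))
      (r * ‖E y‖ / (1 - s) ^ 5) s := fun s hs => by
    have h := (hasDerivAt_const s (r * ‖E y‖)).fun_div
      ((((hasDerivAt_id s).const_sub 1).fun_pow 4).const_mul 4)
      (mul_ne_zero four_ne_zero (pow_ne_zero 4 (hu1 s hs)))
    refine h.congr_deriv ?_
    have := hu1 s hs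
    simp only [id_eq]
    field_simp
    ring
  rw [integral_Icc_eq_integral_Ioc, ← intervalIntegral.integral_of_le hu0,
    intervalIntegral.integral_eq_sub_of_hasDerivAt (fun s hs => hd s (by rwa [uIcc_of_le hu0] at hs))
      ((continuousOn_const.div ((continuous_const.sub continuous_id).pow 5).continuousOn
        fun s hs => pow_ne_zero 5 (hu1 s hs)).intervalIntegrable_of_Icc hu0)]
  have hue : r / 4 ≤ 1 - u := by
    have : u ≤ 1 - r / 4 := min_le_right _ _
    linarith
  have hu4 : 0 < 1 - u := by linarith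
  calc r * ‖E y‖ / (4 * (1 - u) ^ 4) - r * ‖E y‖ / (4 * (1 - 0) ^ 4)
      ≤ r * ‖E y‖ / (4 * (1 - u) ^ 4) := sub_le_self _ (by positivity)
    _ ≤ r * ‖E y‖ / (4 * (r / 4) ^ 4) := by gcongr
    _ = _ := by field_simp; ring

lemma integrableOn_ratio (hE : Continuous fun y => ‖E y‖) (x : E4) :
    IntegrableOn (fun y => ‖E y‖ / ‖x - y‖ ^ 3) (cb 3) := by
  obtain ⟨M, hM⟩ := (isCompact_closedBall (0 : E4) 3).exists_bound_of_continuousOn hE.continuousOn
  have hM' : ∀ y ∈ cb 3, ‖E y‖ ≤ M := fun y hy => by simpa using hM y hy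
  have h := (integrableOn_inv_norm_pow 3 le_rfl (‖x‖ + 4))
  have h2 : IntegrableOn (fun y => (‖x - y‖ ^ 3)⁻¹) (cb 3) := by
    have h' : Integrable ((ball (0 : E4) (‖x‖ + 4)).indicator fun z => (‖z‖ ^ 3)⁻¹) :=
      (integrable_indicator_iff measurableSet_ball).2 h
    refine ((h'.comp_sub_left x).integrableOn (s := cb 3)).congr_fun (fun y hy => ?_)
      measurableSet_closedBall
    rw [mem_closedBall, dist_zero_right] at hy
    refine indicator_of_mem ?_ _
    rw [mem_ball, dist_zero_right]
    linarith [norm_sub_le x y]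
  refine (h2.const_mul M).mono'
    ((hE.measurable.div (Measurable.pow_const (by fun_prop) 3)).aestronglyMeasurable) (ae_restrict_of_forall_mem measurableSet_closedBall
    fun y hy => ?_)
  rw [Real.norm_eq_abs, abs_of_nonneg (by positivity), div_eq_mul_inv]
  exact mul_le_mul_of_nonneg_right (hM' y hy) (by positivity)

lemma double_le (hE : Continuous fun y => ‖E y‖) {x : E4} (hx : x ∈ ob (5 / 2)) :
    ∫ s in Icc (0 : ℝ) 1, (∫ a in cb 1, ‖x - a‖ * ‖E (a + s • (x - a))‖)
      ≤ 64 * ∫ y in cb 3, ‖E y‖ / ‖x - y‖ ^ 3 := by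
  set J : ℝ → ℝ := fun s => ∫ a in cb 1, ‖x - a‖ * ‖E (a + s • (x - a))‖ with hJ
  have hJc : Continuous J := by
    refine continuous_parametric_integral_of_continuous (μ := (volume : Measure E4))
      (f := fun s a => ‖x - a‖ * ‖E (a + s • (x - a))‖) ?_ (isCompact_closedBall _ _)
    exact (by fun_prop : Continuous fun p : ℝ × E4 => ‖x - p.2‖).mul
      (hE.comp (by fun_prop : Continuous fun p : ℝ × E4 => p.2 + p.1 • (x - p.2)))
  set R := ∫ y in cb 3, ‖E y‖ / ‖x - y‖ ^ 3
  have hstep : ∀ T, 0 ≤ T → T < 1 → ∫ s in Icc (0 : ℝ) T, J s ≤ 64 * R := by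
    intro T hT0 hT1
    have hms : Measurable fun p : ℝ × E4 => shell E x p.1 p.2 := by
      unfold shell
      exact Measurable.ite (measurableSet_le (by fun_prop) (by fun_prop))
        ((((continuous_const.sub continuous_snd).norm).mul (hE.comp continuous_snd)).measurable.div
          (by fun_prop)) measurable_const
    obtain ⟨M, hM⟩ := ((isCompact_Icc (a := (0 : ℝ)) (b := T)).prod
      (isCompact_closedBall (0 : E4) 3)).exists_bound_of_continuousOn
      (f := fun p : ℝ × E4 => ‖x - p.2‖ * ‖E p.2‖ / (1 - p.1) ^ 5)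
      ((((continuous_const.sub continuous_snd).norm.mul (hE.comp continuous_snd))).continuousOn.div
        ((continuous_const.sub continuous_fst).pow 5).continuousOn
        fun p hp => pow_ne_zero 5 (by
          have := hp.1.2; intro h; simp only [Pi.sub_apply] at h; linarith))
    have hint : IntegrableOn (fun p : ℝ × E4 => shell E x p.1 p.2) (Icc 0 T ×ˢ cb 3)
        (volume.prod volume) := by
      refine Measure.integrableOn_of_bounded (M := max M 0) ?_ hms.aestronglyMeasurable
        (ae_restrict_of_forall_mem (measurableSet_Icc.prod measurableSet_closedBall) fun p hp => ?_)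
      · rw [Measure.prod_prod]
        exact ENNReal.mul_ne_top measure_Icc_lt_top.ne measure_closedBall_lt_top.ne
      · have h := hM p hp
        simp only [shell]
        split_ifs
        · exact le_max_of_le_left h
        · simp
    rw [IntegrableOn, ← Measure.prod_restrict] at hint
    calc ∫ s in Icc (0 : ℝ) T, J s ≤ ∫ s in Icc (0 : ℝ) T, ∫ y in cb 3, shell E x s y :=
          setIntegral_mono_on hJc.integrableOn_Icc hint.integral_prod_left measurableSet_Icc
            fun s hs => slice_le hE hx hs.1 (hs.2.trans_lt hT1)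
      _ = ∫ y in cb 3, ∫ s in Icc (0 : ℝ) T, shell E x s y := integral_integral_swap hint
      _ ≤ ∫ y in cb 3, 64 * (‖E y‖ / ‖x - y‖ ^ 3) :=
          integral_mono hint.integral_prod_right ((integrableOn_ratio hE x).const_mul 64)
            fun y => time_le x y hT1
      _ = _ := integral_const_mul _ _
  have hcont : Continuous fun T => ∫ s in (0 : ℝ)..T, J s :=
    intervalIntegral.continuous_primitive (fun a b => hJc.intervalIntegrable a b) 0
  rw [integral_Icc_eq_integral_Ioc, ← intervalIntegral.integral_of_le zero_le_one]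
  refine le_of_tendsto (x := nhdsWithin (1 : ℝ) (Iio 1))
    (hcont.continuousAt.mono_left nhdsWithin_le_nhds) ?_
  filter_upwards [Ioo_mem_nhdsLT zero_lt_one] with T hT
  rw [intervalIntegral.integral_of_le hT.1.le, ← integral_Icc_eq_integral_Ioc]
  exact hstep T hT.1.le hT.2

end Homotopy

open Vale.Agent.P204.Heart.Homotopy in
/-- proof of the frozen statement `HomotopyStmt` -/
theorem homotopyStmt_holds : HomotopyStmt := by
  obtain ⟨M, hM⟩ := cbump.hasCompactSupport_normed (μ := (volume : Measure E4))
    |>.exists_bound_of_continuous cbump.continuous_normed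
  have hM0 : 0 ≤ M := (norm_nonneg _).trans (hM 0)
  refine ⟨4 * M * 64 + 1, by positivity, fun E hE hA hcl => ⟨prim E, fun i => ?_, fun x hx =>
    d1_prim hE hA hcl hx, fun x hx => ?_⟩⟩
  · exact (hasFDerivAt_setIntegral (contDiff_integrand hE i) isCompact_par).2.1.contDiffOn
  have hn := continuous_norm_E hE
  set R := ∫ y in cb 3, ‖E y‖ / ‖x - y‖ ^ 3 with hR
  have hR0 : 0 ≤ R := setIntegral_nonneg measurableSet_closedBall fun y _ => by positivity
  refine (pi_norm_le_iff_of_nonneg (by positivity)).2 fun b => ?_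
  set g : E4 × ℝ → ℝ := fun p => ‖x - p.1‖ * ‖E (p.1 + p.2 • (x - p.1))‖ with hg
  have hgc : Continuous g := (by fun_prop : Continuous fun p : E4 × ℝ => ‖x - p.1‖).mul
    (hn.comp (by fun_prop : Continuous fun p : E4 × ℝ => p.1 + p.2 • (x - p.1)))
  have hgi : IntegrableOn g par := hgc.continuousOn.integrableOn_compact isCompact_par
  have h1 : ‖prim E x b‖ ≤ ∫ p in par, 4 * M * g p := by
    refine norm_integral_le_of_norm_le (hgi.const_mul _)
      (ae_restrict_of_forall_mem isCompact_par.measurableSet fun p hp => ?_)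
    have hw : |wt p.1| ≤ M := by rw [← Real.norm_eq_abs]; exact hM p.1
    have hs : |p.2| ≤ 1 := by rw [abs_of_nonneg hp.2.1]; exact hp.2.2
    have hsum : |∑ k, (x - p.1) k * E (seg x p) k b| ≤ 4 * g p := by
      refine (Finset.abs_sum_le_sum_abs _ _).trans ?_
      calc ∑ k, |(x - p.1) k * E (seg x p) k b| ≤ ∑ _k : Fin 4, g p := by
            refine Finset.sum_le_sum fun k _ => ?_
            rw [abs_mul, hg]
            refine mul_le_mul ?_ ?_ (abs_nonneg _) (norm_nonneg _)
            · simpa [Real.norm_eq_abs] using PiLp.norm_apply_le (x - p.1) k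
            · rw [← Real.norm_eq_abs]
              exact (norm_le_pi_norm _ b).trans (norm_le_pi_norm (E (seg x p)) k)
        _ = _ := by simp
    rw [Real.norm_eq_abs, integrand, abs_mul, abs_mul]
    calc |wt p.1| * (|p.2| * |∑ k, (x - p.1) k * E (seg x p) k b|) ≤ M * (1 * (4 * g p)) :=
          mul_le_mul hw (mul_le_mul hs hsum (abs_nonneg _) zero_le_one) (by positivity) hM0
      _ = _ := by ring
  have h2 : ∫ p in par, g p ≤ 64 * R := by
    have hgi' : Integrable g (((volume : Measure E4).restrict (cb 1)).prod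
        ((volume : Measure ℝ).restrict (Icc 0 1))) := by
      rw [Measure.prod_restrict]; exact hgi
    rw [par, Measure.volume_eq_prod, ← Measure.prod_restrict, integral_prod _ hgi',
      integral_integral_swap (f := fun a s => g (a, s)) hgi']
    exact double_le hn hx
  rw [integral_const_mul] at h1
  nlinarith [mul_nonneg (mul_nonneg (by norm_num : (0 : ℝ) ≤ 4) hM0) hR0,
    mul_le_mul_of_nonneg_left h2 (mul_nonneg (by norm_num : (0 : ℝ) ≤ 4) hM0)]

end Vale.Agent.P204.Heart
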