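import Vale.Agent.P204.Heart.ParError

/-!
P204, analytic heart: the parametrix against the gradient of the potential, in the frame.
-/

namespace Vale.Agent.P204.Heart

open MeasureTheory Vale.Agent.P204.Full Set Metric
open scoped ContDiff

variable {F : Frame} {σ : ℝ} {C0 : ℝ}

/-- gradient of the frozen kernel seen from `x` -/
noncomputable def gv (F : Frame) (σ : ℝ) (x y : E4) : C1 := fun d => pdz (nk F σ) d (y, x - y)

/-- integrand of the parametrix minus `J dU`, frame at `x` -/
noncomputable def phiInt (F : Frame) (σ : ℝ) (D : Data F C0) (x : E4) (j : Fin 4) (y : E4) : ℝ :=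
  (∑ c, ∑ b, F.P x b j * (F.P y * (F.P y).transpose).mulVec (gv F σ x y) c * D.B y c b)
    - D.t y * J0.mulVec ((F.P x).transpose.mulVec (gv F σ x y)) j

/-- the part which integrates to something small -/
noncomputable def psiInt (F : Frame) (σ : ℝ) (D : Data F C0) (x : E4) (j : Fin 4) (y : E4) : ℝ :=
  sgn j * ∑ a, ∑ b, ∑ c, F.P x a (tri1 j) * F.P x b (tri2 j) * F.P x c (tri3 j) *
    c3 (gv F σ x y) (D.B y) a b c

lemma continuous_gv (hσ : 0 < σ) (x : E4) : Continuous (gv F σ x) :=
  continuous_pi fun d =>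
    (contDiff_pdz (contDiff_nk F hσ) d).continuous.comp (continuous_kernel_arg x)

lemma continuous_t (D : Data F C0) : Continuous D.t := by
  unfold Data.t tr11 pullC
  exact (continuous_finsetSum _ fun c _ => continuous_finsetSum _ fun d _ =>
    (((F.smooth c 0).continuous.mul (F.smooth d 1).continuous).mul (D.H_cont c d))).add
    (continuous_finsetSum _ fun c _ => continuous_finsetSum _ fun d _ =>
      (((F.smooth c 2).continuous.mul (F.smooth d 3).continuous).mul (D.H_cont c d)))

lemma integrable_bump_mul {φ : E4 → ℝ} (hφ : Continuous φ) :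
    Integrable fun y => bump34 y * φ y :=
  (bump34.continuous.mul hφ).integrable_of_hasCompactSupport bump34.hasCompactSupport.mul_right

lemma integral_bump_sum {φ : Fin 4 → E4 → ℝ} (h : ∀ i, Continuous (φ i)) :
    ∫ y, bump34 y * ∑ i, φ i y = ∑ i, ∫ y, bump34 y * φ i y := by
  simp only [Finset.mul_sum]
  exact integral_finsetSum _ fun i _ => integrable_bump_mul (h i)

lemma J0_frame (Q : Matrix (Fin 4) (Fin 4) ℝ) (u : C1) (j : Fin 4) :
    J0.mulVec (Q.transpose.mulVec u) j = ∑ d, (J0 * Q.transpose) j d * u d := by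
  rw [Matrix.mulVec_mulVec]; rfl

lemma continuous_phiInt (D : Data F C0) (hσ : 0 < σ) (x : E4) (j : Fin 4) :
    Continuous (phiInt F σ D x j) := by
  unfold phiInt
  simp only [J0_frame]
  exact (continuous_finsetSum _ fun c _ => continuous_finsetSum _ fun b _ =>
    (continuous_const.mul ((contDiff_gk F hσ c).continuous.comp (continuous_kernel_arg x))).mul
      (D.B_smooth c b).continuous).sub
    ((continuous_t D).mul (continuous_finsetSum _ fun d _ =>
      continuous_const.mul ((continuous_apply d).comp (continuous_gv hσ x))))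

lemma continuous_c3 (D : Data F C0) (hσ : 0 < σ) (x : E4) (a b c : Fin 4) :
    Continuous fun y => c3 (gv F σ x y) (D.B y) a b c :=
  ((((continuous_apply a).comp (continuous_gv hσ x)).mul (D.B_smooth b c).continuous).add
    (((continuous_apply b).comp (continuous_gv hσ x)).mul (D.B_smooth c a).continuous)).add
    (((continuous_apply c).comp (continuous_gv hσ x)).mul (D.B_smooth a b).continuous)

lemma continuous_psiInt (D : Data F C0) (hσ : 0 < σ) (x : E4) (j : Fin 4) :
    Continuous (psiInt F σ D x j) :=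
  continuous_const.mul (continuous_finsetSum _ fun a _ => continuous_finsetSum _ fun b _ =>
    continuous_finsetSum _ fun c _ => continuous_const.mul (continuous_c3 D hσ x a b c))

/-- the parametrix plus `J dU` as one integral -/
lemma par_eq (D : Data F C0) (hσ : 0 < σ) (x : E4) (j : Fin 4) :
    frC F x (par F σ D.B x) j + J0.mulVec (frC F x (dd (upot F σ D.t) x)) j
      = -∫ y, bump34 y * phiInt F σ D x j y := by
  set Q := F.P x with hQdef
  have hB := D.B_smooth
  have htc := continuous_t D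
  have hgc := continuous_gv (F := F) hσ x
  have hgkc : ∀ c, Continuous fun y => gk F σ c (y, x - y) := fun c =>
    (contDiff_gk F hσ c).continuous.comp (continuous_kernel_arg x)
  have hgk : ∀ c y, gk F σ c (y, x - y)
      = (F.P y * (F.P y).transpose).mulVec (gv F σ x y) c := fun c y => rfl
  have hdU : ∀ d, dd (upot F σ D.t) x d = ∫ y, bump34 y * (D.t y * gv F σ x y d) := fun d => by
    show pd (upot F σ D.t) d x = _
    have h := pd_kconv (contDiff_nk F hσ) (continuous_cut34 htc) (hasCompactSupport_cut34 D.t) d x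
    simp only [pd, funext (upot_eq F σ D.t), fderiv_const_add] at h ⊢
    rw [h]
    exact integral_congr_ae (Filter.Eventually.of_forall fun y => mul_assoc _ _ _)
  have hcb : ∀ c b, Continuous fun y => Q b j * gk F σ c (y, x - y) * D.B y c b := fun c b =>
    (continuous_const.mul (hgkc c)).mul (hB c b).continuous
  have e1 : frC F x (par F σ D.B x) j
      = -∫ y, bump34 y * ∑ c, ∑ b, Q b j * gk F σ c (y, x - y) * D.B y c b := by
    rw [integral_bump_sum fun c => continuous_finsetSum _ fun b _ => hcb c b,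
      Finset.sum_congr rfl fun c _ => integral_bump_sum (hcb c), Finset.sum_comm]
    simp only [frC, Matrix.mulVec, dotProduct, Matrix.transpose_apply, par, kconv, mul_neg,
      Finset.sum_neg_distrib, Finset.mul_sum, ← integral_const_mul]
    refine congrArg Neg.neg (Finset.sum_congr rfl fun b _ => Finset.sum_congr rfl fun c _ =>
      integral_congr_ae (Filter.Eventually.of_forall fun y => ?_))
    simp only [cutB, cut34, hQdef]; ring
  have e2 : J0.mulVec (frC F x (dd (upot F σ D.t) x)) j
      = ∫ y, bump34 y * (D.t y * J0.mulVec (Q.transpose.mulVec (gv F σ x y)) j) := by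
    simp only [frC, ← hQdef, J0_frame, hdU, ← integral_const_mul]
    simp only [Finset.mul_sum]
    rw [integral_finsetSum]
    · exact Finset.sum_congr rfl fun d _ =>
        integral_congr_ae (Filter.Eventually.of_forall fun y => by ring)
    exact fun d _ => integrable_bump_mul
      (htc.mul (continuous_const.mul ((continuous_apply d).comp hgc)))
  have j1 : Integrable fun y =>
      bump34 y * ∑ c, ∑ b, Q b j * gk F σ c (y, x - y) * D.B y c b :=
    integrable_bump_mul (continuous_finsetSum _ fun c _ => continuous_finsetSum _ fun b _ =>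
      (continuous_const.mul (hgkc c)).mul (hB c b).continuous)
  have j2 : Integrable fun y =>
      bump34 y * (D.t y * J0.mulVec (Q.transpose.mulVec (gv F σ x y)) j) := by
    simp only [J0_frame]
    exact integrable_bump_mul (htc.mul (continuous_finsetSum _ fun d _ =>
      continuous_const.mul ((continuous_apply d).comp hgc)))
  rw [e1, e2, neg_add_eq_sub, ← neg_sub, ← integral_sub j1 j2]
  refine congrArg Neg.neg (integral_congr_ae (Filter.Eventually.of_forall fun y => ?_))
  simp only [phiInt, hgk, ← hQdef]; ring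

/-- the part `psiInt` integrates to a potential of order two -/
lemma psi_le (D : Data F C0) {A CG CK K0 : ℝ} (hσ : 0 < σ) {x : E4} (hA : 0 ≤ A) (hCK : 0 < CK)
    (hP : ∀ i j, |F.P x i j| ≤ A)
    (hG : ∀ y ∈ cb 4, ∀ z : E4, ∀ k, |pdy (nk F σ) k (y, z)| ≤ CG / (‖z‖ ^ 2 + σ ^ 2))
    (hN : ∀ y ∈ cb 4, ∀ z : E4, |nk F σ (y, z)| ≤ CK / (‖z‖ ^ 2 + σ ^ 2))
    (hK0' : ∀ y i, |pd (fun z => bump34 z) i y| ≤ K0) (j : Fin 4) :
    |∫ y, bump34 y * psiInt F σ D x j y|
      ≤ 64 * A ^ 3 * (3 * CG + CK * (3 * K0)) * potB 4 σ (fun y => ‖D.B y‖) x := by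
  set Q := F.P x with hQdef
  set SB : E4 → ℝ := fun y => ‖D.B y‖ with hSB
  set pB := potB 4 σ SB x with hpB
  have hB := D.B_smooth
  have hSBc : Continuous SB :=
    (continuous_pi fun i => continuous_pi fun j => (hB i j).continuous).norm
  have hw := contDiff_cutB hB
  have hws : ∀ p q, HasCompactSupport (cutB D.B p q) := fun p q => hasCompactSupport_cut34 _
  have hNs := contDiff_nk F hσ
  set T : Fin 4 → Fin 4 → Fin 4 → ℝ := fun a b c =>
    kconv (pdz (nk F σ) a) (cutB D.B b c) x + kconv (pdz (nk F σ) b) (cutB D.B c a) x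
      + kconv (pdz (nk F σ) c) (cutB D.B a b) x with hT
  have hT1 : ∀ a b c, |T a b c| ≤ (3 * CG + CK * (3 * K0)) * pB := by
    intro a b c
    have u : ∀ i p q, |kconv (pdy (nk F σ) i) (cutB D.B p q) x| ≤ CG * pB := fun i p q =>
      abs_kconv_le_potB (contDiff_pdy hNs i).continuous (hw p q).continuous (hws p q) hSBc hσ
        (fun y hy => cutB_zero p q hy) (fun y _ => abs_cutB_le p q y)
        fun y hy => hG y hy (x - y) i
    have v : |kconv (nk F σ)
        (fun y => pd (cutB D.B b c) a y + pd (cutB D.B c a) b y + pd (cutB D.B a b) c y) x|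
        ≤ CK * (3 * K0 * pB) := by
      rw [hpB, ← potB_const_mul]
      obtain ⟨hc, hz, hcs⟩ := cutB_cyclic hB a b c
      exact abs_kconv_le_potB hNs.continuous hc hcs (continuous_const.mul hSBc) hσ hz
        (fun y _ => d2_cutB_le hK0' hB D.B_closed a b c y) fun y hy => hN y hy (x - y)
    have hi : ∀ p q i, Integrable fun y => pd (cutB D.B p q) i y * nk F σ (y, x - y) := fun p q i =>
      integrable_kconv hNs.continuous (continuous_pd (hw p q) i) ((hws p q).fderiv_apply ℝ (ev4 i))
        x
    have i12 : Integrable fun y => pd (cutB D.B b c) a y * nk F σ (y, x - y)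
        + pd (cutB D.B c a) b y * nk F σ (y, x - y) := (hi b c a).add (hi c a b)
    have e : kconv (nk F σ) (pd (cutB D.B b c) a) x + kconv (nk F σ) (pd (cutB D.B c a) b) x
        + kconv (nk F σ) (pd (cutB D.B a b) c) x = kconv (nk F σ)
        (fun y => pd (cutB D.B b c) a y + pd (cutB D.B c a) b y + pd (cutB D.B a b) c y) x := by
      simp only [kconv, add_mul]
      rw [integral_add i12 (hi a b c), integral_add (hi b c a) (hi c a b)]
    simp only [hT, kconv_pdz hNs (hw _ _) (hws _ _)]
    rw [← e] at v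
    have := u a b c; have := u b c a; have := u c a b
    simp only [abs_le] at *
    constructor <;> nlinarith
  have hΨint : ∫ y, bump34 y * psiInt F σ D x j y = sgn j * ∑ a, ∑ b, ∑ c,
      Q a (tri1 j) * Q b (tri2 j) * Q c (tri3 j) * T a b c := by
    simp only [psiInt, ← hQdef, mul_left_comm (bump34 _) (sgn j), integral_const_mul]
    congr 1
    have k1 : ∀ a b c, Continuous fun y =>
        Q a (tri1 j) * Q b (tri2 j) * Q c (tri3 j) * c3 (gv F σ x y) (D.B y) a b c := fun a b c =>
      continuous_const.mul (continuous_c3 D hσ x a b c)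
    rw [integral_bump_sum fun a => continuous_finsetSum _ fun b _ =>
      continuous_finsetSum _ fun c _ => k1 a b c]
    refine Finset.sum_congr rfl fun a _ => ?_
    rw [integral_bump_sum fun b => continuous_finsetSum _ fun c _ => k1 a b c]
    refine Finset.sum_congr rfl fun b _ => ?_
    rw [integral_bump_sum (k1 a b)]
    refine Finset.sum_congr rfl fun c _ => ?_
    have hq : ∀ i p q, Integrable fun y => cutB D.B p q y * pdz (nk F σ) i (y, x - y) :=
      fun i p q => integrable_kconv (contDiff_pdz (hNs) i).continuous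
        (hw p q).continuous (hws p q) x
    have q12 : Integrable fun y => cutB D.B b c y * pdz (nk F σ) a (y, x - y)
        + cutB D.B c a y * pdz (nk F σ) b (y, x - y) := (hq a b c).add (hq b c a)
    simp only [hT, kconv]
    rw [← integral_add (hq a b c) (hq b c a), ← integral_add q12 (hq c a b),
      ← integral_const_mul]
    refine integral_congr_ae (Filter.Eventually.of_forall fun y => ?_)
    simp only [c3, cutB, cut34, gv]; ring
  have hΨb : |∫ y, bump34 y * psiInt F σ D x j y| ≤ 64 * A ^ 3 * (3 * CG + CK * (3 * K0)) * pB := by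
    rw [hΨint, abs_mul, show |sgn j| = 1 by fin_cases j <;> simp [sgn], one_mul]
    calc _ ≤ ∑ _a : Fin 4, ∑ _b : Fin 4, ∑ _c : Fin 4,
          A * A * A * ((3 * CG + CK * (3 * K0)) * pB) :=
          (Finset.abs_sum_le_sum_abs _ _).trans (Finset.sum_le_sum fun a _ =>
            (Finset.abs_sum_le_sum_abs _ _).trans (Finset.sum_le_sum fun b _ =>
              (Finset.abs_sum_le_sum_abs _ _).trans (Finset.sum_le_sum fun c _ => by
                rw [abs_mul, abs_mul, abs_mul]
                exact mul_le_mul (mul_le_mul (mul_le_mul (hP _ _) (hP _ _)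
                  (abs_nonneg _) hA) (hP _ _) (abs_nonneg _) (by positivity))
                  (hT1 a b c) (abs_nonneg _) (by positivity))))
      _ = _ := by simp; ring
  exact hΨb

/-- the rest is dominated pointwise -/
lemma phi_sub_psi_le (D : Data F C0) {A L CG : ℝ} (hσ : 0 < σ) (hL : 0 ≤ L) (hCG : 0 < CG)
    {x : E4} (hx4 : x ∈ cb 4) (hPb : ∀ y ∈ cb 4, ∀ i j, |F.P y i j| ≤ A)
    (hPl : ∀ x ∈ cb 4, ∀ y ∈ cb 4, ∀ i j, |F.P y i j - F.P x i j| ≤ L * ‖x - y‖)
    (hG : ∀ y ∈ cb 4, ∀ z : E4, ∀ d, |pdz (nk F σ) d (y, z)| ≤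
      CG / Real.sqrt (‖z‖ ^ 2 + σ ^ 2) ^ 3)
    (j : Fin 4) :
    |(∫ y, bump34 y * phiInt F σ D x j y) - ∫ y, bump34 y * psiInt F σ D x j y|
      ≤ 4000 * (1 + A ^ 2) * CG * (L + 1) *
        (potB 4 σ (fun y => ‖D.B y‖) x + potB 4 σ D.τ x + 2 * sing3 4 σ D.f x
          + 2 * (D.e * sing3 4 σ D.τ x)) := by
  set SB : E4 → ℝ := fun y => ‖D.B y‖ with hSB
  have hSBc : Continuous SB :=
    (continuous_pi fun i => continuous_pi fun j => (D.B_smooth i j).continuous).norm
  have hSB0 : ∀ y, 0 ≤ SB y := fun y => norm_nonneg _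
  have ht0 : ∀ y ∈ cb 4, 0 ≤ D.t y := fun y hy => by
    obtain ⟨-, -, -, p1, p2, -⟩ := D.H_pos y hy
    simp only [Data.t, tr11]
    linarith
  set r := fun y => Real.sqrt (‖x - y‖ ^ 2 + σ ^ 2) with hr
  set M : E4 → ℝ := fun y => SB y / (‖x - y‖ ^ 2 + σ ^ 2) + D.τ y / (‖x - y‖ ^ 2 + σ ^ 2)
    + 2 * (D.f y / r y ^ 3) + 2 * (D.e * (D.τ y / r y ^ 3)) with hM
  have hMc : Continuous M :=
    (((continuous_ref hSBc hσ x).add (continuous_ref D.τ_cont hσ x)).add
      (continuous_const.mul (continuous_ref3 D.f_cont hσ x))).add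
      (continuous_const.mul (continuous_const.mul (continuous_ref3 D.τ_cont hσ x)))
  have hi : ∀ {g : E4 → ℝ}, Continuous g → IntegrableOn g (cb 4) := fun hgc =>
    hgc.continuousOn.integrableOn_compact (isCompact_closedBall _ _)
  have hMint : ∫ y in cb 4, M y = potB 4 σ SB x + potB 4 σ D.τ x + 2 * sing3 4 σ D.f x
      + 2 * (D.e * sing3 4 σ D.τ x) := by
    have c1 := continuous_ref hSBc hσ x
    have c2 := continuous_ref D.τ_cont hσ x
    have c3' := continuous_ref3 D.f_cont hσ x
    have c4 := continuous_ref3 D.τ_cont hσ x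
    have j1 : IntegrableOn (fun y => SB y / (‖x - y‖ ^ 2 + σ ^ 2)) (cb 4) := hi c1
    have j2 : IntegrableOn (fun y => D.τ y / (‖x - y‖ ^ 2 + σ ^ 2)) (cb 4) := hi c2
    have j3 : IntegrableOn (fun y => 2 * (D.f y / r y ^ 3)) (cb 4) := hi (continuous_const.mul c3')
    have j4 : IntegrableOn (fun y => 2 * (D.e * (D.τ y / r y ^ 3))) (cb 4) :=
      hi (continuous_const.mul (continuous_const.mul c4))
    have j12 : IntegrableOn (fun y => SB y / (‖x - y‖ ^ 2 + σ ^ 2)
        + D.τ y / (‖x - y‖ ^ 2 + σ ^ 2)) (cb 4) := j1.add j2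
    have j123 : IntegrableOn (fun y => SB y / (‖x - y‖ ^ 2 + σ ^ 2)
        + D.τ y / (‖x - y‖ ^ 2 + σ ^ 2) + 2 * (D.f y / r y ^ 3)) (cb 4) := j12.add j3
    simp only [hM]
    rw [integral_add j123 j4, integral_add j12 j3, integral_add j1 j2, integral_const_mul,
      integral_const_mul, integral_const_mul]
    rfl
  rw [← hMint]
  rw [← integral_sub (integrable_bump_mul (continuous_phiInt D hσ x j))
    (integrable_bump_mul (continuous_psiInt D hσ x j))]
  simp only [← mul_sub]
  rw [← setIntegral_eq_integral_of_forall_compl_eq_zero (s := cb 4) fun y hy => by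
    rw [bump34.zero_of_le_dist (by simp at hy; simp [bump34]; exact hy.le), zero_mul],
    ← integral_const_mul]
  refine abs_integral_le_integral_abs.trans (setIntegral_mono_on
    (integrable_bump_mul
      ((continuous_phiInt D hσ x j).sub (continuous_psiInt D hσ x j))).abs.integrableOn
    ((continuous_const.mul hMc).continuousOn.integrableOn_compact (isCompact_closedBall _ _))
    measurableSet_closedBall fun y hy => ?_)
  rw [abs_mul, abs_of_nonneg bump34.nonneg]
  refine (mul_le_of_le_one_left (abs_nonneg _) bump34.le_one).trans ?_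
  have hfp := frame_point (P := F.P y) (Q := F.P x) (A := A) (L := L * ‖x - y‖)
    (fun i k => hPb y hy i k) (fun i k => hPb x hx4 i k) (fun i k => hPl x hx4 y hy i k)
    (gv F σ x y) (D.B_anti y) (D.H_pos y hy) j
  refine hfp.trans ?_
  have hr0 : 0 < r y := Real.sqrt_pos.2 (sq_add_pos hσ _)
  have hr2 : r y ^ 2 = ‖x - y‖ ^ 2 + σ ^ 2 := Real.sq_sqrt (sq_add_pos hσ _).le
  have hzr : ‖x - y‖ ≤ r y := Real.le_sqrt_of_sq_le (le_add_of_nonneg_right (sq_nonneg σ))
  have hgn : ‖gv F σ x y‖ ≤ CG / r y ^ 3 :=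
    (pi_norm_le_iff_of_nonneg (div_nonneg hCG.le (by positivity))).2 fun d => by
      rw [Real.norm_eq_abs]; exact hG y hy (x - y) d
  have hLz : L * ‖x - y‖ * ‖gv F σ x y‖ ≤ L * CG * (1 / (‖x - y‖ ^ 2 + σ ^ 2)) := by
    refine (mul_le_mul (mul_le_mul_of_nonneg_left hzr hL) hgn (norm_nonneg _)
      (by positivity)).trans (le_of_eq ?_)
    rw [← hr2]; field_simp
  have hsum2 : n11 (fun p q => pullC (F.P y) (D.B y) p q - pullC (F.P y) (D.H y) p q)
      + nM (fun p q => pullC (F.P y) (D.B y) p q - pullC (F.P y) (D.H y) p q)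
      ≤ 2 * D.f y + 2 * (D.e * D.τ y) := by
    have h4 := D.inv_le y hy
    have h5 := D.anti_le y hy
    have : D.e ^ 2 * D.τ y ≤ D.e * D.τ y := mul_le_mul_of_nonneg_right
      (pow_le_of_le_one D.e_pos.le D.e_le two_ne_zero) (D.τ_nonneg y)
    linarith [D.f11_le y]
  have q1 := mul_le_mul_of_nonneg_right hLz (hSB0 y)
  have q2 := (mul_le_mul_of_nonneg_right hLz (ht0 y hy)).trans
    (mul_le_mul_of_nonneg_left (D.trace_le y hy) (by positivity))
  have q3 := mul_le_mul hgn hsum2 (by simp only [n11, nM]; positivity)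
    (div_nonneg hCG.le (by positivity))
  have hτ0 := D.τ_nonneg y
  have hf0 := D.f_nonneg y
  have he0 := D.e_pos.le
  have hsb0 := hSB0 y
  simp only [hM]
  refine (mul_le_mul_of_nonneg_left (add_le_add (add_le_add q1 q2) q3) (by positivity)).trans ?_
  rw [show 4000 * (1 + A ^ 2) * CG * (L + 1) = (4000 * (1 + A ^ 2)) * (CG * (L + 1)) by ring,
    mul_assoc (4000 * (1 + A ^ 2))]
  refine mul_le_mul_of_nonneg_left ?_ (by positivity)
  have w1 : 0 ≤ CG * (SB y / (‖x - y‖ ^ 2 + σ ^ 2)) := by positivity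
  have w2 : 0 ≤ CG * (D.τ y / (‖x - y‖ ^ 2 + σ ^ 2)) := by positivity
  have w3 : 0 ≤ L * CG * (2 * (D.f y / r y ^ 3) + 2 * (D.e * (D.τ y / r y ^ 3))) := by
    positivity
  have e1 : L * CG * (1 / (‖x - y‖ ^ 2 + σ ^ 2)) * SB y
      = L * CG * (SB y / (‖x - y‖ ^ 2 + σ ^ 2)) := by ring
  have e2 : L * CG * (1 / (‖x - y‖ ^ 2 + σ ^ 2)) * D.τ y
      = L * CG * (D.τ y / (‖x - y‖ ^ 2 + σ ^ 2)) := by ring
  have e3 : CG / r y ^ 3 * (2 * D.f y + 2 * (D.e * D.τ y))
      = CG * (2 * (D.f y / r y ^ 3) + 2 * (D.e * (D.τ y / r y ^ 3))) := by ring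
  rw [e1, e2, e3]
  linarith

end Vale.Agent.P204.Heart
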