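import Vale.Agent.P204.Heart.ParCorrect
import Vale.Agent.P204.Heart.ParFrame

/-!
P204, analytic heart: the parametrix, a primitive of `B` equal to `-J dU` up to `C (U + W)`.
-/

namespace Vale.Agent.P204.Heart

open MeasureTheory Vale.Agent.P204.Full Set Metric
open scoped ContDiff

/-- pointwise domination of the form by the density and the square-integrable part -/
lemma norm_B_le {F : Frame} {C0 A : ℝ} (D : Data F C0) {y : E4} (hy : y ∈ cb 4)
    (hA : ∀ i j, |(F.P y)⁻¹ i j| ≤ A) : ‖D.B y‖ ≤ 16 * A ^ 2 * (7 * D.τ y + 2 * D.f y) := by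
  set H := pullC (F.P y) (D.H y) with hH
  set b := pullC (F.P y) (D.B y) with hb
  have hsp := D.H_pos y hy
  have hd : Anti (fun p q => b p q - H p q) := fun p q => by
    have := Alg.anti_pullC (D.B_anti y) (F.P y) p q
    have := hsp.1 p q
    simp only [hb, hH] at *
    linarith
  have h1 := norm_le_parts hd
  have h2 := (norm_semipos_le hsp).1
  have h3 := D.trace_le y hy
  have h4 := D.inv_le y hy
  have h5 := D.anti_le y hy
  have e1 : D.B y = pullC (F.P y)⁻¹ b := by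
    rw [hb, ← Alg.pullC_mul, Kernel.mul_inv, Alg.pullC_one]
  have h6 : ‖b‖ ≤ ‖fun p q => b p q - H p q‖ + ‖H‖ := by
    refine le_trans (le_of_eq ?_) (norm_add_le (fun p q => b p q - H p q) H)
    congr 1; funext p q; simp
  have hb4 : n11 (fun p q => b p q - H p q) ≤ D.f11 y + D.e ^ 2 * D.τ y := h4
  have hb5 : nM (fun p q => b p q - H p q) ≤ D.f y + D.e * D.τ y := h5
  have he2 : D.e ^ 2 * D.τ y ≤ D.τ y :=
    mul_le_of_le_one_left (D.τ_nonneg y) (pow_le_one₀ D.e_pos.le D.e_le)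
  have he1 : D.e * D.τ y ≤ D.τ y := mul_le_of_le_one_left (D.τ_nonneg y) D.e_le
  rw [e1]
  refine (norm_pullC_le' _ hA _).trans (mul_le_mul_of_nonneg_left ?_ (by positivity))
  linarith [D.f11_le y]

/-- the potential of `|B|` is dominated by the data -/
lemma potB_B_le {F : Frame} {C0 A σ : ℝ} (D : Data F C0) (hσ : 0 < σ) (hσ1' : σ ≤ 1) {x : E4}
    (hx4 : x ∈ cb 4) (hPb : ∀ y ∈ cb 4, ∀ i j, |(F.P y)⁻¹ i j| ≤ A) :
    potB 4 σ (fun y => ‖D.B y‖) x
      ≤ 16 * A ^ 2 * (7 + 2 * 9) * (potB 4 σ D.τ x + sing3 4 σ D.f x) := by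
  set SB : E4 → ℝ := fun y => ‖D.B y‖ with hSB
  have hSBc : Continuous SB :=
    (continuous_pi fun i => continuous_pi fun j => (D.B_smooth i j).continuous).norm
  set pB := potB 4 σ SB x with hpB
  set pτ := potB 4 σ D.τ x with hpτ
  set s3f := sing3 4 σ D.f x with hs3f
  have hs3f0 : 0 ≤ s3f :=
    setIntegral_nonneg measurableSet_closedBall fun y _ => div_nonneg (D.f_nonneg y) (by positivity)
  have hpτ0 : 0 ≤ pτ := potB_nonneg hσ (fun y _ => D.τ_nonneg y) x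
  have h0 : ∀ y ∈ cb 4, D.f y / (‖x - y‖ ^ 2 + σ ^ 2)
      ≤ 9 * (D.f y / Real.sqrt (‖x - y‖ ^ 2 + σ ^ 2) ^ 3) := fun y hy => by
    have hpos := sq_add_pos hσ (x - y)
    have hrp := Real.sqrt_pos.2 hpos
    have hn : ‖x - y‖ ≤ 8 := by
      simp only [Metric.mem_closedBall, dist_zero_right] at hy hx4
      linarith [norm_sub_le x y]
    have hr9 : Real.sqrt (‖x - y‖ ^ 2 + σ ^ 2) ≤ 9 := by
      rw [Real.sqrt_le_iff]
      exact ⟨by norm_num, by nlinarith [norm_nonneg (x - y)]⟩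
    conv_lhs => rw [← Real.sq_sqrt hpos.le]
    rw [show D.f y / Real.sqrt (‖x - y‖ ^ 2 + σ ^ 2) ^ 2 = Real.sqrt (‖x - y‖ ^ 2 + σ ^ 2) *
      (D.f y / Real.sqrt (‖x - y‖ ^ 2 + σ ^ 2) ^ 3) by field_simp]
    exact mul_le_mul_of_nonneg_right hr9 (div_nonneg (D.f_nonneg y) (by positivity))
  have hi : ∀ {g : E4 → ℝ}, Continuous g → IntegrableOn g (cb 4) := fun hgc =>
    hgc.continuousOn.integrableOn_compact (isCompact_closedBall _ _)
  have h7 : pB ≤ ∫ y in cb 4, (16 * A ^ 2 * 7 * (D.τ y / (‖x - y‖ ^ 2 + σ ^ 2))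
      + 16 * A ^ 2 * 18 * (D.f y / Real.sqrt (‖x - y‖ ^ 2 + σ ^ 2) ^ 3)) := by
    refine setIntegral_mono_on (hi (continuous_ref hSBc hσ x))
      (hi ((continuous_const.mul (continuous_ref D.τ_cont hσ x)).add
        (continuous_const.mul (continuous_ref3 D.f_cont hσ x)))) measurableSet_closedBall
      fun y hy => ?_
    refine (div_le_div_of_nonneg_right (norm_B_le D hy fun i j => hPb y hy i j)
      (sq_add_pos hσ _).le).trans ?_
    have := mul_le_mul_of_nonneg_left (h0 y hy) (by positivity : 0 ≤ 16 * A ^ 2 * 2)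
    rw [mul_add, add_div, mul_div_assoc, mul_div_assoc, mul_div_assoc, mul_div_assoc]
    linarith
  have j1 : IntegrableOn (fun y => 16 * A ^ 2 * 7 * (D.τ y / (‖x - y‖ ^ 2 + σ ^ 2))) (cb 4) :=
    hi (continuous_const.mul (continuous_ref D.τ_cont hσ x))
  have j2 : IntegrableOn
      (fun y => 16 * A ^ 2 * 18 * (D.f y / Real.sqrt (‖x - y‖ ^ 2 + σ ^ 2) ^ 3)) (cb 4) :=
    hi (continuous_const.mul (continuous_ref3 D.f_cont hσ x))
  rw [integral_add j1 j2, integral_const_mul, integral_const_mul] at h7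
  change pB ≤ 16 * A ^ 2 * 7 * pτ + 16 * A ^ 2 * 18 * s3f at h7
  nlinarith [sq_nonneg A, mul_nonneg (sq_nonneg A) hpτ0, mul_nonneg (sq_nonneg A) hs3f0]

/-- bookkeeping of the constants -/
lemma final_bound {D1 D2 D3 CB CS P0 CW pB pτ s U W c a b : ℝ} (h1 : 0 ≤ D1) (h2 : 0 ≤ D2)
    (h3 : 0 ≤ D3) (hCS : 0 ≤ CS) (hCB : 0 ≤ CB) (hc : 0 ≤ c) (hP : 0 ≤ P0) (hCW : 0 ≤ CW)
    (hτ0 : 0 ≤ pτ) (hs0 : 0 ≤ s) (hB : pB ≤ CB * (pτ + s)) (hτ : pτ ≤ P0 * U) (hs : s ≤ CW * W)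
    (hU : 1 ≤ U) (hW : 0 ≤ W)
    (ha : a ≤ D2 * (pB + pτ + 2 * s + 2 * CS * (pτ + c)) + D3 * pB) (hb : b ≤ D1 * (1 + pB)) :
    a + b ≤ (1 + (D2 * (CB + 3 + 2 * CS) + (D3 + D1) * CB) * (P0 + CW) + 2 * (D2 * CS) * c + D1)
      * (U + W) := by
  set CT := D2 * (CB + 3 + 2 * CS) + (D3 + D1) * CB with hCT
  have hT0 : 0 ≤ CT := by positivity
  have hX : pτ + s ≤ (P0 + CW) * (U + W) := by
    have t1 := mul_nonneg hP hW
    have t2 := mul_nonneg hCW (zero_le_one.trans hU)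
    linarith
  have k1 : D2 * (pB + pτ + 2 * s + 2 * CS * (pτ + c)) + D3 * pB + D1 * (1 + pB)
      ≤ CT * (pτ + s) + 2 * (D2 * CS) * c + D1 := by
    have t1 := mul_le_mul_of_nonneg_left hB (add_nonneg (add_nonneg h2 h3) h1)
    have t2 := mul_nonneg h2 hτ0
    have t3 := mul_nonneg h2 hs0
    have t4 := mul_nonneg (mul_nonneg h2 hCS) hs0
    rw [hCT]
    nlinarith
  have k2 := mul_le_mul_of_nonneg_left hX hT0
  have k3 : 2 * (D2 * CS) * c + D1 ≤ (2 * (D2 * CS) * c + D1) * (U + W) :=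
    le_mul_of_one_le_right (by positivity) (by linarith)
  linarith

theorem parametrix_of (hAp : ApproxStmt) (hW : WeightStmt) (hHom : HomotopyStmt)
    (hCom : ComposeStmt) : ParametrixStmt := by
  intro F C0
  obtain ⟨CH, hCH, hHom⟩ := hHom
  obtain ⟨CC, hCC, hCom⟩ := hCom
  obtain ⟨CW, hCW, hW⟩ := hW
  obtain ⟨CS, hCS, hSp⟩ := splitStmt_holds
  obtain ⟨CP, hCP, hPot⟩ := potentialStmt_holds F
  obtain ⟨CG, hCG, -, hG⟩ := gk_bounds F
  obtain ⟨CK, hK⟩ := exists_kerBound F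
  obtain ⟨A, L, hA, hL, hPb, hPl⟩ := frame_lip F
  obtain ⟨K0, hK0⟩ := bump34.hasCompactSupport.fderiv (𝕜 := ℝ) |>.exists_bound_of_continuous
    ((bump34.contDiff (n := 1)).continuous_fderiv one_ne_zero)
  have hK0' : ∀ y i, |pd (fun z => bump34 z) i y| ≤ K0 := fun y i => by
    rw [pd, ← Real.norm_eq_abs]
    exact ((fderiv ℝ _ y).le_opNorm _).trans
      (by simpa [ev4] using hK0 y)
  have hK00 : 0 ≤ K0 := (abs_nonneg _).trans (hK0' 0 0)
  have hpc := powConst_nonneg 3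
  set P0 := |C0| * (1 + CP) with hP0
  set C1b := 4 * CG * (3 * K0 + 3) with hC1b
  set D1 := 4 * A * (CH * ((8 * powConst 3 + 1) * (1 + C1b * CC))) with hD1
  set D2 := 4000 * (1 + A ^ 2) * CG * (L + 1) with hD2
  set D3 := 64 * A ^ 3 * (3 * CG + CK * (3 * K0)) with hD3
  set CB := 16 * A ^ 2 * (7 + 2 * 9) with hCB
  set CT := D2 * (CB + 3 + 2 * CS) + (D3 + D1) * CB with hCT
  refine ⟨1 + CT * (P0 + CW) + 2 * (D2 * CS) * |C0| + D1, ?_, fun D => ?_⟩
  · have : 0 < CK := hK.pos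
    positivity
  have hap : ∀ p : Fin 4 × Fin 4, ∃ σ0 > (0 : ℝ), ∀ σ, 0 < σ → σ < σ0 →
      ∀ x ∈ cb 3, |moll F σ (fun y => D.B y p.1 p.2) x - D.B x p.1 p.2| ≤ 1 := fun p =>
    hAp F _ (D.B_smooth p.1 p.2).continuous 1 one_pos
  choose σ1 hσ1 hap using hap
  refine ⟨min D.e (Finset.univ.inf' Finset.univ_nonempty σ1),
    lt_min D.e_pos ((Finset.lt_inf'_iff _).2 fun p _ => hσ1 p), fun σ hσ hσlt => ?_⟩
  obtain ⟨hσe, hσs⟩ := lt_min_iff.1 hσlt
  have hσ1' : σ ≤ 1 := hσe.le.trans D.e_le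
  have hσp : ∀ p, σ < σ1 p := fun p => (Finset.lt_inf'_iff _).1 hσs p (Finset.mem_univ p)
  have hB := D.B_smooth
  obtain ⟨A1, hA1s, hA1d, hA1b⟩ := exists_exact (F := F) (B := D.B) hCH hCC hσ hσ1' hCG hHom hCom
    (fun y hy z => ⟨(hG σ hσ y hy z).2.1, (hG σ hσ y hy z).2.2.1⟩) hK0' hB D.B_anti D.B_closed
    (fun u hu a b => hap (a, b) σ hσ (hσp (a, b)) u hu)
  refine ⟨fun x i => par F σ D.B x i + A1 x i, hA1s, hA1d, fun x hx => ?_⟩
  have hx52 : x ∈ cb (5 / 2) := ball_subset_closedBall hx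
  have hx3 : x ∈ cb 3 := closedBall_subset_closedBall (by norm_num) hx52
  have hx4 : x ∈ cb 4 := closedBall_subset_closedBall (by norm_num) hx52
  have htc : Continuous D.t := continuous_t D
  have ht0 : ∀ y ∈ cb 4, 0 ≤ D.t y := fun y hy => by
    obtain ⟨-, -, -, p1, p2, -⟩ := D.H_pos y hy
    simp only [Data.t, tr11]
    linarith
  obtain ⟨hUs, hU1, -, hUlow, -, -⟩ := hPot σ D.t hσ hσ1' htc ht0
  obtain ⟨-, hW0, hW3, -, -⟩ := hW σ D.f hσ hσ1' D.f_cont D.f_supp D.f_nonneg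
  set U := upot F σ D.t x with hU
  set W := pot3 σ 32 D.f x with hWd
  have hUx : 1 ≤ U := hU1 x
  have hWx : 0 ≤ W := hW0 x
  set pB := potB 4 σ (fun y => ‖D.B y‖) x with hpB
  set pτ := potB 4 σ D.τ x with hpτ
  set s3f := sing3 4 σ D.f x with hs3f
  have hpτU : pτ ≤ P0 * U := by
    have h1 := D.pot_τ σ hσ hσe.le x hx52
    have h2 : 0 ≤ potB 3 σ D.t x := potB_nonneg hσ
      (fun y hy => ht0 y (closedBall_subset_closedBall (by norm_num) hy)) x
    have h3 := hUlow x hx3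
    have h4 : C0 * (1 + potB 3 σ D.t x) ≤ |C0| * (CP * U) :=
      mul_le_mul (le_abs_self C0) h3 (by positivity) (abs_nonneg _)
    refine (h1.trans h4).trans ?_
    rw [hP0]
    nlinarith [mul_nonneg (abs_nonneg C0) (zero_le_one.trans hUx)]
  have hs3W : s3f ≤ CW * W := hW3 x hx4
  have hs3f0 : 0 ≤ s3f :=
    setIntegral_nonneg measurableSet_closedBall fun y _ => div_nonneg (D.f_nonneg y) (by positivity)
  have hpτ0 : 0 ≤ pτ := potB_nonneg hσ (fun y _ => D.τ_nonneg y) x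
  have hpB0 : 0 ≤ pB := potB_nonneg hσ (fun y _ => norm_nonneg _) x
  have hpBle : pB ≤ CB * (pτ + s3f) := potB_B_le D hσ hσ1' hx4 fun y hy i j => (hPb y hy i j).2
  have hA1x : ∀ j, |frC F x (A1 x) j| ≤ D1 * (1 + pB) := fun j => by
    refine (abs_mulVec_le (fun p q => (hPb x hx4 q p).1) (A1 x) j).trans ?_
    refine (mul_le_mul_of_nonneg_left (hA1b x hx) (by positivity)).trans (le_of_eq ?_)
    rw [hD1, hC1b]; ring
  have hsp : D.e * sing3 4 σ D.τ x ≤ CS * (pτ + |C0|) :=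
    (hSp σ D.e C0 D.τ hσ hσe.le D.e_le D.τ_cont (fun y _ => D.τ_nonneg y) D.sup_τ x hx3).trans
      (mul_le_mul_of_nonneg_left (add_le_add le_rfl (le_abs_self C0)) hCS.le)
  have hmain : ∀ j, |frC F x (par F σ D.B x) j + J0.mulVec (frC F x (dd (upot F σ D.t) x)) j|
      ≤ D2 * (pB + pτ + 2 * s3f + 2 * CS * (pτ + |C0|)) + D3 * pB := fun j => by
    rw [par_eq D hσ x j, abs_neg]
    have h1 := phi_sub_psi_le D hσ hL hCG hx4 (fun y hy i k => (hPb y hy i k).1) hPl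
      (fun y hy z d => (hG σ hσ y hy z).1 d) j
    have h2 := psi_le D hσ hA hK.pos (fun i k => (hPb x hx4 i k).1)
      (fun y hy z k => (hG σ hσ y hy z).2.2.2 k)
      (fun y hy z => (abs_of_nonneg (hK.nonneg σ hσ y z)).trans_le (hK.upper σ hσ y hy z)) hK0' j
    have h3 : D2 * (pB + pτ + 2 * s3f + 2 * (D.e * sing3 4 σ D.τ x))
        ≤ D2 * (pB + pτ + 2 * s3f + 2 * CS * (pτ + |C0|)) :=
      mul_le_mul_of_nonneg_left (by linarith) (by positivity)
    have h4 := (abs_sub_abs_le_abs_sub _ _).trans h1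
    linarith
  have hKp := hK.pos
  refine (pi_norm_le_iff_of_nonneg (by positivity)).2 fun j => ?_
  rw [Real.norm_eq_abs, Pi.add_apply]
  have hsplit : frC F x (fun i => par F σ D.B x i + A1 x i) j
      = frC F x (par F σ D.B x) j + frC F x (A1 x) j := by
    simp only [frC, Matrix.mulVec, dotProduct, mul_add, Finset.sum_add_distrib]
  rw [hsplit]
  have hC30 : 0 ≤ D3 := by
    have := hK.pos
    positivity
  have h6 := final_bound (by positivity : 0 ≤ D1) (by positivity : 0 ≤ D2) hC30 hCS.le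
    (by positivity : 0 ≤ CB) (abs_nonneg C0) (by positivity : 0 ≤ P0) hCW.le hpτ0 hs3f0 hpBle hpτU
    hs3W hUx hWx (hmain j) (hA1x j)
  rw [← hCT] at h6
  have ha := abs_add_le (frC F x (par F σ D.B x) j
    + J0.mulVec (frC F x (dd (upot F σ D.t) x)) j) (frC F x (A1 x) j)
  rw [add_right_comm (frC F x (par F σ D.B x) j) (frC F x (A1 x) j)]
  linarith

end Vale.Agent.P204.Heart
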