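import Vale.Agent.P204.Heart.Spec
import Vale.Agent.P204.Heart.Conv
import Vale.Agent.P204.Heart.Kernel

/-!
P204, analytic heart: the potential of a density (regularity, comparison with the reference
potentials, gradient bound, mass) and the splitting of the kernel of order three.
-/

namespace Vale.Agent.P204.Heart

open MeasureTheory Vale.Agent.P204.Full Set Metric
open scoped ContDiff

/-- the frozen kernel as a function of the pair -/
noncomputable def nk (F : Frame) (σ : ℝ) (p : E4 × E4) : ℝ := nker F σ p.1 p.2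

/-- the cut-off density -/
noncomputable def cut34 (s : E4 → ℝ) (y : E4) : ℝ := bump34 y * s y

/-- bounds of the frozen kernel over the ball of radius four -/
structure KerBound (F : Frame) (C : ℝ) : Prop where
  pos : 0 < C
  smooth : ∀ σ, 0 < σ → ContDiff ℝ ∞ (nk F σ)
  nonneg : ∀ σ, 0 < σ → ∀ y z, 0 ≤ nker F σ y z
  upper : ∀ σ, 0 < σ → ∀ y ∈ cb 4, ∀ z : E4, nker F σ y z ≤ C / (‖z‖ ^ 2 + σ ^ 2)
  lower : ∀ σ, 0 < σ → ∀ y ∈ cb 4, ∀ z : E4, 1 / (‖z‖ ^ 2 + σ ^ 2) ≤ C * nker F σ y z
  grad : ∀ σ, 0 < σ → ∀ y ∈ cb 4, ∀ z : E4, ∀ i,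
    |pdz (nk F σ) i (y, z)| ≤ C / Real.sqrt (‖z‖ ^ 2 + σ ^ 2) ^ 3

section Cut

variable {s : E4 → ℝ}

lemma cut34_zero (s : E4 → ℝ) {y : E4} (hy : y ∉ cb 4) : cut34 s y = 0 := by
  simp only [Metric.mem_closedBall, not_le] at hy
  simp [cut34, bump34.zero_of_le_dist (x := y) hy.le]

lemma continuous_cut34 (hs : Continuous s) : Continuous (cut34 s) :=
  bump34.continuous.mul hs

lemma hasCompactSupport_cut34 (s : E4 → ℝ) : HasCompactSupport (cut34 s) :=
  bump34.hasCompactSupport.mul_right

lemma cut34_nonneg (h : ∀ x ∈ cb 4, 0 ≤ s x) (y : E4) : 0 ≤ cut34 s y := by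
  by_cases hy : y ∈ cb 4
  · exact mul_nonneg bump34.nonneg (h y hy)
  · rw [cut34_zero s hy]

lemma cut34_le (h : ∀ x ∈ cb 4, 0 ≤ s x) {y : E4} (hy : y ∈ cb 4) : cut34 s y ≤ s y :=
  mul_le_of_le_one_left (h y hy) bump34.le_one

lemma cut34_eq (s : E4 → ℝ) {y : E4} (hy : y ∈ cb 3) : cut34 s y = s y := by
  simp [cut34, bump34.one_of_mem_closedBall hy]

lemma upot_eq (F : Frame) (σ : ℝ) (s : E4 → ℝ) (x : E4) :
    upot F σ s x = 1 + kconv (nk F σ) (cut34 s) x := rfl

lemma sq_add_pos {σ : ℝ} (hσ : 0 < σ) (z : E4) : 0 < ‖z‖ ^ 2 + σ ^ 2 := by positivity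

lemma continuous_ref (hs : Continuous s) {σ : ℝ} (hσ : 0 < σ) (x : E4) :
    Continuous fun y => s y / (‖x - y‖ ^ 2 + σ ^ 2) :=
  hs.div (((continuous_const.sub continuous_id).norm.pow 2).add continuous_const)
    fun _ => (sq_add_pos hσ _).ne'

lemma continuous_ref3 (hs : Continuous s) {σ : ℝ} (hσ : 0 < σ) (x : E4) :
    Continuous fun y => s y / Real.sqrt (‖x - y‖ ^ 2 + σ ^ 2) ^ 3 :=
  hs.div ((((continuous_const.sub continuous_id).norm.pow 2).add continuous_const).sqrt.pow 3)
    fun _ => (pow_pos (Real.sqrt_pos.2 (sq_add_pos hσ _)) 3).ne'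

lemma potB_nonneg {σ : ℝ} (hσ : 0 < σ) {r : ℝ} (h : ∀ x ∈ cb r, 0 ≤ s x) (x : E4) :
    0 ≤ potB r σ s x :=
  setIntegral_nonneg measurableSet_closedBall fun y hy =>
    div_nonneg (h y hy) (sq_add_pos hσ _).le

/-- a translate of an integral over a ball is bounded by the integral over a larger ball -/
lemma setIntegral_shift_le {g : E4 → ℝ} {R : ℝ} (hg : ∀ z, 0 ≤ g z)
    (hi : IntegrableOn g (ball 0 R)) {S : Set E4} (hS : MeasurableSet S) (y : E4)
    (hsub : ∀ x ∈ S, x - y ∈ ball (0 : E4) R) :
    ∫ x in S, g (x - y) ≤ ∫ z in ball (0 : E4) R, g z := by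
  rw [← integral_indicator hS, ← integral_indicator measurableSet_ball]
  rw [← integral_sub_right_eq_self ((ball (0 : E4) R).indicator g) y]
  refine integral_mono_of_nonneg (Filter.Eventually.of_forall fun x => indicator_nonneg
    (fun z _ => hg _) x) ((hi.integrable_indicator measurableSet_ball).comp_sub_right y)
    (Filter.Eventually.of_forall fun x => ?_)
  by_cases hx : x ∈ S
  · simp [indicator_of_mem hx, indicator_of_mem (hsub x hx)]
  · simp only [indicator_of_notMem hx]
    exact indicator_nonneg (fun z _ => hg _) _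

end Cut

theorem potential_of_kerBound {F : Frame} {C : ℝ} (hK : KerBound F C) :
    ∃ K : ℝ, 0 < K ∧ ∀ (σ : ℝ) (s : E4 → ℝ), 0 < σ → σ ≤ 1 → Continuous s →
    (∀ x ∈ cb 4, 0 ≤ s x) →
      ContDiff ℝ ∞ (upot F σ s) ∧
      (∀ x, 1 ≤ upot F σ s x) ∧
      (∀ x ∈ cb 3, upot F σ s x ≤ K * (1 + potB 4 σ s x)) ∧
      (∀ x ∈ cb 3, 1 + potB 3 σ s x ≤ K * upot F σ s x) ∧
      (∀ x ∈ cb 3, ∀ i, |pd (upot F σ s) i x| ≤ K * sing3 4 σ s x) ∧
      (∫ x in cb 3, upot F σ s x) ≤ K * (1 + ∫ x in cb 4, s x) := by
  set I := ∫ z in ball (0 : E4) 8, (‖z‖ ^ 2)⁻¹ with hI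
  have hI0 : 0 ≤ I := setIntegral_nonneg measurableSet_ball fun z _ => by positivity
  set V := (volume (cb 3)).toReal with hV
  have hC := hK.pos
  refine ⟨1 + C + C * I + V, by positivity, fun σ s hσ _ hs hs0 => ?_⟩
  have hk := continuous_cut34 hs
  have hks := hasCompactSupport_cut34 s
  have hk0 := cut34_nonneg hs0
  have hG := hK.smooth σ hσ
  have hCK : C ≤ 1 + C + C * I + V := by nlinarith [ENNReal.toReal_nonneg (a := volume (cb 3))]
  have h1K : 1 ≤ 1 + C + C * I + V := by nlinarith [ENNReal.toReal_nonneg (a := volume (cb 3))]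
  have hint : ∀ x, Integrable fun y => cut34 s y * nk F σ (y, x - y) :=
    fun x => integrable_kconv hG.continuous hk hks x
  have hconv0 : ∀ x, 0 ≤ kconv (nk F σ) (cut34 s) x := fun x =>
    integral_nonneg fun y => mul_nonneg (hk0 y) (hK.nonneg σ hσ _ _)
  have hpot0 := fun x => potB_nonneg hσ hs0 x
  have supp4 : ∀ (G : E4 × E4 → ℝ) x, kconv G (cut34 s) x
      = ∫ y in cb 4, cut34 s y * G (y, x - y) := fun G x =>
    (setIntegral_eq_integral_of_forall_compl_eq_zero fun y hy => by
      rw [cut34_zero s hy, zero_mul]).symm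
  have hup : ∀ x, kconv (nk F σ) (cut34 s) x ≤ C * potB 4 σ s x := fun x => by
    rw [supp4, potB, ← integral_const_mul]
    refine setIntegral_mono_on (hint x).integrableOn
      ((continuous_const.mul (continuous_ref hs hσ x)).continuousOn.integrableOn_compact
        (isCompact_closedBall _ _)) measurableSet_closedBall fun y hy => ?_
    calc cut34 s y * nk F σ (y, x - y) ≤ s y * (C / (‖x - y‖ ^ 2 + σ ^ 2)) :=
          mul_le_mul (cut34_le hs0 hy) (hK.upper σ hσ y hy _) (hK.nonneg σ hσ _ _) (hs0 y hy)
      _ = _ := by ring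
  refine ⟨?_, fun x => ?_, fun x _ => ?_, fun x _ => ?_, fun x _ i => ?_, ?_⟩
  · simp only [funext (upot_eq F σ s)]
    exact contDiff_const.add (contDiff_kconv hG hk hks)
  · rw [upot_eq]; linarith [hconv0 x]
  · rw [upot_eq]
    nlinarith [hup x, hpot0 x]
  · have h : potB 3 σ s x ≤ C * kconv (nk F σ) (cut34 s) x := by
      rw [kconv, ← integral_const_mul]
      refine le_trans ?_ (setIntegral_le_integral ((hint x).const_mul C)
        (Filter.Eventually.of_forall fun y => mul_nonneg hC.le
          (mul_nonneg (hk0 y) (hK.nonneg σ hσ _ _))) (s := cb 3))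
      refine setIntegral_mono_on ((continuous_ref hs hσ x).continuousOn.integrableOn_compact
        (isCompact_closedBall _ _)) ((hint x).const_mul C).integrableOn
        measurableSet_closedBall fun y hy => ?_
      have hy4 : y ∈ cb 4 := closedBall_subset_closedBall (by norm_num) hy
      rw [cut34_eq s hy]
      calc s y / (‖x - y‖ ^ 2 + σ ^ 2) = s y * (1 / (‖x - y‖ ^ 2 + σ ^ 2)) := by ring
        _ ≤ s y * (C * nk F σ (y, x - y)) :=
            mul_le_mul_of_nonneg_left (hK.lower σ hσ y hy4 _) (hs0 y hy4)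
        _ = _ := by ring
    rw [upot_eq]
    nlinarith [hconv0 x]
  · have hd : pd (upot F σ s) i x = kconv (pdz (nk F σ) i) (cut34 s) x := by
      rw [← pd_kconv hG hk hks i x]
      simp only [pd, funext (upot_eq F σ s), fderiv_const_add]
    have hs3 : 0 ≤ sing3 4 σ s x := setIntegral_nonneg measurableSet_closedBall fun y hy =>
      div_nonneg (hs0 y hy) (by positivity)
    refine le_trans ?_ (mul_le_mul_of_nonneg_right hCK hs3)
    rw [hd, supp4, sing3, ← integral_const_mul]
    refine abs_integral_le_integral_abs.trans (setIntegral_mono_on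
      (integrable_kconv (contDiff_pdz hG i).continuous hk hks x).abs.integrableOn
      ((continuous_const.mul (continuous_ref3 hs hσ x)).continuousOn.integrableOn_compact
        (isCompact_closedBall _ _)) measurableSet_closedBall fun y hy => ?_)
    rw [abs_mul, abs_of_nonneg (hk0 y)]
    calc cut34 s y * |pdz (nk F σ) i (y, x - y)|
        ≤ s y * (C / Real.sqrt (‖x - y‖ ^ 2 + σ ^ 2) ^ 3) :=
          mul_le_mul (cut34_le hs0 hy) (hK.grad σ hσ y hy _ i) (abs_nonneg _) (hs0 y hy)
      _ = _ := by ring
  · have hS : 0 ≤ ∫ x in cb 4, s x := setIntegral_nonneg measurableSet_closedBall hs0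
    set φ : E4 → E4 → ℝ := fun x y => s y / (‖x - y‖ ^ 2 + σ ^ 2) with hφ
    have hφc : Continuous (Function.uncurry φ) :=
      (hs.comp continuous_snd).div (((continuous_fst.sub continuous_snd).norm.pow 2).add
        continuous_const) fun p => (sq_add_pos hσ _).ne'
    have hφi : Integrable (Function.uncurry φ)
        ((volume.restrict (cb 3)).prod (volume.restrict (cb 4))) := by
      rw [Measure.prod_restrict]
      exact hφc.continuousOn.integrableOn_compact
        ((isCompact_closedBall _ _).prod (isCompact_closedBall _ _))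
    have hpotI : IntegrableOn (fun x => potB 4 σ s x) (cb 3) := hφi.integral_prod_left
    have h2 : ∫ x in cb 3, potB 4 σ s x ≤ I * ∫ y in cb 4, s y := by
      simp only [potB]
      rw [integral_integral_swap hφi, ← integral_const_mul]
      refine setIntegral_mono_on hφi.integral_prod_right
        ((continuous_const.mul hs).continuousOn.integrableOn_compact (isCompact_closedBall _ _))
        measurableSet_closedBall fun y hy => ?_
      simp only [hφ, div_eq_mul_inv]
      rw [integral_const_mul, mul_comm I]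
      refine mul_le_mul_of_nonneg_left ?_ (hs0 y hy)
      have hsub : ∀ x ∈ cb 3, x - y ∈ ball (0 : E4) 8 := fun x hx => by
        simp only [Metric.mem_closedBall, dist_zero_right] at hx hy
        rw [mem_ball_zero_iff]
        linarith [norm_sub_le x y]
      refine le_trans ?_ (setIntegral_shift_le (g := fun z => (‖z‖ ^ 2)⁻¹)
        (fun z => by positivity) (integrableOn_inv_norm_pow 2 (by norm_num) 8)
        measurableSet_closedBall y hsub)
      refine integral_mono_ae ?_ ?_ ?_
      · exact ((((continuous_id.sub continuous_const).norm.pow 2).add continuous_const).inv₀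
          fun x => (sq_add_pos hσ _).ne').continuousOn.integrableOn_compact
            (isCompact_closedBall _ _)
      · refine IntegrableOn.mono_set ?_ (t := (fun x => x - y) ⁻¹' ball (0 : E4) 8) hsub
        exact (measurePreserving_sub_right (volume : Measure E4) y).integrableOn_comp_preimage
          (Homeomorph.subRight y).measurableEmbedding |>.2
            (integrableOn_inv_norm_pow 2 (by norm_num) 8)
      · refine ae_restrict_of_ae ?_
        filter_upwards [Measure.ae_ne (volume : Measure E4) y] with x hx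
        refine inv_anti₀ (by
          have : 0 < ‖x - y‖ := norm_pos_iff.2 (sub_ne_zero.2 hx)
          positivity) (le_add_of_nonneg_right (sq_nonneg σ))
    have h3 : ∫ x in cb 3, upot F σ s x ≤ ∫ x in cb 3, (1 + C * potB 4 σ s x) := by
      refine setIntegral_mono_on ?_ ((continuousOn_const.integrableOn_compact
        (isCompact_closedBall _ _)).add (hpotI.const_mul C)) measurableSet_closedBall
        fun x _ => by rw [upot_eq]; linarith [hup x]
      simp only [funext (upot_eq F σ s)]
      exact (continuous_const.add (contDiff_kconv hG hk hks).continuous).continuousOn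
        |>.integrableOn_compact (isCompact_closedBall _ _)
    have h1i : Integrable (fun _ : E4 => (1 : ℝ)) (volume.restrict (cb 3)) :=
      continuousOn_const.integrableOn_compact (isCompact_closedBall _ _)
    have h4i : Integrable (fun x => C * potB 4 σ s x) (volume.restrict (cb 3)) := hpotI.const_mul C
    rw [integral_add h1i h4i, integral_const_mul, setIntegral_const, smul_eq_mul, mul_one] at h3
    simp only [measureReal_def] at h3
    nlinarith [mul_le_mul_of_nonneg_left h2 hC.le, mul_nonneg hC.le hI0,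
      ENNReal.toReal_nonneg (a := volume (cb 3))]

theorem exists_kerBound (F : Frame) : ∃ C, KerBound F C := by
  obtain ⟨C, hC, h⟩ := Kernel.kernel_bounds F
  exact ⟨C, hC, fun σ hσ => Kernel.contDiff_nker F hσ,
    fun σ hσ y z => (Kernel.nker_pos hσ y z).le, fun σ hσ y hy z => (h σ hσ y hy z).2.1,
    fun σ hσ y hy z => (h σ hσ y hy z).1, fun σ hσ y hy z i => by
      rw [pdz_eq_pd (G := nk F σ) (Kernel.contDiff_nker F hσ)]
      exact (h σ hσ y hy z).2.2.1 i⟩

theorem potentialStmt_holds : PotentialStmt := fun F => by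
  obtain ⟨C, hC⟩ := exists_kerBound F
  exact potential_of_kerBound hC

theorem splitStmt_holds : SplitStmt := by
  refine ⟨1 + powConst 3, by linarith [powConst_nonneg 3],
    fun σ e M s hσ hσe _ hs hs0 hM x hx => ?_⟩
  have he : 0 < e := hσ.trans_le hσe
  have hx4 : x ∈ cb 4 := closedBall_subset_closedBall (by norm_num) hx
  have hM0 : 0 ≤ M := le_trans (mul_nonneg (sq_nonneg e) (hs0 x hx4)) (hM x hx4)
  have hP : 0 ≤ potB 4 σ s x := potB_nonneg hσ hs0 x
  set g : E4 → ℝ := (ball (0 : E4) e).indicator fun z => (‖z‖ ^ 3)⁻¹ with hg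
  have hg0 : ∀ z, 0 ≤ g z := fun z => indicator_nonneg (fun z _ => by positivity) z
  have hgi : Integrable fun y => g (x - y) :=
    ((integrableOn_inv_norm_pow 3 le_rfl e).integrable_indicator measurableSet_ball).comp_sub_left x
  have hgI : ∫ y, g (x - y) = e * powConst 3 := by
    rw [integral_sub_left_eq_self g volume x, hg, integral_indicator measurableSet_ball,
      integral_inv_norm_pow_ball 3 he]
    field_simp
  calc e * sing3 4 σ s x
      ≤ ∫ y in cb 4, (s y / (‖x - y‖ ^ 2 + σ ^ 2) + M / e * g (x - y)) := by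
        rw [sing3, ← integral_const_mul]
        refine setIntegral_mono_on_ae
          ((continuous_const.mul (continuous_ref3 hs hσ x)).continuousOn.integrableOn_compact
            (isCompact_closedBall _ _))
          (((continuous_ref hs hσ x).continuousOn.integrableOn_compact
            (isCompact_closedBall _ _)).add (hgi.const_mul _).integrableOn)
          measurableSet_closedBall ?_
        filter_upwards [Measure.ae_ne (volume : Measure E4) x] with y hyx hy
        have hs' := hs0 y hy
        have hpos := sq_add_pos hσ (x - y)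
        have hsq := Real.sqrt_pos.2 hpos
        have hself : Real.sqrt (‖x - y‖ ^ 2 + σ ^ 2) ^ 2 = ‖x - y‖ ^ 2 + σ ^ 2 :=
          Real.sq_sqrt hpos.le
        have hn : ‖x - y‖ ≤ Real.sqrt (‖x - y‖ ^ 2 + σ ^ 2) :=
          Real.le_sqrt_of_sq_le (le_add_of_nonneg_right (sq_nonneg σ))
        have hz : 0 < ‖x - y‖ := norm_pos_iff.2 (sub_ne_zero.2 (Ne.symm hyx))
        rcases le_or_gt e ‖x - y‖ with h | h
        · have : e * (s y / Real.sqrt (‖x - y‖ ^ 2 + σ ^ 2) ^ 3)
              ≤ s y / (‖x - y‖ ^ 2 + σ ^ 2) := by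
            set r := Real.sqrt (‖x - y‖ ^ 2 + σ ^ 2) with hr
            rw [← hself, show e * (s y / r ^ 3) = (e / r) * (s y / r ^ 2) by field_simp]
            exact mul_le_of_le_one_left (div_nonneg hs' (by positivity))
              ((div_le_one hsq).2 (h.trans hn))
          linarith [mul_nonneg (div_nonneg hM0 he.le) (hg0 (x - y))]
        · have hmem : x - y ∈ ball (0 : E4) e := mem_ball_zero_iff.2 h
          have h1 : e * (s y / Real.sqrt (‖x - y‖ ^ 2 + σ ^ 2) ^ 3)
              ≤ e * s y * (‖x - y‖ ^ 3)⁻¹ := by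
            rw [div_eq_mul_inv, ← mul_assoc]
            exact mul_le_mul_of_nonneg_left (inv_anti₀ (pow_pos hz 3)
              (pow_le_pow_left₀ hz.le hn 3)) (mul_nonneg he.le hs')
          have h2 : e * s y ≤ M / e := by
            rw [le_div_iff₀ he]; nlinarith [hM y hy]
          have h3 : g (x - y) = (‖x - y‖ ^ 3)⁻¹ := by rw [hg, indicator_of_mem hmem]
          rw [h3]
          linarith [mul_le_mul_of_nonneg_right h2 (inv_nonneg.2 (pow_nonneg hz.le 3)),
            div_nonneg hs' hpos.le]
    _ = potB 4 σ s x + M / e * ∫ y in cb 4, g (x - y) := by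
        rw [integral_add ((continuous_ref hs hσ x).continuousOn.integrableOn_compact
          (isCompact_closedBall _ _)) (hgi.const_mul _).integrableOn, integral_const_mul]
        rfl
    _ ≤ potB 4 σ s x + M / e * (e * powConst 3) := by
        rw [← hgI]
        exact add_le_add le_rfl (mul_le_mul_of_nonneg_left
          (setIntegral_le_integral hgi (Filter.Eventually.of_forall fun y => hg0 _))
          (div_nonneg hM0 he.le))
    _ = potB 4 σ s x + M * powConst 3 := by field_simp
    _ ≤ (1 + powConst 3) * (potB 4 σ s x + M) := by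
        nlinarith [powConst_nonneg 3]

end Vale.Agent.P204.Heart
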