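import Vale.Agent.P204.Heart.Spec
import Vale.Agent.P204.Heart.Conv

/-!
P204, heart: the Gaussian potential of order three and its first-order energy.
-/

namespace Vale.Agent.P204.Heart

open MeasureTheory Vale.Agent.P204.Full Set Metric
open scoped ContDiff

namespace Weight

/-- the times -/
def tim (σ : ℝ) : Set ℝ := Icc σ 32

/-- coefficient of a space derivative of the Gaussian -/
noncomputable def dgauss (i : Fin 4) (s : ℝ) (z : E4) : ℝ := -(z i) / (2 * s ^ 2) * gauss s z

/-- the pair kernel of the gradients -/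
noncomputable def eker (i : Fin 4) (u : ℝ) (z : E4) : ℝ :=
  (1 / (2 * u ^ 2) - z i ^ 2 / (4 * u ^ 4)) * gauss u z

/-- convolution over a ball -/
noncomputable def conv (k : ℝ → E4 → ℝ) (f : E4 → ℝ) (r : ℝ) (s : ℝ) (x : E4) : ℝ :=
  ∫ y in cb r, f y * k s (x - y)

/-- pairing over a ball -/
noncomputable def pairing (k : ℝ → E4 → ℝ) (f : E4 → ℝ) (r u : ℝ) : ℝ :=
  ∫ p in cb r ×ˢ cb r, f p.1 * f p.2 * k u (p.1 - p.2)

/-- the dominating profile -/
noncomputable def prof (x : E4) : ℝ := Real.exp (-(1 / 16384) * ‖x‖ ^ 2)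

lemma gauss_nonneg (s : ℝ) (z : E4) : 0 ≤ gauss s z := by unfold gauss; positivity

lemma gauss_neg (s : ℝ) (z : E4) : gauss s (-z) = gauss s z := by simp [gauss]

lemma continuous_gauss {s : ℝ} : Continuous (gauss s) := by unfold gauss; fun_prop

lemma continuous_coord (i : Fin 4) : Continuous fun z : E4 => z i :=
  (EuclideanSpace.proj (𝕜 := ℝ) i).continuous

lemma abs_coord_le (z : E4) (i : Fin 4) : |z i| ≤ ‖z‖ := by
  simpa [Real.norm_eq_abs] using PiLp.norm_apply_le z i

lemma continuousOn_gauss : ContinuousOn (fun q : ℝ × E4 => gauss q.1 q.2) (Ioi 0 ×ˢ univ) := by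
  unfold gauss
  refine ((Real.continuous_exp.comp_continuousOn (((continuous_snd.norm.pow 2).neg).continuousOn.div
    (continuous_const.mul (continuous_fst.pow 2)).continuousOn fun q hq => ?_))).div
    (continuous_const.mul (continuous_fst.pow 4)).continuousOn fun q hq => ?_
  all_goals (have h : (0 : ℝ) < q.1 := hq.1; simp; positivity)

lemma continuousOn_dgauss (i : Fin 4) :
    ContinuousOn (fun q : ℝ × E4 => dgauss i q.1 q.2) (Ioi 0 ×ˢ univ) := by
  unfold dgauss
  refine (((continuous_coord i).comp continuous_snd).neg.continuousOn.div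
    (continuous_const.mul (continuous_fst.pow 2)).continuousOn fun q hq => ?_).mul continuousOn_gauss
  have h : (0 : ℝ) < q.1 := hq.1
  simp; positivity

lemma continuousOn_eker (i : Fin 4) :
    ContinuousOn (fun q : ℝ × E4 => eker i q.1 q.2) (Ioi 0 ×ˢ univ) := by
  unfold eker
  refine ((continuousOn_const.div (continuous_const.mul (continuous_fst.pow 2)).continuousOn
    fun q hq => ?_).sub ((((continuous_coord i).comp continuous_snd).pow 2).continuousOn.div
    (continuous_const.mul (continuous_fst.pow 4)).continuousOn fun q hq => ?_)).mul continuousOn_gauss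
  all_goals (have h : (0 : ℝ) < q.1 := hq.1; simp; positivity)

lemma integral_gauss {s : ℝ} (hs : 0 < s) : ∫ z : E4, gauss s z = 1 := by
  have h := GaussianFourier.integral_rexp_neg_mul_sq_norm (V := E4)
    (b := 1 / (4 * s ^ 2)) (by positivity)
  have he : (fun z : E4 => gauss s z) = fun z =>
      (16 * Real.pi ^ 2 * s ^ 4)⁻¹ * Real.exp (-(1 / (4 * s ^ 2)) * ‖z‖ ^ 2) := by
    funext z; rw [gauss]; ring_nf
  rw [he, integral_const_mul, h]
  simp
  norm_num [Real.rpow_two]
  field_simp
  ring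

lemma integrable_gauss {s : ℝ} (hs : 0 < s) : Integrable fun z : E4 => gauss s z :=
  Integrable.of_integral_ne_zero (by rw [integral_gauss hs]; norm_num)

lemma integrable_prof : Integrable prof := by
  refine Integrable.of_integral_ne_zero ?_
  unfold prof
  rw [GaussianFourier.integral_rexp_neg_mul_sq_norm (V := E4) (by norm_num)]
  exact (Real.rpow_pos_of_pos (by positivity) _).ne'

lemma hasFDerivAt_gauss (s : ℝ) (z : E4) :
    ∃ G : E4 →L[ℝ] ℝ, HasFDerivAt (gauss s) G z ∧ ∀ i, G (ev4 i) = dgauss i s z := by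
  have h1 := ((((hasFDerivAt_id z).norm_sq).fun_neg.mul_const (4 * s ^ 2)⁻¹).exp.mul_const
    (16 * Real.pi ^ 2 * s ^ 4)⁻¹)
  have hfun : gauss s = fun z : E4 =>
      Real.exp (-‖z‖ ^ 2 * (4 * s ^ 2)⁻¹) * (16 * Real.pi ^ 2 * s ^ 4)⁻¹ := by
    funext z; rw [gauss]; ring
  refine ⟨_, hfun ▸ h1, fun i => ?_⟩
  simp only [id_eq, smul_apply, neg_apply, ContinuousLinearMap.comp_apply,
    ContinuousLinearMap.id_apply, innerSL_apply_apply, smul_eq_mul]
  simp [ev4, dgauss, gauss, EuclideanSpace.inner_single_right]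
  ring

lemma gauss_half {v : ℝ} (hv : 0 < v) (w : E4) :
    ‖w‖ ^ 2 * gauss v w ≤ 256 * v ^ 2 * gauss (2 * v) w := by
  have h := Real.add_one_le_exp (3 / 16 * (‖w‖ ^ 2 / v ^ 2))
  have hsplit : Real.exp (-‖w‖ ^ 2 / (4 * v ^ 2)) * Real.exp (3 / 16 * (‖w‖ ^ 2 / v ^ 2))
      = Real.exp (-‖w‖ ^ 2 / (4 * (2 * v) ^ 2)) := by
    rw [← Real.exp_add]; congr 1; field_simp; ring
  have h2 : ‖w‖ ^ 2 ≤ 16 / 3 * v ^ 2 * Real.exp (3 / 16 * (‖w‖ ^ 2 / v ^ 2)) := by
    have h3 : 3 / 16 * (‖w‖ ^ 2 / v ^ 2) ≤ Real.exp (3 / 16 * (‖w‖ ^ 2 / v ^ 2)) := by linarith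
    calc ‖w‖ ^ 2 = 16 / 3 * v ^ 2 * (3 / 16 * (‖w‖ ^ 2 / v ^ 2)) := by field_simp
      _ ≤ _ := mul_le_mul_of_nonneg_left h3 (by positivity)
  calc ‖w‖ ^ 2 * gauss v w
      ≤ 16 / 3 * v ^ 2 * Real.exp (3 / 16 * (‖w‖ ^ 2 / v ^ 2)) * gauss v w :=
        mul_le_mul_of_nonneg_right h2 (gauss_nonneg v w)
    _ = 256 / 3 * v ^ 2 * gauss (2 * v) w := by
        rw [gauss, gauss, ← hsplit]; field_simp; ring
    _ ≤ _ := mul_le_mul_of_nonneg_right (by nlinarith) (gauss_nonneg _ w)

lemma moments {v : ℝ} (hv : 0 < v) (i : Fin 4) :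
    (Integrable fun w : E4 => w i * gauss v w) ∧ (Integrable fun w : E4 => w i ^ 2 * gauss v w) ∧
      (∫ w : E4, w i * gauss v w) = 0 ∧ (∫ w : E4, w i ^ 2 * gauss v w) = 2 * v ^ 2 := by
  have hb : Integrable fun w : E4 => gauss v w + 256 * v ^ 2 * gauss (2 * v) w :=
    (integrable_gauss hv).add ((integrable_gauss (by positivity)).const_mul _)
  have h2 : Integrable fun w : E4 => w i ^ 2 * gauss v w := by
    refine hb.mono' (((continuous_coord i).pow 2).mul continuous_gauss).aestronglyMeasurable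
      (Filter.Eventually.of_forall fun w => ?_)
    rw [Real.norm_eq_abs, abs_mul, abs_of_nonneg (sq_nonneg _), abs_of_nonneg (gauss_nonneg v w)]
    refine le_trans ?_ ((gauss_half hv w).trans (le_add_of_nonneg_left (gauss_nonneg v w)))
    refine mul_le_mul_of_nonneg_right ?_ (gauss_nonneg v w)
    rw [← sq_abs (w i)]
    exact pow_le_pow_left₀ (abs_nonneg _) (abs_coord_le w i) 2
  have h1 : Integrable fun w : E4 => w i * gauss v w := by
    refine hb.mono' ((continuous_coord i).mul continuous_gauss).aestronglyMeasurable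
      (Filter.Eventually.of_forall fun w => ?_)
    rw [Real.norm_eq_abs, abs_mul, abs_of_nonneg (gauss_nonneg v w)]
    have h3 : |w i| ≤ 1 + ‖w‖ ^ 2 :=
      (abs_coord_le w i).trans (by nlinarith [sq_nonneg (‖w‖ - 1)])
    calc |w i| * gauss v w ≤ (1 + ‖w‖ ^ 2) * gauss v w :=
          mul_le_mul_of_nonneg_right h3 (gauss_nonneg v w)
      _ = gauss v w + ‖w‖ ^ 2 * gauss v w := by ring
      _ ≤ _ := add_le_add le_rfl (gauss_half hv w)
  refine ⟨h1, h2, ?_, ?_⟩
  · have h := integral_neg_eq_self (fun w : E4 => w i * gauss v w) volume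
    simp only [PiLp.neg_apply, gauss_neg, neg_mul, integral_neg] at h
    linarith
  · have hd : ∀ w : E4, fderiv ℝ (gauss v) w (ev4 i) = dgauss i v w := fun w => by
      obtain ⟨G, hG, hG'⟩ := hasFDerivAt_gauss v w
      rw [hG.fderiv, hG']
    have hdi : ∀ w : E4, fderiv ℝ (fun w : E4 => w i) w (ev4 i) = 1 := fun w => by
      rw [show (fun w : E4 => w i) = (EuclideanSpace.proj (𝕜 := ℝ) i : E4 → ℝ) from rfl,
        ContinuousLinearMap.fderiv]
      simp [ev4]
    have h3 : Integrable fun w : E4 => w i * dgauss i v w := by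
      refine (h2.const_mul (-(2 * v ^ 2)⁻¹)).congr (Filter.Eventually.of_forall fun w => ?_)
      simp only [dgauss]; ring
    have h := integral_mul_fderiv_eq_neg_fderiv_mul_of_integrable (μ := (volume : Measure E4))
      (f := fun w : E4 => w i) (g := gauss v) (v := ev4 i)
      (by simpa [hdi] using integrable_gauss hv) (by simpa [hd] using h3) h1
      (fun w _ => (EuclideanSpace.proj (𝕜 := ℝ) i).differentiableAt)
      (fun w _ => (hasFDerivAt_gauss v w).choose_spec.1.differentiableAt)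
    simp only [hd, hdi, one_mul, integral_gauss hv] at h
    have he : (fun w : E4 => w i * dgauss i v w)
        = fun w => -(2 * v ^ 2)⁻¹ * (w i ^ 2 * gauss v w) := by
      funext w; simp only [dgauss]; ring
    rw [he, integral_const_mul] at h
    field_simp at h
    linarith

lemma product_eq {s t : ℝ} (hs : 0 < s) (ht : 0 < t) (w z : E4) :
    gauss s (w - (s ^ 2 / (s ^ 2 + t ^ 2)) • z) * gauss t (w + (t ^ 2 / (s ^ 2 + t ^ 2)) • z)
      = gauss (s * t / Real.sqrt (s ^ 2 + t ^ 2)) w * gauss (Real.sqrt (s ^ 2 + t ^ 2)) z := by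
  have hU : 0 < s ^ 2 + t ^ 2 := by positivity
  have hq := Real.sq_sqrt hU.le
  have hq4 : Real.sqrt (s ^ 2 + t ^ 2) ^ 4 = (s ^ 2 + t ^ 2) ^ 2 := by
    rw [show 4 = 2 * 2 from rfl, pow_mul, hq]
  simp only [gauss]
  rw [div_mul_div_comm, div_mul_div_comm, ← Real.exp_add, ← Real.exp_add]
  congr 1
  · congr 1
    rw [norm_sub_sq_real, norm_add_sq_real, real_inner_smul_right, real_inner_smul_right,
      norm_smul, norm_smul, mul_pow, mul_pow, Real.norm_eq_abs, Real.norm_eq_abs, sq_abs, sq_abs,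
      div_pow, hq]
    field_simp
    simp only [hq]
    ring
  · rw [div_pow, hq4]
    field_simp

lemma integral_gauss_gauss {s t : ℝ} (hs : 0 < s) (ht : 0 < t) (y y' : E4) :
    ∫ x, gauss s (x - y) * gauss t (x - y') = gauss (Real.sqrt (s ^ 2 + t ^ 2)) (y - y') := by
  set α := s ^ 2 / (s ^ 2 + t ^ 2) with hα
  set β := t ^ 2 / (s ^ 2 + t ^ 2) with hβ
  have hab : α + β = 1 := by rw [hα, hβ]; field_simp
  rw [← integral_add_right_eq_self _ (y - α • (y - y'))]
  have h : ∀ w : E4, gauss s (w + (y - α • (y - y')) - y) * gauss t (w + (y - α • (y - y')) - y')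
      = gauss (s * t / Real.sqrt (s ^ 2 + t ^ 2)) w
        * gauss (Real.sqrt (s ^ 2 + t ^ 2)) (y - y') := fun w => by
    rw [← product_eq hs ht w (y - y'), ← hα, ← hβ, show β = 1 - α by linarith]
    congr 2 <;> module
  simp only [h]
  rw [integral_mul_const, integral_gauss (by positivity), one_mul]

lemma integral_dgauss_dgauss {s t : ℝ} (hs : 0 < s) (ht : 0 < t) (i : Fin 4) (y y' : E4) :
    ∫ x, dgauss i s (x - y) * dgauss i t (x - y')
      = eker i (Real.sqrt (s ^ 2 + t ^ 2)) (y - y') := by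
  set α := s ^ 2 / (s ^ 2 + t ^ 2) with hα
  set β := t ^ 2 / (s ^ 2 + t ^ 2) with hβ
  set z := y - y' with hz
  set u := Real.sqrt (s ^ 2 + t ^ 2) with hu
  set v := s * t / u with hv
  have hu0 : 0 < u := Real.sqrt_pos.2 (by positivity)
  have hv0 : 0 < v := by positivity
  have hab : α + β = 1 := by rw [hα, hβ]; field_simp
  rw [← integral_add_right_eq_self _ (y - α • z)]
  have h : ∀ w : E4, dgauss i s (w + (y - α • z) - y) * dgauss i t (w + (y - α • z) - y')
      = gauss u z / (4 * s ^ 2 * t ^ 2) * (w i ^ 2 * gauss v w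
          + (β - α) * z i * (w i * gauss v w) - α * β * z i ^ 2 * gauss v w) := fun w => by
    have h1 : w + (y - α • z) - y = w - α • z := by abel
    have h2 : w + (y - α • z) - y' = w + β • z := by
      rw [show β = 1 - α by linarith, hz]; module
    rw [h1, h2, dgauss, dgauss, mul_mul_mul_comm, product_eq hs ht w z, ← hu, ← hv]
    simp only [PiLp.sub_apply, PiLp.add_apply, PiLp.smul_apply, smul_eq_mul]
    ring
  simp only [h]
  obtain ⟨i1, i2, m1, m2⟩ := moments hv0 i
  have i3 := (integrable_gauss hv0).const_mul (α * β * z i ^ 2)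
  have i12 : Integrable fun w : E4 => w i ^ 2 * gauss v w + (β - α) * z i * (w i * gauss v w) :=
    i2.add (i1.const_mul _)
  rw [integral_const_mul, integral_sub i12 i3, integral_add i2 (i1.const_mul _), integral_const_mul,
    integral_const_mul, m1, m2, integral_gauss hv0, eker, hv, hα, hβ]
  have hq : u ^ 2 = s ^ 2 + t ^ 2 := Real.sq_sqrt (by positivity)
  rw [← hq, show u ^ 4 = (u ^ 2) ^ 2 by ring]
  field_simp
  ring

lemma profile_bound {σ r : ℝ} (hσ : 0 < σ) :
    ∃ C, 0 ≤ C ∧ ∀ s ∈ tim σ, ∀ x : E4, ∀ y ∈ cb r,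
      |gauss s (x - y)| ≤ C * prof x ∧ ∀ i, |dgauss i s (x - y)| ≤ C * prof x := by
  set K := (16 * Real.pi ^ 2 * σ ^ 4)⁻¹ with hK
  set B := Real.exp (r ^ 2 / 8192) with hB
  refine ⟨K * B * (8193 * (1 / (2 * σ ^ 2))) + K * B, by positivity, fun s hs x y hy => ?_⟩
  obtain ⟨hs1, hs2⟩ := hs
  have hs0 : 0 < s := hσ.trans_le hs1
  set a := ‖x - y‖ with ha
  have hprof : Real.exp (-a ^ 2 / 8192) ≤ B * prof x := by
    rw [hB, prof, ← Real.exp_add]
    apply Real.exp_le_exp.2
    rw [mem_closedBall, dist_zero_right] at hy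
    have h1 : ‖x‖ ≤ a + r := by
      have := norm_le_norm_sub_add x y; linarith
    have h2 : ‖x‖ ^ 2 ≤ 2 * a ^ 2 + 2 * r ^ 2 := by
      nlinarith [pow_le_pow_left₀ (norm_nonneg x) h1 2, sq_nonneg (a - r)]
    linarith
  have hg : gauss s (x - y) ≤ K * Real.exp (-a ^ 2 / 4096) := by
    rw [gauss, ← ha, hK, div_eq_mul_inv, mul_comm]
    refine mul_le_mul ?_ (Real.exp_le_exp.2 ?_) (Real.exp_pos _).le (by positivity)
    · gcongr
    · rw [neg_div, neg_div, neg_le_neg_iff]
      gcongr
      nlinarith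
  have hlin : a * Real.exp (-a ^ 2 / 4096) ≤ 8193 * Real.exp (-a ^ 2 / 8192) := by
    have h1 := Real.add_one_le_exp (a ^ 2 / 8192)
    have h2 : a ≤ 8193 * Real.exp (a ^ 2 / 8192) := by
      nlinarith [sq_nonneg (a - 1), sq_nonneg a]
    calc a * Real.exp (-a ^ 2 / 4096)
        ≤ 8193 * Real.exp (a ^ 2 / 8192) * Real.exp (-a ^ 2 / 4096) :=
          mul_le_mul_of_nonneg_right h2 (Real.exp_pos _).le
      _ = _ := by rw [mul_assoc, ← Real.exp_add]; congr 2; ring
  have hexp : Real.exp (-a ^ 2 / 4096) ≤ Real.exp (-a ^ 2 / 8192) :=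
    Real.exp_le_exp.2 (by nlinarith [sq_nonneg a])
  have hP : 0 ≤ prof x := (Real.exp_pos _).le
  have e1 : 0 ≤ K * B * (8193 * (1 / (2 * σ ^ 2))) * prof x := by positivity
  have e2 : 0 ≤ K * B * prof x := by positivity
  refine ⟨?_, fun i => ?_⟩
  · rw [abs_of_nonneg (gauss_nonneg _ _)]
    calc gauss s (x - y) ≤ K * Real.exp (-a ^ 2 / 4096) := hg
      _ ≤ K * (B * prof x) := mul_le_mul_of_nonneg_left (hexp.trans hprof) (by positivity)
      _ ≤ _ := by nlinarith
  · rw [dgauss, abs_mul, abs_of_nonneg (gauss_nonneg _ _), abs_div, abs_neg,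
      abs_of_pos (by positivity : 0 < 2 * s ^ 2)]
    calc |(x - y) i| / (2 * s ^ 2) * gauss s (x - y)
        ≤ a / (2 * σ ^ 2) * (K * Real.exp (-a ^ 2 / 4096)) := by
          refine mul_le_mul ?_ hg (gauss_nonneg _ _) (by positivity)
          gcongr
          exact abs_coord_le _ _
      _ = K * (1 / (2 * σ ^ 2)) * (a * Real.exp (-a ^ 2 / 4096)) := by ring
      _ ≤ K * (1 / (2 * σ ^ 2)) * (8193 * (B * prof x)) := by
          refine mul_le_mul_of_nonneg_left (hlin.trans ?_) (by positivity)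
          exact mul_le_mul_of_nonneg_left hprof (by norm_num)
      _ ≤ _ := by nlinarith

/-- a kernel admitted by the Fubini lemmas -/
def Adm (σ r : ℝ) (k : ℝ → E4 → ℝ) : Prop :=
  ContinuousOn (fun q : ℝ × E4 => k q.1 q.2) (Ioi 0 ×ˢ univ) ∧
    ∃ C, 0 ≤ C ∧ ∀ s ∈ tim σ, ∀ x : E4, ∀ y ∈ cb r, |k s (x - y)| ≤ C * prof x

lemma adm_gauss {σ : ℝ} (hσ : 0 < σ) (r : ℝ) : Adm σ r gauss := by
  obtain ⟨C, hC0, hC⟩ := profile_bound (r := r) hσ
  exact ⟨continuousOn_gauss, C, hC0, fun s hs x y hy => (hC s hs x y hy).1⟩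

lemma adm_dgauss {σ : ℝ} (hσ : 0 < σ) (r : ℝ) (i : Fin 4) :
    Adm σ r (dgauss i) := by
  obtain ⟨C, hC0, hC⟩ := profile_bound (r := r) hσ
  exact ⟨continuousOn_dgauss i, C, hC0, fun s hs x y hy => (hC s hs x y hy).2 i⟩

variable {f : E4 → ℝ} {σ r : ℝ} {k : ℝ → E4 → ℝ}

lemma tim_pos (hσ : 0 < σ) {s : ℝ} (hs : s ∈ tim σ) : 0 < s := hσ.trans_le hs.1

lemma continuous_slice (hk : ContinuousOn (fun q : ℝ × E4 => k q.1 q.2) (Ioi 0 ×ˢ univ)) {s : ℝ}
    (hs : 0 < s) : Continuous (k s) :=
  hk.comp_continuous (continuous_const.prodMk continuous_id) fun _ => ⟨hs, trivial⟩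

lemma continuousOn_arg {α : Type} [TopologicalSpace α]
    (hk : ContinuousOn (fun q : ℝ × E4 => k q.1 q.2) (Ioi 0 ×ˢ univ)) {τ : α → ℝ} {ζ : α → E4}
    (hτ : Continuous τ) (hζ : Continuous ζ) {S : Set α} (hS : ∀ a ∈ S, 0 < τ a) :
    ContinuousOn (fun a => k (τ a) (ζ a)) S :=
  ContinuousOn.comp (g := fun q : ℝ × E4 => k q.1 q.2) (f := fun a => ((τ a, ζ a) : ℝ × E4)) hk
    (hτ.prodMk hζ).continuousOn fun a ha => ⟨hS a ha, trivial⟩

lemma continuousOn_diff (hk : ContinuousOn (fun q : ℝ × E4 => k q.1 q.2) (Ioi 0 ×ˢ univ)) :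
    ContinuousOn (fun q : ℝ × (E4 × E4) => k q.1 (q.2.1 - q.2.2)) (Ioi 0 ×ˢ univ) := by
  have h : Continuous fun q : ℝ × (E4 × E4) => ((q.1, q.2.1 - q.2.2) : ℝ × E4) := by fun_prop
  exact ContinuousOn.comp (g := fun q : ℝ × E4 => k q.1 q.2)
    (f := fun q : ℝ × (E4 × E4) => ((q.1, q.2.1 - q.2.2) : ℝ × E4)) hk h.continuousOn
    fun q hq => ⟨hq.1, trivial⟩

lemma continuousOn_conv (hf : Continuous f)
    (hk : ContinuousOn (fun q : ℝ × E4 => k q.1 q.2) (Ioi 0 ×ˢ univ)) (r : ℝ) :
    ContinuousOn (fun q : ℝ × E4 => conv k f r q.1 q.2) (Ioi 0 ×ˢ univ) := by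
  rw [(isOpen_Ioi.prod isOpen_univ).continuousOn_iff]
  intro q hq
  have hq1 : (0 : ℝ) < q.1 := hq.1
  set K := Icc (q.1 / 2) (2 * q.1) ×ˢ closedBall q.2 1 with hK
  have hKn : K ∈ nhds q :=
    prod_mem_nhds (Icc_mem_nhds (by linarith) (by linarith)) (closedBall_mem_nhds _ one_pos)
  have hc : ContinuousOn (fun p : (ℝ × E4) × E4 => f p.2 * k p.1.1 (p.1.2 - p.2))
      ((Ioi 0 ×ˢ univ) ×ˢ univ) :=
    (hf.comp continuous_snd).continuousOn.mul (hk.comp
      ((continuous_fst.comp continuous_fst).prodMk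
        ((continuous_snd.comp continuous_fst).sub continuous_snd)).continuousOn
      fun p hp => ⟨hp.1.1, trivial⟩)
  have hsub : K ×ˢ cb r ⊆ (Ioi 0 ×ˢ univ) ×ˢ univ := fun p hp =>
    ⟨⟨show (0 : ℝ) < p.1.1 by linarith [hp.1.1.1], trivial⟩, trivial⟩
  obtain ⟨C, hC⟩ := ((isCompact_Icc.prod (isCompact_closedBall _ _)).prod
    (isCompact_closedBall (0 : E4) r)).exists_bound_of_continuousOn (hc.mono hsub)
  have hp : ∀ p : ℝ × E4, 0 < p.1 → Continuous fun y => f y * k p.1 (p.2 - y) := fun p hp =>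
    hf.mul ((continuous_slice hk hp).comp (continuous_const.sub continuous_id))
  have : IsFiniteMeasure ((volume : Measure E4).restrict (cb r)) :=
    isFiniteMeasure_restrict.2 measure_closedBall_lt_top.ne
  refine continuousAt_of_dominated (bound := fun _ => C)
    (μ := (volume : Measure E4).restrict (cb r)) ?_ ?_ (integrable_const C)
    (Filter.Eventually.of_forall fun y => ?_)
  · filter_upwards [hKn] with p hpK
    exact (hp p (by linarith [hpK.1.1])).aestronglyMeasurable
  · filter_upwards [hKn] with p hpK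
    exact ae_restrict_of_forall_mem measurableSet_closedBall fun y hy => hC (p, y) ⟨hpK, hy⟩
  · exact (hc.continuousAt (((isOpen_Ioi.prod isOpen_univ).prod isOpen_univ).mem_nhds
      ⟨hq, trivial⟩)).comp (continuousAt_id.prodMk continuousAt_const)

lemma conv_bound (hf : Continuous f) (hk : Adm σ r k) :
    ∃ C, 0 ≤ C ∧ ∀ s ∈ tim σ, ∀ x, |conv k f r s x| ≤ C * prof x := by
  obtain ⟨-, C, hC0, hC⟩ := hk
  obtain ⟨M, hM⟩ := (isCompact_closedBall (0 : E4) r).exists_bound_of_continuousOn hf.continuousOn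
  refine ⟨max M 0 * C * volume.real (cb r), by positivity, fun s hs x => ?_⟩
  have h := norm_setIntegral_le_of_norm_le_const (C := max M 0 * (C * prof x))
    (measure_closedBall_lt_top (μ := (volume : Measure E4)) (x := 0) (r := r))
    (f := fun y => f y * k s (x - y)) fun y hy => by
      rw [Real.norm_eq_abs, abs_mul]
      exact mul_le_mul (le_max_of_le_left (by simpa using hM y hy)) (hC s hs x y hy) (abs_nonneg _)
        (le_max_right _ _)
  rw [Real.norm_eq_abs] at h
  exact h.trans (le_of_eq (by ring))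

/-- `L²` pairing of two convolutions -/
lemma integral_conv_mul (hf : Continuous f) (hk : Adm σ r k) (hσ : 0 < σ) {s t : ℝ}
    (hs : s ∈ tim σ) (ht : t ∈ tim σ) :
    ∫ x, conv k f r s x * conv k f r t x =
      ∫ p in cb r ×ˢ cb r, f p.1 * f p.2 * ∫ x, k s (x - p.1) * k t (x - p.2) := by
  obtain ⟨hkc, C, hC0, hC⟩ := hk
  obtain ⟨M, hM⟩ := (isCompact_closedBall (0 : E4) r).exists_bound_of_continuousOn hf.continuousOn
  set S := cb r ×ˢ cb r with hS
  have hSc : IsCompact S := (isCompact_closedBall _ _).prod (isCompact_closedBall _ _)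
  have hcs := continuous_slice hkc (tim_pos hσ hs)
  have hct := continuous_slice hkc (tim_pos hσ ht)
  have h1 : ∀ x, conv k f r s x * conv k f r t x
      = ∫ p in S, f p.1 * f p.2 * (k s (x - p.1) * k t (x - p.2)) := fun x => by
    rw [conv, conv, hS, Measure.volume_eq_prod, ← setIntegral_prod_mul]
    refine integral_congr_ae (Filter.Eventually.of_forall fun p => ?_)
    ring
  simp only [h1]
  have hint : Integrable (Function.uncurry fun (x : E4) (p : E4 × E4) =>
      f p.1 * f p.2 * (k s (x - p.1) * k t (x - p.2)))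
      ((volume : Measure E4).prod ((volume : Measure (E4 × E4)).restrict S)) := by
    have : IsFiniteMeasure ((volume : Measure (E4 × E4)).restrict S) :=
      isFiniteMeasure_restrict.2 hSc.measure_lt_top.ne
    have hb := (integrable_prof.const_mul (max M 0 * max M 0 * (C * C))).mul_prod
      (integrable_const (μ := (volume : Measure (E4 × E4)).restrict S) (1 : ℝ))
    refine hb.mono' ?_ ?_
    · exact ((((hf.comp continuous_fst).mul (hf.comp continuous_snd)).comp continuous_snd).mul
        ((hcs.comp (continuous_fst.sub (continuous_fst.comp continuous_snd))).mul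
          (hct.comp (continuous_fst.sub (continuous_snd.comp continuous_snd))))).aestronglyMeasurable
    · refine Measure.quasiMeasurePreserving_snd.ae (ae_restrict_mem hSc.measurableSet) |>.mono ?_
      intro q hq
      have hp1 : |f q.2.1| ≤ max M 0 := le_max_of_le_left (by simpa using hM _ hq.1)
      have hp2 : |f q.2.2| ≤ max M 0 := le_max_of_le_left (by simpa using hM _ hq.2)
      have hP : prof q.1 ≤ 1 := by
        rw [prof]; exact Real.exp_le_one_iff.2 (by nlinarith [sq_nonneg ‖q.1‖])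
      have hP0 : 0 ≤ prof q.1 := (Real.exp_pos _).le
      rw [Function.uncurry, Real.norm_eq_abs, abs_mul, abs_mul, abs_mul, mul_one]
      calc |f q.2.1| * |f q.2.2| * (|k s (q.1 - q.2.1)| * |k t (q.1 - q.2.2)|)
          ≤ max M 0 * max M 0 * ((C * prof q.1) * (C * prof q.1)) := by
            gcongr
            · exact hC s hs _ _ hq.1
            · exact hC t ht _ _ hq.2
        _ = max M 0 * max M 0 * (C * C) * (prof q.1 * prof q.1) := by ring
        _ ≤ max M 0 * max M 0 * (C * C) * prof q.1 :=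
            mul_le_mul_of_nonneg_left (mul_le_of_le_one_left hP0 hP) (by positivity)
  rw [integral_integral_swap hint]
  exact integral_congr_ae (Filter.Eventually.of_forall fun p => integral_const_mul _ _)

/-- squared time integral -/
lemma integral_sq (hf : Continuous f) (hk : Adm σ r k) (hσ : 0 < σ) :
    Integrable (fun x => (∫ s in tim σ, conv k f r s x) ^ 2) ∧
      ∫ x, (∫ s in tim σ, conv k f r s x) ^ 2 =
        ∫ q in tim σ ×ˢ tim σ, ∫ x, conv k f r q.1 x * conv k f r q.2 x := by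
  obtain ⟨C, hC0, hC⟩ := conv_bound hf hk
  have hc := continuousOn_conv hf hk.1 r
  set Q := tim σ ×ˢ tim σ with hQ
  have hQc : IsCompact Q := isCompact_Icc.prod isCompact_Icc
  have hsq : ∀ x, (∫ s in tim σ, conv k f r s x) ^ 2
      = ∫ q in Q, conv k f r q.1 x * conv k f r q.2 x := fun x => by
    rw [pow_two, hQ, Measure.volume_eq_prod,
      setIntegral_prod_mul (fun s => conv k f r s x) (fun t => conv k f r t x)]
  simp only [hsq]
  have hint : Integrable (Function.uncurry fun (x : E4) (q : ℝ × ℝ) =>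
      conv k f r q.1 x * conv k f r q.2 x)
      ((volume : Measure E4).prod ((volume : Measure (ℝ × ℝ)).restrict Q)) := by
    have : IsFiniteMeasure ((volume : Measure (ℝ × ℝ)).restrict Q) :=
      isFiniteMeasure_restrict.2 hQc.measure_lt_top.ne
    have hb := (integrable_prof.const_mul (C * C)).mul_prod
      (integrable_const (μ := (volume : Measure (ℝ × ℝ)).restrict Q) (1 : ℝ))
    refine hb.mono' ?_ ?_
    · rw [show (volume : Measure E4).prod ((volume : Measure (ℝ × ℝ)).restrict Q)
          = ((volume : Measure E4).prod (volume : Measure (ℝ × ℝ))).restrict (univ ×ˢ Q) by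
        rw [← Measure.prod_restrict, Measure.restrict_univ]]
      refine ContinuousOn.aestronglyMeasurable ?_ (MeasurableSet.univ.prod hQc.measurableSet)
      exact (hc.comp ((continuous_fst.comp continuous_snd).prodMk continuous_fst).continuousOn
        fun q hq => ⟨tim_pos hσ hq.2.1, trivial⟩).mul
        (hc.comp ((continuous_snd.comp continuous_snd).prodMk continuous_fst).continuousOn
        fun q hq => ⟨tim_pos hσ hq.2.2, trivial⟩)
    · refine Measure.quasiMeasurePreserving_snd.ae (ae_restrict_mem hQc.measurableSet) |>.mono ?_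
      intro q hq
      have hP : prof q.1 ≤ 1 := by
        rw [prof]; exact Real.exp_le_one_iff.2 (by nlinarith [sq_nonneg ‖q.1‖])
      have hP0 : 0 ≤ prof q.1 := (Real.exp_pos _).le
      rw [Function.uncurry, Real.norm_eq_abs, abs_mul, mul_one]
      calc |conv k f r q.2.1 q.1| * |conv k f r q.2.2 q.1|
          ≤ (C * prof q.1) * (C * prof q.1) := by
            gcongr
            · exact hC _ hq.1 _
            · exact hC _ hq.2 _
        _ = C * C * (prof q.1 * prof q.1) := by ring
        _ ≤ _ := mul_le_mul_of_nonneg_left (mul_le_of_le_one_left hP0 hP) (by positivity)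
  exact ⟨hint.integral_prod_left, integral_integral_swap hint⟩

lemma setIntegral_gauss_le {u : ℝ} (hu : 0 < u) (hf : Continuous f) :
    pairing gauss f r u ≤ ∫ y in cb r, f y ^ 2 := by
  set S := cb r
  have hSS : IsCompact (S ×ˢ S) := (isCompact_closedBall _ _).prod (isCompact_closedBall _ _)
  have hg : Continuous fun p : E4 × E4 => gauss u (p.1 - p.2) :=
    continuous_gauss.comp (continuous_fst.sub continuous_snd)
  have hi : ∀ h : E4 × E4 → ℝ, Continuous h → IntegrableOn h (S ×ˢ S) := fun h hh =>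
    hh.continuousOn.integrableOn_compact hSS
  have h1 : Continuous fun p : E4 × E4 => f p.1 ^ 2 * gauss u (p.1 - p.2) :=
    ((hf.comp continuous_fst).pow 2).mul hg
  have h2 : Continuous fun p : E4 × E4 => f p.2 ^ 2 * gauss u (p.1 - p.2) :=
    ((hf.comp continuous_snd).pow 2).mul hg
  have hle : pairing gauss f r u ≤ ∫ p in S ×ˢ S,
      ((f p.1 ^ 2 * gauss u (p.1 - p.2)) / 2 + (f p.2 ^ 2 * gauss u (p.1 - p.2)) / 2) := by
    refine setIntegral_mono_on (hi _ (((hf.comp continuous_fst).mul (hf.comp continuous_snd)).mul hg))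
      (hi _ ((h1.div_const 2).add (h2.div_const 2))) hSS.measurableSet fun p _ => ?_
    nlinarith [mul_nonneg (sq_nonneg (f p.1 - f p.2)) (gauss_nonneg u (p.1 - p.2))]
  have hone : ∀ y : E4, (∫ z in S, gauss u (y - z)) ≤ 1 ∧ (∫ z in S, gauss u (z - y)) ≤ 1 :=
    fun y => by
      constructor
      · refine (setIntegral_le_integral ((integrable_gauss hu).comp_sub_left y)
          (Filter.Eventually.of_forall fun z => gauss_nonneg _ _)).trans ?_
        rw [integral_sub_left_eq_self (gauss u) volume y, integral_gauss hu]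
      · refine (setIntegral_le_integral ((integrable_gauss hu).comp_sub_right y)
          (Filter.Eventually.of_forall fun z => gauss_nonneg _ _)).trans ?_
        rw [integral_sub_right_eq_self (gauss u) y, integral_gauss hu]
  have hsq : IntegrableOn (fun y => f y ^ 2) S :=
    (hf.pow 2).continuousOn.integrableOn_compact (isCompact_closedBall _ _)
  have hcgl : Continuous fun y => ∫ z in S, gauss u (y - z) :=
    continuous_parametric_integral_of_continuous hg (isCompact_closedBall _ _)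
  have hcgr : Continuous fun y => ∫ z in S, gauss u (z - y) :=
    continuous_parametric_integral_of_continuous (f := fun y z => gauss u (z - y))
      (continuous_gauss.comp (continuous_snd.sub continuous_fst)) (isCompact_closedBall _ _)
  have hA : ∫ p in S ×ˢ S, f p.1 ^ 2 * gauss u (p.1 - p.2) ≤ ∫ y in S, f y ^ 2 := by
    rw [Measure.volume_eq_prod, setIntegral_prod _ (hi _ h1)]
    refine setIntegral_mono_on ?_ hsq measurableSet_closedBall fun y _ => ?_
    · simp only [integral_const_mul]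
      exact ((hf.pow 2).mul hcgl).continuousOn.integrableOn_compact (isCompact_closedBall _ _)
    · simp only [integral_const_mul]
      exact mul_le_of_le_one_right (sq_nonneg _) (hone y).1
  have hB : ∫ p in S ×ˢ S, f p.2 ^ 2 * gauss u (p.1 - p.2) ≤ ∫ y in S, f y ^ 2 := by
    have hsw : Integrable (fun p : E4 × E4 => f p.2 ^ 2 * gauss u (p.1 - p.2))
        ((volume.restrict S).prod (volume.restrict S)) := by
      rw [Measure.prod_restrict]; exact hi _ h2
    rw [Measure.volume_eq_prod, ← Measure.prod_restrict, integral_prod_symm _ hsw]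
    refine setIntegral_mono_on ?_ hsq measurableSet_closedBall fun y _ => ?_
    · simp only [integral_const_mul]
      exact ((hf.pow 2).mul hcgr).continuousOn.integrableOn_compact (isCompact_closedBall _ _)
    · simp only [integral_const_mul]
      exact mul_le_of_le_one_right (sq_nonneg _) (hone y).2
  refine hle.trans ?_
  rw [integral_add (hi _ (h1.div_const 2)) (hi _ (h2.div_const 2)), integral_div, integral_div]
  linarith

lemma hasDerivAt_gauss_time {u : ℝ} (hu : 0 < u) (z : E4) :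
    HasDerivAt (fun u => gauss u z) (-(2 * u) * ∑ i, eker i u z) u := by
  have hs : ∑ i, eker i u z = (2 / u ^ 2 - ‖z‖ ^ 2 / (4 * u ^ 4)) * gauss u z := by
    simp only [eker, EuclideanSpace.real_norm_sq_eq, Fin.sum_univ_four]
    ring
  have h := (((hasDerivAt_const u (-‖z‖ ^ 2)).fun_div
    (((hasDerivAt_id u).fun_pow 2).const_mul (4 : ℝ)) (by simp; positivity)).exp.fun_div
    (((hasDerivAt_id u).fun_pow 4).const_mul (16 * Real.pi ^ 2)) (by simp; positivity))
  rw [hs]
  refine h.congr_deriv ?_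
  simp only [id_eq, gauss]
  field_simp
  ring

lemma hasDerivAt_pairing (hf : Continuous f) {u : ℝ} (hu : 0 < u) :
    HasDerivAt (fun u => pairing gauss f r u)
      (-(2 * u) * ∑ i, pairing (eker i) f r u) u := by
  set S := cb r ×ˢ cb r
  have hSc : IsCompact S := (isCompact_closedBall _ _).prod (isCompact_closedBall _ _)
  have : IsFiniteMeasure ((volume : Measure (E4 × E4)).restrict S) :=
    isFiniteMeasure_restrict.2 hSc.measure_lt_top.ne
  have hff : Continuous fun p : E4 × E4 => f p.1 * f p.2 :=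
    (hf.comp continuous_fst).mul (hf.comp continuous_snd)
  have hd : ContinuousOn (fun q : ℝ × (E4 × E4) =>
      f q.2.1 * f q.2.2 * (-(2 * q.1) * ∑ i, eker i q.1 (q.2.1 - q.2.2))) (Ioi 0 ×ˢ univ) := by
    have h1 : Continuous fun q : ℝ × (E4 × E4) => f q.2.1 * f q.2.2 := hff.comp continuous_snd
    have h2 : Continuous fun q : ℝ × (E4 × E4) => -(2 * q.1) := by fun_prop
    have h3 : ContinuousOn (fun q : ℝ × (E4 × E4) => ∑ i, eker i q.1 (q.2.1 - q.2.2))
        (Ioi 0 ×ˢ univ) :=
      continuousOn_finsetSum _ fun i _ => continuousOn_diff (k := eker i) (continuousOn_eker i)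
    exact h1.continuousOn.mul (h2.continuousOn.mul h3)
  obtain ⟨C, hC⟩ := ((isCompact_Icc (a := u / 2) (b := 2 * u)).prod hSc).exists_bound_of_continuousOn
    (hd.mono fun q hq => ⟨show (0 : ℝ) < q.1 by linarith [hq.1.1], trivial⟩)
  have hcp : ∀ v, Continuous fun p : E4 × E4 => f p.1 * f p.2 * gauss v (p.1 - p.2) := fun v =>
    hff.mul (continuous_gauss.comp (continuous_fst.sub continuous_snd))
  have hcd : Continuous fun p : E4 × E4 =>
      f p.1 * f p.2 * (-(2 * u) * ∑ i, eker i u (p.1 - p.2)) :=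
    hd.comp_continuous (continuous_const.prodMk continuous_id) fun _ => ⟨hu, trivial⟩
  have h := (hasDerivAt_integral_of_dominated_loc_of_deriv_le (𝕜 := ℝ) (bound := fun _ => C)
    (μ := (volume : Measure (E4 × E4)).restrict S)
    (F := fun v p => f p.1 * f p.2 * gauss v (p.1 - p.2))
    (F' := fun v p => f p.1 * f p.2 * (-(2 * v) * ∑ i, eker i v (p.1 - p.2)))
    (Icc_mem_nhds (by linarith : u / 2 < u) (by linarith : u < 2 * u))
    (Filter.Eventually.of_forall fun v => (hcp v).aestronglyMeasurable)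
    ((hcp u).continuousOn.integrableOn_compact hSc) hcd.aestronglyMeasurable
    (ae_restrict_of_forall_mem hSc.measurableSet fun p hp v hv => hC (v, p) ⟨hv, hp⟩)
    (integrable_const C)
    (Filter.Eventually.of_forall fun p v hv =>
      (hasDerivAt_gauss_time (by linarith [hv.1]) _).const_mul _)).2
  refine h.congr_deriv ?_
  simp only [pairing]
  rw [← integral_finsetSum _ fun i _ => ?_, ← integral_const_mul]
  · refine integral_congr_ae (Filter.Eventually.of_forall fun p => ?_)
    simp only [Finset.mul_sum]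
    exact Finset.sum_congr rfl fun i _ => by ring
  · exact (hff.mul ((continuous_slice (continuousOn_eker i) hu).comp
      (continuous_fst.sub continuous_snd))).continuousOn.integrableOn_compact hSc

lemma continuousOn_pairing (hf : Continuous f) (i : Fin 4) :
    ContinuousOn (fun u => pairing (eker i) f r u) (Ioi 0) := by
  set S := cb r ×ˢ cb r
  have hSc : IsCompact S := (isCompact_closedBall _ _).prod (isCompact_closedBall _ _)
  have hd : ContinuousOn (fun q : ℝ × (E4 × E4) =>
      f q.2.1 * f q.2.2 * eker i q.1 (q.2.1 - q.2.2)) (Ioi 0 ×ˢ univ) :=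
    (show Continuous fun q : ℝ × (E4 × E4) => f q.2.1 * f q.2.2 by fun_prop).continuousOn.mul
      (continuousOn_diff (k := eker i) (continuousOn_eker i))
  rw [isOpen_Ioi.continuousOn_iff]
  intro u hu
  have hu0 : (0 : ℝ) < u := hu
  obtain ⟨C, hC⟩ := ((isCompact_Icc (a := u / 2) (b := 2 * u)).prod hSc).exists_bound_of_continuousOn
    (hd.mono fun q hq => ⟨show (0 : ℝ) < q.1 by linarith [hq.1.1], trivial⟩)
  have : IsFiniteMeasure ((volume : Measure (E4 × E4)).restrict S) :=
    isFiniteMeasure_restrict.2 hSc.measure_lt_top.ne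
  have hn : Icc (u / 2) (2 * u) ∈ nhds u := Icc_mem_nhds (by linarith) (by linarith)
  refine continuousAt_of_dominated (bound := fun _ => C)
    (μ := (volume : Measure (E4 × E4)).restrict S) ?_ ?_ (integrable_const C)
    (Filter.Eventually.of_forall fun p => ?_)
  · filter_upwards [hn] with v hv
    exact (hd.comp_continuous (continuous_const.prodMk continuous_id)
      fun _ => ⟨show (0 : ℝ) < v by linarith [hv.1], trivial⟩).aestronglyMeasurable
  · filter_upwards [hn] with v hv
    exact ae_restrict_of_forall_mem hSc.measurableSet fun p hp => hC (v, p) ⟨hv, hp⟩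
  · exact (hd.continuousAt ((isOpen_Ioi.prod isOpen_univ).mem_nhds ⟨hu, trivial⟩)).comp
      (continuousAt_id.prodMk continuousAt_const)

/-- radial bound for a nonnegative function of `√(s² + t²)` on a square -/
lemma integral_square_le {E : ℝ → ℝ} {a : ℝ} (ha : 0 < a)
    (hE : ContinuousOn E (Ioi 0))
    (hE0 : ∀ u ∈ Icc (Real.sqrt 2 * a) (Real.sqrt 2 * 32), 0 ≤ E u) :
    ∫ q in tim a ×ˢ tim a, E (Real.sqrt (q.1 ^ 2 + q.2 ^ 2))
      ≤ 2 * Real.pi * ∫ u in Icc (Real.sqrt 2 * a) (Real.sqrt 2 * 32), u * E u := by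
  set A := Real.sqrt 2 * a with hA
  set B := Real.sqrt 2 * 32 with hB
  have hA0 : 0 < A := by positivity
  set F : ℝ → ℝ := (Icc A B).indicator E with hF
  set K := {q : ℝ × ℝ | Real.sqrt (q.1 ^ 2 + q.2 ^ 2) ∈ Icc A B} with hK
  have hKc : IsCompact K := by
    refine IsCompact.of_isClosed_subset (isCompact_Icc (a := ((-B, -B) : ℝ × ℝ)) (b := (B, B)))
      (isClosed_Icc.preimage (by fun_prop)) fun q hq => ?_
    have h2 : Real.sqrt (q.1 ^ 2 + q.2 ^ 2) ≤ B := hq.2
    have h3 : |q.1| ≤ B := (Real.abs_le_sqrt (le_add_of_nonneg_right (sq_nonneg _))).trans h2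
    have h4 : |q.2| ≤ B := (Real.abs_le_sqrt (le_add_of_nonneg_left (sq_nonneg _))).trans h2
    exact ⟨⟨(abs_le.1 h3).1, (abs_le.1 h4).1⟩, ⟨(abs_le.1 h3).2, (abs_le.1 h4).2⟩⟩
  have hFe : (fun q : ℝ × ℝ => F (Real.sqrt (q.1 ^ 2 + q.2 ^ 2)))
      = K.indicator fun q => E (Real.sqrt (q.1 ^ 2 + q.2 ^ 2)) := by
    funext q; simp only [hF, hK, indicator, mem_ofPred_eq]; congr
  have hint : Integrable fun q : ℝ × ℝ => F (Real.sqrt (q.1 ^ 2 + q.2 ^ 2)) := by
    rw [hFe, integrable_indicator_iff hKc.measurableSet]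
    exact (hE.comp (by fun_prop : Continuous fun q : ℝ × ℝ =>
      Real.sqrt (q.1 ^ 2 + q.2 ^ 2)).continuousOn fun q hq => hA0.trans_le hq.1).integrableOn_compact hKc
  have hF0 : ∀ u, 0 ≤ F u := fun u => indicator_nonneg (fun u hu => hE0 u hu) u
  have hin : ∀ q ∈ tim a ×ˢ tim a, Real.sqrt (q.1 ^ 2 + q.2 ^ 2) ∈ Icc A B := by
    rintro q ⟨⟨h1, h2⟩, ⟨h3, h4⟩⟩
    constructor
    · rw [hA, ← Real.sqrt_sq ha.le, ← Real.sqrt_mul (by norm_num)]
      apply Real.sqrt_le_sqrt
      nlinarith [pow_le_pow_left₀ ha.le h1 2, pow_le_pow_left₀ ha.le h3 2]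
    · rw [hB, show Real.sqrt 2 * 32 = Real.sqrt (2 * 32 ^ 2) by
        rw [Real.sqrt_mul (by norm_num), Real.sqrt_sq (by norm_num)]]
      apply Real.sqrt_le_sqrt
      nlinarith [pow_le_pow_left₀ (ha.le.trans h1) h2 2, pow_le_pow_left₀ (ha.le.trans h3) h4 2]
  calc ∫ q in tim a ×ˢ tim a, E (Real.sqrt (q.1 ^ 2 + q.2 ^ 2))
      = ∫ q in tim a ×ˢ tim a, F (Real.sqrt (q.1 ^ 2 + q.2 ^ 2)) :=
        setIntegral_congr_fun (measurableSet_Icc.prod measurableSet_Icc) fun q hq => by
          simp only [hF, indicator_of_mem (hin q hq)]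
    _ ≤ ∫ q : ℝ × ℝ, F (Real.sqrt (q.1 ^ 2 + q.2 ^ 2)) :=
        setIntegral_le_integral hint (Filter.Eventually.of_forall fun q => hF0 _)
    _ = ∫ p in Ioi (0 : ℝ) ×ˢ Ioo (-Real.pi) Real.pi, (p.1 * F p.1) * 1 := by
        rw [← integral_comp_polarCoord_symm, polarCoord_target]
        refine setIntegral_congr_fun (measurableSet_Ioi.prod measurableSet_Ioo) fun p hp => ?_
        have h : Real.sqrt ((p.1 * Real.cos p.2) ^ 2 + (p.1 * Real.sin p.2) ^ 2) = p.1 := by
          rw [show (p.1 * Real.cos p.2) ^ 2 + (p.1 * Real.sin p.2) ^ 2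
              = p.1 ^ 2 * (Real.cos p.2 ^ 2 + Real.sin p.2 ^ 2) by ring,
            Real.cos_sq_add_sin_sq, mul_one, Real.sqrt_sq (le_of_lt hp.1)]
        simp only [polarCoord_symm_apply, h, smul_eq_mul, mul_one]
    _ = (∫ u in Ioi (0 : ℝ), u * F u) * (2 * Real.pi) := by
        rw [Measure.volume_eq_prod,
          setIntegral_prod_mul (fun u => u * F u) (fun _ : ℝ => (1 : ℝ)), setIntegral_const,
          smul_eq_mul, mul_one, Real.volume_real_Ioo_of_le (by linarith [Real.pi_pos])]
        ring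
    _ = 2 * Real.pi * ∫ u in Icc A B, u * E u := by
        rw [mul_comm (∫ u in Ioi (0 : ℝ), u * F u)]
        congr 1
        have he : (fun u => u * F u) = (Icc A B).indicator fun u => u * E u := by
          funext u; simp only [hF, indicator_apply]; split_ifs <;> simp
        rw [he, setIntegral_indicator measurableSet_Icc,
          inter_eq_self_of_subset_right (s := Ioi (0 : ℝ)) (t := Icc A B)
            fun u hu => hA0.trans_le hu.1]

lemma pairing_eker (hf : Continuous f) (hσ : 0 < σ) {u : ℝ}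
    (hu : u ∈ Icc (Real.sqrt 2 * σ) (Real.sqrt 2 * 32)) (i : Fin 4) :
    0 ≤ pairing (eker i) f r u := by
  set s := u / Real.sqrt 2 with hs
  have h20 : 0 < Real.sqrt 2 := by positivity
  have hst : s ∈ tim σ := by
    constructor
    · rw [hs, le_div_iff₀ h20, mul_comm]; exact hu.1
    · rw [hs, div_le_iff₀ h20, mul_comm]; exact hu.2
  have hu0 : 0 < u := lt_of_lt_of_le (mul_pos h20 hσ) hu.1
  have hu2 : Real.sqrt (s ^ 2 + s ^ 2) = u := by
    rw [hs, div_pow, Real.sq_sqrt (by norm_num), ← two_mul, mul_div_cancel₀ _ (by norm_num),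
      Real.sqrt_sq hu0.le]
  have h2 : pairing (eker i) f r u = ∫ p in cb r ×ˢ cb r,
      f p.1 * f p.2 * ∫ x, dgauss i s (x - p.1) * dgauss i s (x - p.2) := by
    simp only [pairing, integral_dgauss_dgauss (tim_pos hσ hst) (tim_pos hσ hst), hu2]
  rw [h2, ← integral_conv_mul hf (adm_dgauss hσ r i) hσ hst hst]
  exact integral_nonneg fun x => mul_self_nonneg _

lemma pot3_eq {x : E4} (hσ1 : σ ≤ 1)
    (hr : ∀ y, y ∉ cb r → f y = 0) :
    pot3 σ 32 f x = ∫ s in tim σ, conv gauss f r s x := by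
  rw [pot3, intervalIntegral.integral_of_le (by linarith), ← integral_Icc_eq_integral_Ioc]
  refine setIntegral_congr_fun measurableSet_Icc fun s _ => ?_
  simp only [gconv, conv]
  rw [setIntegral_eq_integral_of_forall_compl_eq_zero fun y hy => by simp [hr y hy]]
  exact integral_congr_ae (Filter.Eventually.of_forall fun y => mul_comm _ _)

lemma time_space_integral {g : ℝ × E4 → ℝ} (hg : ContinuousOn g (tim σ ×ˢ cb r)) :
    ∫ p in tim σ ×ˢ cb r, g p = ∫ s in tim σ, ∫ y in cb r, g (s, y) := by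
  have hK : IsCompact (tim σ ×ˢ cb r) := isCompact_Icc.prod (isCompact_closedBall _ _)
  have hi : IntegrableOn g (tim σ ×ˢ cb r) (volume : Measure (ℝ × E4)) :=
    hg.integrableOn_compact hK
  rw [Measure.volume_eq_prod] at hi ⊢
  exact setIntegral_prod g hi

lemma contDiff_param {Φ : E4 → ℝ × E4 → ℝ} {Φ' : E4 → ℝ × E4 → E4 →L[ℝ] ℝ} {K : Set (ℝ × E4)}
    (hK : IsCompact K) (hc : ∀ x, ContinuousOn (Φ x) K)
    (hc' : ContinuousOn (fun q : E4 × (ℝ × E4) => Φ' q.1 q.2) (univ ×ˢ K))
    (hd : ∀ p x, HasFDerivAt (fun x => Φ x p) (Φ' x p) x) :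
    ContDiff ℝ 1 (fun x => ∫ p in K, Φ x p) ∧
      ∀ x v, fderiv ℝ (fun x => ∫ p in K, Φ x p) x v = ∫ p in K, Φ' x p v := by
  have : IsFiniteMeasure ((volume : Measure (ℝ × E4)).restrict K) :=
    isFiniteMeasure_restrict.2 hK.measure_lt_top.ne
  have hs' : ∀ x, ContinuousOn (fun p => Φ' x p) K := fun x =>
    ContinuousOn.comp (g := fun q : E4 × (ℝ × E4) => Φ' q.1 q.2)
      (f := fun p : ℝ × E4 => ((x, p) : E4 × (ℝ × E4))) hc'
      (continuous_const.prodMk continuous_id).continuousOn fun p hp => ⟨trivial, hp⟩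
  have h1 : ∀ x, HasFDerivAt (fun x => ∫ p in K, Φ x p) (∫ p in K, Φ' x p) x := fun x => by
    obtain ⟨C, hC⟩ := ((isCompact_closedBall x 1).prod hK).exists_bound_of_continuousOn
      (hc'.mono fun q hq => ⟨trivial, hq.2⟩)
    exact hasFDerivAt_integral_of_dominated_of_fderiv_le (𝕜 := ℝ)
      (μ := (volume : Measure (ℝ × E4)).restrict K) (bound := fun _ => C)
      (closedBall_mem_nhds x one_pos)
      (Filter.Eventually.of_forall fun y => (hc y).aestronglyMeasurable hK.measurableSet)
      ((hc x).integrableOn_compact hK) ((hs' x).aestronglyMeasurable hK.measurableSet)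
      (ae_restrict_of_forall_mem hK.measurableSet fun p hp y hy => hC (y, p) ⟨hy, hp⟩)
      (integrable_const C) (Filter.Eventually.of_forall fun p y _ => hd p y)
  have hC0 : Continuous fun x => ∫ p in K, Φ' x p := by
    refine continuous_iff_continuousAt.2 fun x => ?_
    obtain ⟨C, hC⟩ := ((isCompact_closedBall x 1).prod hK).exists_bound_of_continuousOn
      (hc'.mono fun q hq => ⟨trivial, hq.2⟩)
    refine continuousAt_of_dominated (bound := fun _ => C)
      (μ := (volume : Measure (ℝ × E4)).restrict K)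
      (Filter.Eventually.of_forall fun y => (hs' y).aestronglyMeasurable hK.measurableSet)
      ?_ (integrable_const C)
      (ae_restrict_of_forall_mem hK.measurableSet fun p hp => ?_)
    · filter_upwards [closedBall_mem_nhds x one_pos] with y hy
      exact ae_restrict_of_forall_mem hK.measurableSet fun p hp => hC (y, p) ⟨hy, hp⟩
    · exact ((hc'.comp (continuous_id.prodMk continuous_const).continuousOn
        fun y _ => ⟨trivial, hp⟩).continuousAt (Filter.univ_mem : (univ : Set E4) ∈ nhds x))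
  have hfd : fderiv ℝ (fun x => ∫ p in K, Φ x p) = fun x => ∫ p in K, Φ' x p :=
    funext fun x => (h1 x).fderiv
  refine ⟨contDiff_one_iff_fderiv.2 ⟨fun x => (h1 x).differentiableAt, by rw [hfd]; exact hC0⟩,
    fun x v => ?_⟩
  rw [hfd]
  exact ContinuousLinearMap.integral_apply ((hs' x).integrableOn_compact hK) v

/-- the space derivative of the integrand -/
noncomputable def dint (f : E4 → ℝ) (x : E4) (p : ℝ × E4) : E4 →L[ℝ] ℝ :=
  ∑ i, (f p.2 * dgauss i p.1 (x - p.2)) • EuclideanSpace.proj (𝕜 := ℝ) i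

lemma hasFDerivAt_dint (p : ℝ × E4) (x : E4) :
    HasFDerivAt (fun x => f p.2 * gauss p.1 (x - p.2)) (dint f x p) x := by
  obtain ⟨G, hG, hG'⟩ := hasFDerivAt_gauss p.1 (x - p.2)
  have h1 : HasFDerivAt (fun x => f p.2 * gauss p.1 (x - p.2)) _ x :=
    (HasFDerivAt.comp (g := gauss p.1) (f := fun x : E4 => x - p.2) x hG
      ((hasFDerivAt_id x).sub_const p.2)).const_mul (f p.2)
  refine h1.congr_fderiv ?_
  ext v
  simp only [dint, sum_apply, smul_apply, smul_eq_mul, ContinuousLinearMap.comp_apply,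
    ContinuousLinearMap.id_apply]
  conv_lhs => rw [← Op.sum_ev4 v, map_sum]
  simp only [map_smul, hG', smul_eq_mul, Finset.mul_sum]
  exact Finset.sum_congr rfl fun i _ => by simp; ring

lemma continuousOn_dint (hf : Continuous f) (hσ : 0 < σ) :
    ContinuousOn (fun q : E4 × (ℝ × E4) => dint f q.1 q.2) (univ ×ˢ (tim σ ×ˢ cb r)) := by
  refine continuousOn_finsetSum _ fun i _ => ContinuousOn.smul
    (f := fun q : E4 × (ℝ × E4) => f q.2.2 * dgauss i q.2.1 (q.1 - q.2.2))
    (g := fun _ => EuclideanSpace.proj (𝕜 := ℝ) i) ?_ continuousOn_const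
  exact (show Continuous fun q : E4 × (ℝ × E4) => f q.2.2 by fun_prop).continuousOn.mul
    (continuousOn_arg (k := dgauss i) (continuousOn_dgauss i) (by fun_prop) (by fun_prop)
      fun q hq => tim_pos hσ hq.2.1)

lemma deriv_pot (hf : Continuous f) (hσ : 0 < σ) :
    ContDiff ℝ 1 (fun x => ∫ s in tim σ, conv gauss f r s x) ∧
      ∀ x i, pd (fun x => ∫ s in tim σ, conv gauss f r s x) i x
        = ∫ s in tim σ, conv (dgauss i) f r s x := by
  have hs : ∀ x, ContinuousOn (fun p : ℝ × E4 => f p.2 * gauss p.1 (x - p.2)) (tim σ ×ˢ cb r) :=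
    fun x => (hf.comp continuous_snd).continuousOn.mul (continuousOn_arg (k := gauss)
      continuousOn_gauss continuous_fst (continuous_const.sub continuous_snd)
      fun p hp => tim_pos hσ hp.1)
  have hsd : ∀ x i, ContinuousOn (fun p : ℝ × E4 => f p.2 * dgauss i p.1 (x - p.2))
      (tim σ ×ˢ cb r) :=
    fun x i => (hf.comp continuous_snd).continuousOn.mul (continuousOn_arg (k := dgauss i)
      (continuousOn_dgauss i) continuous_fst (continuous_const.sub continuous_snd)
      fun p hp => tim_pos hσ hp.1)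
  obtain ⟨h1, h2⟩ := contDiff_param (K := tim σ ×ˢ cb r) (Φ := fun x p => f p.2 * gauss p.1 (x - p.2)) (Φ' := dint f)
    (isCompact_Icc.prod (isCompact_closedBall _ _)) hs (continuousOn_dint hf hσ) hasFDerivAt_dint
  have hW : (fun x => ∫ s in tim σ, conv gauss f r s x)
      = fun x => ∫ p in tim σ ×ˢ cb r, f p.2 * gauss p.1 (x - p.2) :=
    funext fun x => (time_space_integral (hs x)).symm
  rw [hW]
  refine ⟨h1, fun x i => ?_⟩
  have he : ∀ p, dint f x p (ev4 i) = f p.2 * dgauss i p.1 (x - p.2) := fun p => by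
    simp [dint, ev4]
  rw [pd]
  rw [h2 x (ev4 i)]
  simp only [he]
  exact time_space_integral (hsd x i)

lemma kernel_lower :
    ∃ C, 0 < C ∧ ∀ σ : ℝ, 0 < σ → σ ≤ 1 → ∀ z : E4, ‖z‖ ≤ 8 →
      (Real.sqrt (‖z‖ ^ 2 + σ ^ 2) ^ 3)⁻¹ ≤ C * ∫ s in tim σ, gauss s z := by
  refine ⟨256 * Real.pi ^ 2 * Real.exp (1 / 4), by positivity, fun σ hσ hσ1 z hz => ?_⟩
  set D := Real.sqrt (‖z‖ ^ 2 + σ ^ 2) with hD
  have hD0 : 0 < D := Real.sqrt_pos.2 (by positivity)
  have hσD : σ ≤ D := Real.le_sqrt_of_sq_le (le_add_of_nonneg_left (sq_nonneg _))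
  have hzD : ‖z‖ ≤ D := Real.le_sqrt_of_sq_le (le_add_of_nonneg_right (sq_nonneg σ))
  have hD16 : 2 * D ≤ 32 := by
    have : D ≤ ‖z‖ + σ := by
      rw [hD, Real.sqrt_le_left (by positivity)]; nlinarith [norm_nonneg z]
    linarith
  have hgi : ContinuousOn (fun s => gauss s z) (tim σ) :=
    continuousOn_arg (k := gauss) continuousOn_gauss continuous_id continuous_const
      fun s hs => tim_pos hσ hs
  have hsub : Icc D (2 * D) ⊆ tim σ := fun s hs => ⟨hσD.trans hs.1, hs.2.trans hD16⟩
  set c := Real.exp (-(1 / 4)) / (16 * Real.pi ^ 2 * (2 * D) ^ 4) with hc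
  have hlow : ∀ s ∈ Icc D (2 * D), c ≤ gauss s z := fun s hs => by
    have hs0 : 0 < s := hD0.trans_le hs.1
    rw [hc, gauss, neg_div]
    refine div_le_div₀ (Real.exp_pos _).le (Real.exp_le_exp.2 (neg_le_neg ?_)) (by positivity) ?_
    · rw [div_le_div_iff₀ (by positivity) (by norm_num)]
      nlinarith [pow_le_pow_left₀ (norm_nonneg z) (hzD.trans hs.1) 2]
    · exact mul_le_mul_of_nonneg_left (pow_le_pow_left₀ hs0.le hs.2 4) (by positivity)
  calc (D ^ 3)⁻¹ = 256 * Real.pi ^ 2 * Real.exp (1 / 4) * ∫ _s in Icc D (2 * D), c := by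
        rw [setIntegral_const, Real.volume_real_Icc_of_le (by linarith), smul_eq_mul, hc,
          Real.exp_neg]
        field_simp
        ring
    _ ≤ 256 * Real.pi ^ 2 * Real.exp (1 / 4) * ∫ s in tim σ, gauss s z := by
        refine mul_le_mul_of_nonneg_left ?_ (by positivity)
        exact (setIntegral_mono_on (integrableOn_const measure_Icc_lt_top.ne)
          ((hgi.integrableOn_compact isCompact_Icc).mono_set hsub) measurableSet_Icc hlow).trans
          (setIntegral_mono_set (hgi.integrableOn_compact isCompact_Icc)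
            (Filter.Eventually.of_forall fun s => gauss_nonneg s z) hsub.eventuallyLE)

lemma sing3_le {C : ℝ} (hC0 : 0 < C) (hC : ∀ z : E4, ‖z‖ ≤ 8 →
    (Real.sqrt (‖z‖ ^ 2 + σ ^ 2) ^ 3)⁻¹ ≤ C * ∫ s in tim σ, gauss s z)
    (hσ : 0 < σ) (hf : Continuous f) (hf0 : ∀ y, 0 ≤ f y) (hr4 : 4 ≤ r) {x : E4} (hx : x ∈ cb 4) :
    sing3 4 σ f x ≤ C * ∫ s in tim σ, conv gauss f r s x := by
  have hc : ContinuousOn (fun q : ℝ × E4 => f q.2 * gauss q.1 (x - q.2)) (tim σ ×ˢ cb r) :=
    (hf.comp continuous_snd).continuousOn.mul (continuousOn_arg (k := gauss) continuousOn_gauss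
      continuous_fst (continuous_const.sub continuous_snd) fun q hq => tim_pos hσ hq.1)
  have hi : Integrable (fun q : ℝ × E4 => f q.2 * gauss q.1 (x - q.2))
      ((volume.restrict (tim σ)).prod (volume.restrict (cb r))) := by
    rw [Measure.prod_restrict]
    exact hc.integrableOn_compact (isCompact_Icc.prod (isCompact_closedBall _ _))
  simp only [conv]
  rw [integral_integral_swap (f := fun s y => f y * gauss s (x - y)) hi, ← integral_const_mul]
  have hi2 : IntegrableOn (fun y => C * ∫ s in tim σ, f y * gauss s (x - y)) (cb r) :=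
    hi.integral_prod_right.const_mul C
  refine le_trans ?_ (setIntegral_mono_set hi2 (Filter.Eventually.of_forall fun y => ?_)
    (closedBall_subset_closedBall hr4).eventuallyLE)
  · refine setIntegral_mono_on ?_ (hi2.mono_set (closedBall_subset_closedBall hr4))
      measurableSet_closedBall fun y hy => ?_
    · exact (hf.div (show Continuous fun y : E4 => Real.sqrt (‖x - y‖ ^ 2 + σ ^ 2) ^ 3 by fun_prop)
        fun y => (pow_pos (Real.sqrt_pos.2 (by positivity)) 3).ne').continuousOn.integrableOn_compact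
        (isCompact_closedBall _ _)
    · rw [mem_closedBall, dist_zero_right] at hy hx
      simp only [integral_const_mul]
      rw [div_eq_mul_inv]
      calc f y * (Real.sqrt (‖x - y‖ ^ 2 + σ ^ 2) ^ 3)⁻¹
          ≤ f y * (C * ∫ s in tim σ, gauss s (x - y)) :=
            mul_le_mul_of_nonneg_left (hC _ ((norm_sub_le x y).trans (by linarith))) (hf0 y)
        _ = _ := by ring
  · exact mul_nonneg hC0.le (setIntegral_nonneg measurableSet_Icc fun s _ =>
      mul_nonneg (hf0 y) (gauss_nonneg _ _))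

lemma energy_bounds (hf : Continuous f) (hf0 : ∀ y, 0 ≤ f y) (hσ : 0 < σ) (hσ1 : σ ≤ 1) :
    (∫ x, (∫ s in tim σ, conv gauss f r s x) ^ 2) ≤ 1024 * ∫ y in cb r, f y ^ 2 ∧
    (∑ i, ∫ x, (∫ s in tim σ, conv (dgauss i) f r s x) ^ 2)
      ≤ Real.pi * ∫ y in cb r, f y ^ 2 := by
  set N := ∫ y in cb r, f y ^ 2
  have hN : 0 ≤ N := setIntegral_nonneg measurableSet_closedBall fun y _ => sq_nonneg _
  have hP0 : ∀ u, 0 ≤ pairing gauss f r u := fun u =>
    setIntegral_nonneg (measurableSet_closedBall.prod measurableSet_closedBall) fun p _ =>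
      mul_nonneg (mul_nonneg (hf0 _) (hf0 _)) (gauss_nonneg _ _)
  set Q := tim σ ×ˢ tim σ with hQ
  have hQc : IsCompact Q := isCompact_Icc.prod isCompact_Icc
  constructor
  · rw [(integral_sq hf (adm_gauss hσ r) hσ).2]
    have h : ∀ q ∈ Q, ∫ x, conv gauss f r q.1 x * conv gauss f r q.2 x
        = pairing gauss f r (Real.sqrt (q.1 ^ 2 + q.2 ^ 2)) := fun q hq => by
      rw [integral_conv_mul hf (adm_gauss hσ r) hσ hq.1 hq.2]
      simp only [pairing, integral_gauss_gauss (tim_pos hσ hq.1) (tim_pos hσ hq.2)]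
    rw [setIntegral_congr_fun hQc.measurableSet h]
    have h2 := norm_setIntegral_le_of_norm_le_const (C := N) (μ := (volume : Measure (ℝ × ℝ)))
      hQc.measure_lt_top
      (f := fun q : ℝ × ℝ => pairing gauss f r (Real.sqrt (q.1 ^ 2 + q.2 ^ 2))) fun q hq => by
        rw [Real.norm_eq_abs, abs_of_nonneg (hP0 _)]
        have := tim_pos hσ hq.1
        exact setIntegral_gauss_le (Real.sqrt_pos.2 (by positivity)) hf
    rw [Real.norm_eq_abs] at h2
    refine (le_abs_self _).trans (h2.trans ?_)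
    rw [mul_comm 1024 N]
    refine mul_le_mul_of_nonneg_left ?_ hN
    rw [hQ, Measure.volume_eq_prod, measureReal_prod_prod, tim,
      Real.volume_real_Icc_of_le (by linarith)]
    nlinarith
  · have h : ∀ i, ∫ x, (∫ s in tim σ, conv (dgauss i) f r s x) ^ 2
        = ∫ q in Q, pairing (eker i) f r (Real.sqrt (q.1 ^ 2 + q.2 ^ 2)) := fun i => by
      rw [(integral_sq hf (adm_dgauss hσ r i) hσ).2]
      refine setIntegral_congr_fun hQc.measurableSet fun q hq => ?_
      rw [integral_conv_mul hf (adm_dgauss hσ r i) hσ hq.1 hq.2]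
      simp only [pairing, integral_dgauss_dgauss (tim_pos hσ hq.1) (tim_pos hσ hq.2)]
    have hEc : ∀ i, ContinuousOn
        (fun q : ℝ × ℝ => pairing (eker i) f r (Real.sqrt (q.1 ^ 2 + q.2 ^ 2))) Q := fun i =>
      (continuousOn_pairing hf i).comp (Continuous.continuousOn (by fun_prop)) fun q hq => by
        have := tim_pos hσ hq.1
        exact Real.sqrt_pos.2 (by positivity)
    simp only [h]
    rw [← integral_finsetSum _ fun i _ => (hEc i).integrableOn_compact hQc]
    refine (integral_square_le hσ (continuousOn_finsetSum _ fun i _ =>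
      continuousOn_pairing hf i) fun u hu => Finset.sum_nonneg fun i _ =>
      pairing_eker hf hσ hu i).trans ?_
    set A := Real.sqrt 2 * σ
    set B := Real.sqrt 2 * 32
    have hA : 0 < A := by positivity
    have hAB : A ≤ B := mul_le_mul_of_nonneg_left (by linarith) (Real.sqrt_nonneg _)
    have hd : ∀ u ∈ uIcc A B, HasDerivAt (fun u => -(pairing gauss f r u) / 2)
        (u * ∑ i, pairing (eker i) f r u) u := fun u hu => by
      rw [uIcc_of_le hAB] at hu
      refine ((hasDerivAt_pairing hf (hA.trans_le hu.1)).neg.div_const 2).congr_deriv ?_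
      ring
    have hint : IntervalIntegrable (fun u => u * ∑ i, pairing (eker i) f r u) volume A B :=
      (continuousOn_id.mul (continuousOn_finsetSum _ fun i _ => continuousOn_pairing hf i)).mono
        (fun u hu => hA.trans_le hu.1) |>.intervalIntegrable_of_Icc hAB
    rw [integral_Icc_eq_integral_Ioc, ← intervalIntegral.integral_of_le hAB,
      intervalIntegral.integral_eq_sub_of_hasDerivAt hd hint]
    calc 2 * Real.pi * (-(pairing gauss f r B) / 2 - -(pairing gauss f r A) / 2)
        = Real.pi * (pairing gauss f r A - pairing gauss f r B) := by ring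
      _ ≤ _ := mul_le_mul_of_nonneg_left
        ((sub_le_self _ (hP0 B)).trans (setIntegral_gauss_le hA hf)) Real.pi_pos.le

end Weight

open Vale.Agent.P204.Heart.Weight in
/-- proof of the frozen statement `WeightStmt` -/
theorem weightStmt_holds : WeightStmt := by
  obtain ⟨C, hC0, hC⟩ := kernel_lower
  refine ⟨C + 1028, by positivity, fun σ f hσ hσ1 hf hfs hf0 => ?_⟩
  obtain ⟨r0, hr0⟩ := hfs.isCompact.isBounded.subset_closedBall (0 : E4)
  set r := max r0 4 with hr
  have hz : ∀ y, y ∉ cb r → f y = 0 := fun y hy =>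
    image_eq_zero_of_notMem_tsupport fun h => hy
      (closedBall_subset_closedBall (le_max_left _ _) (hr0 h))
  have hW : pot3 σ 32 f = fun x => ∫ s in tim σ, conv gauss f r s x :=
    funext fun x => pot3_eq hσ1 hz
  obtain ⟨hcd, hpd⟩ := deriv_pot (r := r) hf hσ
  rw [hW]
  have hnn : ∀ x, 0 ≤ ∫ s in tim σ, conv gauss f r s x := fun x =>
    setIntegral_nonneg measurableSet_Icc fun s _ =>
      setIntegral_nonneg measurableSet_closedBall fun y _ => mul_nonneg (hf0 y) (gauss_nonneg _ _)
  have hi0 := (integral_sq hf (adm_gauss hσ r) hσ).1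
  have hi1 := fun i => (integral_sq hf (adm_dgauss hσ r i) hσ).1
  have hi2 : Integrable fun x => ∑ i, (∫ s in tim σ, conv (dgauss i) f r s x) ^ 2 :=
    integrable_finsetSum _ fun i _ => hi1 i
  have hsq : ∀ x, Heart.sq (dd (fun x => ∫ s in tim σ, conv gauss f r s x) x)
      = ∑ i, (∫ s in tim σ, conv (dgauss i) f r s x) ^ 2 := fun x => by
    simp only [Heart.sq, dd, hpd]
  refine ⟨hcd, hnn, fun x hx => ?_, ?_, ?_⟩
  · refine (sing3_le (r := r) hC0 (hC σ hσ hσ1) hσ hf hf0 (le_max_right r0 4) hx).trans ?_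
    exact mul_le_mul_of_nonneg_right (by linarith) (hnn x)
  · simp only [hsq]; exact hi0.add hi2
  · simp only [hsq]
    rw [integral_add hi0 hi2, integral_finsetSum _ fun i _ => hi1 i]
    obtain ⟨e1, e2⟩ := energy_bounds (r := r) hf hf0 hσ hσ1
    have hN : ∫ y in cb r, f y ^ 2 = ∫ y, f y ^ 2 :=
      setIntegral_eq_integral_of_forall_compl_eq_zero fun y hy => by simp [hz y hy]
    rw [hN] at e1 e2
    have h0 : 0 ≤ ∫ y, f y ^ 2 := integral_nonneg fun y => sq_nonneg _
    have := mul_le_mul_of_nonneg_right Real.pi_le_four h0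
    nlinarith

end Vale.Agent.P204.Heart
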