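import Vale.Agent.P204.Heart.Energy
import Vale.Agent.P204.Heart.Potential
import Vale.Agent.P204.Heart.Hardy
import Vale.Agent.P204.Heart.Weight
import Vale.Agent.P204.Heart.Approx
import Vale.Agent.P204.Heart.Homotopy
import Vale.Agent.P204.Heart.Compose
import Vale.Agent.P204.Heart.Parametrix

/-!
P204 heart: step 4 in a chart, unconditionally.
-/

namespace Vale.Agent.P204.Heart

theorem energyStmt_holds : EnergyStmt :=
  energyStmt_of_parts potentialStmt_holds splitStmt_holds hardyStmt_holds weightStmt_holds
    (parametrix_of approxStmt_holds weightStmt_holds homotopyStmt_holds composeStmt_holds)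
    approxStmt_holds

end Vale.Agent.P204.Heart
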