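import Vale.Agent.P204.Heart.ParError

/-!
P204, analytic heart: exact correction of the parametrix by the homotopy.
-/

namespace Vale.Agent.P204.Heart

open MeasureTheory Vale.Agent.P204.Full Set Metric
open scoped ContDiff

variable {F : Frame} {σ : ℝ} {B : E4 → C2}

/-- the integral of the error against the kernel of order three -/
lemma error_integral_le {E : E4 → C2} {x : E4} {C1b CC : ℝ} (hσ : 0 < σ) (hC1b0 : 0 ≤ C1b)
    (hCC : 0 < CC) (hEs : ∀ a b, ContDiff ℝ 1 fun u => E u a b) (hx3 : x ∈ cb 3)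
    (hSBc : Continuous fun y => ‖B y‖)
    (hEb : ∀ u ∈ cb 3, ‖E u‖ ≤ 1 + C1b * sing3 4 σ (fun y => ‖B y‖) u)
    (h2 : (∫ u in cb 3, sing3 4 σ (fun y => ‖B y‖) u / ‖x - u‖ ^ 3)
      ≤ CC * potB 4 σ (fun y => ‖B y‖) x) :
    ∫ u in cb 3, ‖E u‖ / ‖x - u‖ ^ 3
      ≤ (8 * powConst 3 + 1) * (1 + C1b * CC) * (1 + potB 4 σ (fun y => ‖B y‖) x) := by
  set SB : E4 → ℝ := fun y => ‖B y‖ with hSB
  set pB := potB 4 σ SB x with hpB
  have hpB0 : 0 ≤ pB := potB_nonneg hσ (fun y _ => norm_nonneg _) x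
  have hpc := powConst_nonneg 3
  have hker : IntegrableOn (fun u => (‖x - u‖ ^ 3)⁻¹) (cb 3) := by
    refine IntegrableOn.mono_set ?_ (t := (fun u => u - x) ⁻¹' ball (0 : E4) 8) fun u hu => by
      simp only [Metric.mem_closedBall, dist_zero_right] at hu hx3
      simp only [mem_preimage, mem_ball_zero_iff]
      linarith [norm_sub_le u x]
    have h8 := ((measurePreserving_sub_right (volume : Measure E4) x).integrableOn_comp_preimage
      (Homeomorph.subRight x).measurableEmbedding).2 (integrableOn_inv_norm_pow 3 le_rfl 8)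
    simp only [Function.comp_def, norm_sub_rev _ x] at h8
    exact h8
  have hsc : Continuous (sing3 4 σ SB) := by
    refine continuous_parametric_integral_of_continuous ?_ (isCompact_closedBall _ _)
    exact (hSBc.comp continuous_snd).div ((((continuous_fst.sub continuous_snd).norm.pow 2).add
      continuous_const).sqrt.pow 3) fun p => (pow_pos (Real.sqrt_pos.2 (sq_add_pos hσ _)) 3).ne'
  have hEc : Continuous fun u => ‖E u‖ :=
    (continuous_pi fun i => continuous_pi fun j => (hEs i j).continuous).norm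
  have i1 : IntegrableOn (fun u => ‖E u‖ / ‖x - u‖ ^ 3) (cb 3) :=
    hker.continuousOn_mul hEc.continuousOn (isCompact_closedBall _ _)
  have i2 : IntegrableOn (fun u => sing3 4 σ SB u / ‖x - u‖ ^ 3) (cb 3) :=
    hker.continuousOn_mul hsc.continuousOn (isCompact_closedBall _ _)
  have h1 : ∫ u in cb 3, ‖E u‖ / ‖x - u‖ ^ 3 ≤ ∫ u in cb 3,
      ((‖x - u‖ ^ 3)⁻¹ + C1b * (sing3 4 σ SB u / ‖x - u‖ ^ 3)) := by
    refine setIntegral_mono_on i1 (hker.add (i2.const_mul C1b)) measurableSet_closedBall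
      fun u hu => ?_
    refine (div_le_div_of_nonneg_right (hEb u hu) (by positivity)).trans (le_of_eq ?_)
    ring
  rw [integral_add hker (i2.const_mul C1b), integral_const_mul] at h1
  have h3 : ∫ u in cb 3, (‖x - u‖ ^ 3)⁻¹ ≤ 8 * powConst 3 := by
    have := setIntegral_shift_le (g := fun z => (‖z‖ ^ 3)⁻¹) (fun z => by positivity)
      (integrableOn_inv_norm_pow 3 le_rfl 8) (S := cb 3) measurableSet_closedBall x
      fun u hu => by
        simp only [Metric.mem_closedBall, dist_zero_right] at hu hx3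
        simp only [mem_ball_zero_iff]
        linarith [norm_sub_le u x]
    rw [integral_inv_norm_pow_ball 3 (by norm_num : (0 : ℝ) < 8)] at this
    simp only [norm_sub_rev _ x] at this
    linarith
  have h4 := mul_le_mul_of_nonneg_left h2 hC1b0
  change _ ≤ C1b * (CC * pB) at h4
  nlinarith [mul_nonneg (mul_nonneg hC1b0 hCC.le) hpB0, mul_nonneg hpc hpB0,
    mul_nonneg hpc (mul_nonneg (mul_nonneg hC1b0 hCC.le) hpB0),
    mul_nonneg hpc (mul_nonneg hC1b0 hCC.le)]

/-- a primitive of a closed form: parametrix plus correction -/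
lemma exists_exact {CH CC CG K0 : ℝ} (hCH : 0 < CH) (hCC : 0 < CC) (hσ : 0 < σ) (hσ1 : σ ≤ 1)
    (hCG : 0 < CG)
    (hHom : ∀ E : E4 → C2, (∀ i j, ContDiff ℝ 1 (fun x => E x i j)) → (∀ x, Anti (E x)) →
      (∀ x ∈ ob 3, ∀ a b c, d2 E x a b c = 0) →
        ∃ A : E4 → C1, (∀ i, ContDiffOn ℝ 1 (fun x => A x i) (ob (5 / 2))) ∧
          (∀ x ∈ ob (5 / 2), d1 A x = E x) ∧
          (∀ x ∈ ob (5 / 2), ‖A x‖ ≤ CH * ∫ y in cb 3, ‖E y‖ / ‖x - y‖ ^ 3))
    (hCom : ∀ (σ : ℝ) (s : E4 → ℝ), 0 < σ → σ ≤ 1 → Continuous s → (∀ x ∈ cb 4, 0 ≤ s x) →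
      ∀ x ∈ cb 3, (∫ u in cb 3, sing3 4 σ s u / ‖x - u‖ ^ 3) ≤ CC * potB 4 σ s x)
    (hG : ∀ y ∈ cb 4, ∀ z : E4,
      (∀ c, |gk F σ c (y, z)| ≤ CG / Real.sqrt (‖z‖ ^ 2 + σ ^ 2) ^ 3) ∧
      (∀ c k, |pdy (gk F σ c) k (y, z)| ≤ CG / Real.sqrt (‖z‖ ^ 2 + σ ^ 2) ^ 3))
    (hK0' : ∀ y i, |pd (fun z => bump34 z) i y| ≤ K0)
    (hB : ∀ i j, ContDiff ℝ 1 fun x => B x i j) (hA : ∀ x, Anti (B x))
    (hcl : ∀ x ∈ ob 4, ∀ a b c, d2 B x a b c = 0)
    (hap : ∀ u ∈ cb 3, ∀ a b, |moll F σ (fun y => B y a b) u - B u a b| ≤ 1) :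
    ∃ A1 : E4 → C1,
      (∀ i, ContDiffOn ℝ 1 (fun x => par F σ B x i + A1 x i) (ob (5 / 2))) ∧
      (∀ x ∈ ob (5 / 2), d1 (fun x i => par F σ B x i + A1 x i) x = B x) ∧
      (∀ x ∈ ob (5 / 2), ‖A1 x‖ ≤ CH * ((8 * powConst 3 + 1) *
        (1 + 4 * CG * (3 * K0 + 3) * CC) * (1 + potB 4 σ (fun y => ‖B y‖) x))) := by
  have hK00 : 0 ≤ K0 := (abs_nonneg _).trans (hK0' 0 0)
  have hSBc : Continuous fun y => ‖B y‖ :=
    (continuous_pi fun i => continuous_pi fun j => (hB i j).continuous).norm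
  set E : E4 → C2 := fun u a b => B u a b - d1 (par F σ B) u a b with hE
  have hpar := contDiff_par (F := F) hσ hB
  have hd1c : ∀ a b, ContDiff ℝ ∞ fun u => d1 (par F σ B) u a b := fun a b =>
    (Op.contDiff_pd (hpar b) a).sub (Op.contDiff_pd (hpar a) b)
  have hEs : ∀ a b, ContDiff ℝ 1 fun u => E u a b := fun a b =>
    (hB a b).sub ((hd1c a b).of_le (mod_cast le_top))
  have hEa : ∀ u, Anti (E u) := fun u a b => by
    have := hA u a b
    simp only [hE, d1] at *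
    linarith
  have hEcl : ∀ u ∈ ob 3, ∀ a b c, d2 E u a b c = 0 := by
    intro u hu a b c
    have hd : ∀ i j k, pd (fun z => E z i j) k u
        = pd (fun z => B z i j) k u - pd (fun z => d1 (par F σ B) z i j) k u := fun i j k =>
      pd_sub' ((hB i j).differentiable one_ne_zero u) ((hd1c i j).differentiable (by simp) u) k
    have h1 := hcl u (ball_subset_ball (by norm_num) hu) a b c
    have h2 := d2_d1_eq_zero hpar u a b c
    simp only [d2] at h1 h2 ⊢
    rw [hd, hd, hd]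
    linarith
  have hEb : ∀ u ∈ cb 3, ‖E u‖ ≤ 1 + 4 * CG * (3 * K0 + 3) * sing3 4 σ (fun y => ‖B y‖) u :=
    fun u hu => par_error_le hσ hCG hG hK0' hB hA hcl (hap u hu)
  obtain ⟨A1, hA1s, hA1d, hA1b⟩ := hHom E hEs hEa hEcl
  refine ⟨A1, fun i => ((hpar i).of_le (mod_cast le_top)).contDiffOn.add (hA1s i), fun x hx => ?_,
    fun x hx => ?_⟩
  · funext a b
    have he := congrFun (congrFun (hA1d x hx) a) b
    have hd : ∀ i j, pd (fun y => par F σ B y i + A1 y i) j x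
        = pd (fun y => par F σ B y i) j x + pd (fun y => A1 y i) j x := fun i j =>
      pd_add' ((hpar i).differentiable (by simp) x)
        (((hA1s i).differentiableOn one_ne_zero).differentiableAt (isOpen_ball.mem_nhds hx)) j
    simp only [hE, d1, hd] at he ⊢
    linarith
  have hx3 : x ∈ cb 3 :=
    closedBall_subset_closedBall (by norm_num) (ball_subset_closedBall hx)
  exact (hA1b x hx).trans (mul_le_mul_of_nonneg_left (error_integral_le hσ (by positivity) hCC hEs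
    hx3 hSBc hEb (hCom σ _ hσ hσ1 hSBc (fun y _ => norm_nonneg _) x hx3)) hCH.le)

end Vale.Agent.P204.Heart
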