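import Vale.Agent.P204.Heart.Hardy
import Vale.Agent.P204.Heart.Frame

/-!
P204, analytic heart: the parametrix of a closed two-form and the bound for its error.
-/

namespace Vale.Agent.P204.Heart

open MeasureTheory Vale.Agent.P204.Full Set Metric
open scoped ContDiff

/-- the cut-off components of a two-form -/
noncomputable def cutB (B : E4 → C2) (a b : Fin 4) : E4 → ℝ := cut34 fun y => B y a b

/-- the parametrix of a two-form -/
noncomputable def par (F : Frame) (σ : ℝ) (B : E4 → C2) (x : E4) : C1 :=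
  fun b => -∑ c, kconv (gk F σ c) (cutB B c b) x

section Bounds

variable {k S : E4 → ℝ} {G : E4 × E4 → ℝ} {σ C : ℝ} {x : E4}

lemma abs_kconv_le_potB (hG : Continuous G) (hk : Continuous k) (hks : HasCompactSupport k)
    (hS : Continuous S) (hσ : 0 < σ) (hk0 : ∀ y ∉ cb 4, k y = 0) (hkS : ∀ y ∈ cb 4, |k y| ≤ S y)
    (hb : ∀ y ∈ cb 4, |G (y, x - y)| ≤ C / (‖x - y‖ ^ 2 + σ ^ 2)) :
    |kconv G k x| ≤ C * potB 4 σ S x := by
  rw [kconv, ← setIntegral_eq_integral_of_forall_compl_eq_zero (s := cb 4)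
    (fun y hy => by rw [hk0 y hy, zero_mul]), potB, ← integral_const_mul]
  refine abs_integral_le_integral_abs.trans (setIntegral_mono_on
    (integrable_kconv hG hk hks x).abs.integrableOn
    ((continuous_const.mul (continuous_ref hS hσ x)).continuousOn.integrableOn_compact
      (isCompact_closedBall _ _)) measurableSet_closedBall fun y hy => ?_)
  rw [abs_mul]
  exact (mul_le_mul (hkS y hy) (hb y hy) (abs_nonneg _) ((abs_nonneg _).trans (hkS y hy))).trans_eq
    (by ring)

lemma abs_kconv_le_sing3 (hG : Continuous G) (hk : Continuous k) (hks : HasCompactSupport k)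
    (hS : Continuous S) (hσ : 0 < σ) (hk0 : ∀ y ∉ cb 4, k y = 0) (hkS : ∀ y ∈ cb 4, |k y| ≤ S y)
    (hb : ∀ y ∈ cb 4, |G (y, x - y)| ≤ C / Real.sqrt (‖x - y‖ ^ 2 + σ ^ 2) ^ 3) :
    |kconv G k x| ≤ C * sing3 4 σ S x := by
  rw [kconv, ← setIntegral_eq_integral_of_forall_compl_eq_zero (s := cb 4)
    (fun y hy => by rw [hk0 y hy, zero_mul]), sing3, ← integral_const_mul]
  refine abs_integral_le_integral_abs.trans (setIntegral_mono_on
    (integrable_kconv hG hk hks x).abs.integrableOn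
    ((continuous_const.mul (continuous_ref3 hS hσ x)).continuousOn.integrableOn_compact
      (isCompact_closedBall _ _)) measurableSet_closedBall fun y hy => ?_)
  rw [abs_mul]
  exact (mul_le_mul (hkS y hy) (hb y hy) (abs_nonneg _) ((abs_nonneg _).trans (hkS y hy))).trans_eq
    (by ring)

end Bounds

lemma pd_eq_zero_outside {f : E4 → ℝ} {y : E4} (hf : ∀ z ∉ cb 4, f z = 0) (hy : y ∉ cb 4)
    (a : Fin 4) : pd f a y = 0 := by
  rw [pd_congr (g := fun _ => (0 : ℝ))]
  · simp [pd]
  · filter_upwards [isClosed_closedBall.isOpen_compl.mem_nhds hy] with z hz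
    exact hf z hz

section Main

variable {F : Frame} {σ : ℝ} {B : E4 → C2}

lemma cutB_zero (a b : Fin 4) {y : E4} (hy : y ∉ cb 4) : cutB B a b y = 0 := cut34_zero _ hy

lemma contDiff_cutB (hB : ∀ i j, ContDiff ℝ 1 fun x => B x i j) (a b : Fin 4) :
    ContDiff ℝ 1 (cutB B a b) :=
  bump34.contDiff.mul (hB a b)

lemma abs_cutB_le (a b : Fin 4) (y : E4) : |cutB B a b y| ≤ ‖B y‖ := by
  rw [cutB, cut34, abs_mul, abs_of_nonneg bump34.nonneg]
  exact (mul_le_of_le_one_left (abs_nonneg _) bump34.le_one).trans (abs_le_norm_C2 _ _ _)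

/-- the differential of the cut-off form is supported where the cut-off varies -/
lemma d2_cutB_le {K : ℝ} (hK : ∀ y i, |pd (fun z => bump34 z) i y| ≤ K)
    (hB : ∀ i j, ContDiff ℝ 1 fun x => B x i j) (hcl : ∀ x ∈ ob 4, ∀ a b c, d2 B x a b c = 0)
    (a b c : Fin 4) (y : E4) :
    |pd (cutB B b c) a y + pd (cutB B c a) b y + pd (cutB B a b) c y| ≤ 3 * K * ‖B y‖ := by
  have hd : ∀ i j k, pd (cutB B i j) k y
      = pd (fun z => bump34 z) k y * B y i j + bump34 y * pd (fun z => B z i j) k y := fun i j k =>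
    pd_mul (bump34.contDiff.differentiable (n := 1) one_ne_zero y)
      ((hB i j).differentiable one_ne_zero y) k
  have h0 : bump34 y * d2 B y a b c = 0 := by
    by_cases hy : y ∈ ob 4
    · rw [hcl y hy, mul_zero]
    · rw [bump34.zero_of_le_dist (by simpa [bump34] using hy), zero_mul]
  have t : ∀ i j k, |pd (fun z => bump34 z) k y * B y i j| ≤ K * ‖B y‖ := fun i j k => by
    rw [abs_mul]
    exact mul_le_mul (hK y k) (abs_le_norm_C2 _ _ _) (abs_nonneg _) ((abs_nonneg _).trans (hK y k))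
  rw [hd, hd, hd, show ∀ p q r p' q' r' : ℝ, (p + p') + (q + q') + (r + r')
      = (p + q + r) + (p' + q' + r') from fun p q r p' q' r' => by ring]
  rw [show bump34 y * pd (fun z => B z b c) a y + bump34 y * pd (fun z => B z c a) b y
      + bump34 y * pd (fun z => B z a b) c y = bump34 y * d2 B y a b c by rw [d2]; ring, h0,
    add_zero]
  refine (abs_add_three _ _ _).trans ?_
  linarith [t b c a, t c a b, t a b c]

lemma contDiff_par (hσ : 0 < σ) (hB : ∀ i j, ContDiff ℝ 1 fun x => B x i j) (b : Fin 4) :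
    ContDiff ℝ ∞ fun x => par F σ B x b :=
  (ContDiff.sum fun c _ => contDiff_kconv (contDiff_gk F hσ c) (contDiff_cutB hB c b).continuous
    (hasCompactSupport_cut34 _)).neg

/-- the exterior derivative of the parametrix -/
lemma d1_par (hσ : 0 < σ) (hB : ∀ i j, ContDiff ℝ 1 fun x => B x i j) (hA : ∀ x, Anti (B x))
    (x : E4) (a b : Fin 4) :
    d1 (par F σ B) x a b
      = moll F σ (fun y => B y a b) x
        + ∑ c, kconv (gk F σ c)
            (fun y => pd (cutB B b c) a y + pd (cutB B c a) b y + pd (cutB B a b) c y) x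
        + ∑ c, (kconv (pdy (gk F σ c) c) (cutB B a b) x
            - kconv (pdy (gk F σ c) a) (cutB B c b) x
            + kconv (pdy (gk F σ c) b) (cutB B c a) x) := by
  have hg := fun c => contDiff_gk F hσ c
  have hw := contDiff_cutB hB
  have hws : ∀ p q, HasCompactSupport (cutB B p q) := fun p q => hasCompactSupport_cut34 _
  have hdp : ∀ b a, pd (fun y => par F σ B y b) a x
      = -∑ c, (kconv (pdy (gk F σ c) a) (cutB B c b) x
          + kconv (gk F σ c) (pd (cutB B c b) a) x) := by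
    intro b a
    have hs : ∀ c, DifferentiableAt ℝ (kconv (gk F σ c) (cutB B c b)) x := fun c =>
      (contDiff_kconv (hg c) (hw c b).continuous (hws c b)).differentiable (by simp) x
    simp only [par, pd, fderiv_fun_neg, fderiv_fun_sum fun c _ => hs c, _root_.neg_apply,
      _root_.sum_apply]
    refine congrArg Neg.neg (Finset.sum_congr rfl fun c _ => ?_)
    rw [← kconv_pdz (hg c) (hw c b) (hws c b) a x,
      ← pd_kconv (hg c) (hw c b).continuous (hws c b) a x, pd]
  have hi : ∀ c p q i, Integrable fun y => pd (cutB B p q) i y * gk F σ c (y, x - y) :=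
    fun c p q i => integrable_kconv (hg c).continuous (continuous_pd (hw p q) i)
      ((hws p q).fderiv_apply ℝ (ev4 i)) x
  have hsplit : ∀ c, kconv (gk F σ c)
        (fun y => pd (cutB B b c) a y + pd (cutB B c a) b y + pd (cutB B a b) c y) x
      = kconv (gk F σ c) (pd (cutB B a b) c) x - kconv (gk F σ c) (pd (cutB B c b) a) x
        + kconv (gk F σ c) (pd (cutB B c a) b) x := by
    intro c
    have hneg : ∀ y, pd (cutB B b c) a y = -pd (cutB B c b) a y := fun y => by
      have : cutB B b c = fun z => -cutB B c b z := funext fun z => by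
        simp only [cutB, cut34, hA z c b]; ring
      rw [this, pd_neg]
    have i1 := hi c a b c
    have i2 := hi c c b a
    have i3 := hi c c a b
    simp only [kconv]
    rw [← integral_sub i1 i2, ← integral_add (i1.sub' i2) i3]
    refine integral_congr_ae (Filter.Eventually.of_forall fun y => ?_)
    simp only [hneg]
    ring
  have hm : moll F σ (fun y => B y a b) x = -∑ c, kconv (pdz (gk F σ c) c) (cutB B a b) x := by
    simp only [kconv]
    rw [← integral_finsetSum _ fun c _ => integrable_kconv (contDiff_pdz (hg c) c).continuous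
      (hw a b).continuous (hws a b) x, moll_eq, kconv, ← integral_neg]
    refine integral_congr_ae (Filter.Eventually.of_forall fun y => ?_)
    show cut34 (fun z => B z a b) y * kk F σ (y, x - y)
      = -∑ c, cutB B a b y * pdz (gk F σ c) c (y, x - y)
    rw [← Finset.mul_sum, div_gk F hσ, cutB, kk]; ring
  rw [hm]
  simp only [d1, hdp, hsplit, kconv_pdz (hg _) (hw a b) (hws a b),
    Finset.sum_add_distrib, Finset.sum_sub_distrib]
  ring

lemma d2_d1_eq_zero {A : E4 → C1} (hA : ∀ i, ContDiff ℝ ∞ fun x => A x i) (x : E4) (a b c : Fin 4) :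
    d2 (d1 A) x a b c = 0 := by
  have hpd : ∀ i j, DifferentiableAt ℝ (pd (fun z => A z i) j) x := fun i j =>
    (Op.contDiff_pd (hA i) j).differentiable (by simp) x
  have hcomm : ∀ i j k, pd (pd (fun z => A z i) j) k x = pd (pd (fun z => A z i) k) j x := by
    intro i j k
    have hf : ∀ j, pd (fun z => A z i) j = fun y => fderiv ℝ (fun z => A z i) y (ev4 j) :=
      fun j => rfl
    have hd : DifferentiableAt ℝ (fderiv ℝ fun z => A z i) x :=
      (((hA i).fderiv_right (m := ∞) le_rfl).differentiable (by simp)) x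
    rw [hf j, hf k]
    simp only [pd, fderiv_clm_apply hd (differentiableAt_const _)]
    have h2 := (hA i).of_le (show (2 : WithTop ℕ∞) ≤ ∞ from WithTop.coe_le_coe.2 le_top)
    simpa using (h2.contDiffAt.isSymmSndFDerivAt
      (by simp)).eq (ev4 k) (ev4 j)
  simp only [d2, d1]
  rw [pd_sub' (hpd c b) (hpd b c), pd_sub' (hpd a c) (hpd c a), pd_sub' (hpd b a) (hpd a b),
    hcomm c b a, hcomm b c a, hcomm a c b]
  ring

lemma frame_lip (F : Frame) :
    ∃ A L : ℝ, 0 ≤ A ∧ 0 ≤ L ∧ (∀ y ∈ cb 4, ∀ i j, |F.P y i j| ≤ A ∧ |(F.P y)⁻¹ i j| ≤ A) ∧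
      ∀ x ∈ cb 4, ∀ y ∈ cb 4, ∀ i j, |F.P y i j - F.P x i j| ≤ L * ‖x - y‖ := by
  have hc := isCompact_closedBall (0 : E4) 4
  have h : ∀ i j, ∃ A L : ℝ, 0 ≤ A ∧ 0 ≤ L ∧
      (∀ y ∈ cb 4, |F.P y i j| ≤ A ∧ |(F.P y)⁻¹ i j| ≤ A) ∧
      ∀ x ∈ cb 4, ∀ y ∈ cb 4, |F.P y i j - F.P x i j| ≤ L * ‖x - y‖ := by
    intro i j
    obtain ⟨A1, h1⟩ := hc.exists_bound_of_continuousOn (F.smooth i j).continuous.continuousOn
    obtain ⟨A2, h2⟩ := hc.exists_bound_of_continuousOn
      (Kernel.contDiff_Pinv F i j).continuous.continuousOn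
    obtain ⟨A3, h3⟩ := hc.exists_bound_of_continuousOn
      ((F.smooth i j).continuous_fderiv (by simp)).continuousOn
    refine ⟨max (max A1 A2) 0, max A3 0, le_max_right _ _, le_max_right _ _, fun y hy =>
      ⟨(h1 y hy).trans ((le_max_left _ _).trans (le_max_left _ _)),
        (h2 y hy).trans ((le_max_right _ _).trans (le_max_left _ _))⟩, fun x hx y hy => ?_⟩
    have h := (convex_closedBall (0 : E4) 4).norm_image_sub_le_of_norm_fderiv_le
      (f := fun y => F.P y i j) (fun w _ => (F.smooth i j).differentiable (by simp) w)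
      (fun w hw => (h3 w hw).trans (le_max_left A3 0)) hx hy
    rwa [Real.norm_eq_abs, norm_sub_rev y x] at h
  choose A L hA hL hb hl using h
  have le : ∀ (T : Fin 4 → Fin 4 → ℝ), (∀ i j, 0 ≤ T i j) → ∀ i j, T i j ≤ ∑ i, ∑ j, T i j :=
    fun T hT i j => (Finset.single_le_sum (fun b _ => hT i b) (Finset.mem_univ j)).trans
      (Finset.single_le_sum (f := fun a => ∑ b, T a b)
        (fun a _ => Finset.sum_nonneg fun b _ => hT a b) (Finset.mem_univ i))
  refine ⟨∑ i, ∑ j, A i j, ∑ i, ∑ j, L i j,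
    Finset.sum_nonneg fun i _ => Finset.sum_nonneg fun j _ => hA i j,
    Finset.sum_nonneg fun i _ => Finset.sum_nonneg fun j _ => hL i j,
    fun y hy i j => ⟨((hb i j y hy).1).trans (le A hA i j), ((hb i j y hy).2).trans (le A hA i j)⟩,
    fun x hx y hy i j => (hl i j x hx y hy).trans
      (mul_le_mul_of_nonneg_right (le L hL i j) (norm_nonneg _))⟩

/-- facts on the cut-off derivatives used twice -/
lemma cutB_cyclic (hB : ∀ i j, ContDiff ℝ 1 fun x => B x i j) (a b c : Fin 4) :
    (Continuous fun y => pd (cutB B b c) a y + pd (cutB B c a) b y + pd (cutB B a b) c y) ∧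
    (∀ y ∉ cb 4, pd (cutB B b c) a y + pd (cutB B c a) b y + pd (cutB B a b) c y = 0) ∧
    HasCompactSupport fun y => pd (cutB B b c) a y + pd (cutB B c a) b y + pd (cutB B a b) c y := by
  have hw := contDiff_cutB hB
  have h0 : ∀ y ∉ cb 4, pd (cutB B b c) a y + pd (cutB B c a) b y + pd (cutB B a b) c y = 0 :=
    fun y hy => by
      simp [pd_eq_zero_outside (fun z => cutB_zero (B := B) b c) hy,
        pd_eq_zero_outside (fun z => cutB_zero (B := B) c a) hy,
        pd_eq_zero_outside (fun z => cutB_zero (B := B) a b) hy]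
  exact ⟨((continuous_pd (hw b c) a).add (continuous_pd (hw c a) b)).add (continuous_pd (hw a b) c),
    h0, HasCompactSupport.intro (isCompact_closedBall _ _) h0⟩

lemma potB_const_mul (c : ℝ) (S : E4 → ℝ) (u : E4) :
    potB 4 σ (fun y => c * S y) u = c * potB 4 σ S u := by
  simp only [potB, mul_div_assoc, integral_const_mul]

lemma sing3_const_mul (c : ℝ) (S : E4 → ℝ) (u : E4) :
    sing3 4 σ (fun y => c * S y) u = c * sing3 4 σ S u := by
  simp only [sing3, mul_div_assoc, integral_const_mul]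

/-- the error of the differential of the parametrix -/
lemma par_error_le {CG K0 : ℝ} (hσ : 0 < σ) (hCG : 0 < CG)
    (hG : ∀ y ∈ cb 4, ∀ z : E4,
      (∀ c, |gk F σ c (y, z)| ≤ CG / Real.sqrt (‖z‖ ^ 2 + σ ^ 2) ^ 3) ∧
      (∀ c k, |pdy (gk F σ c) k (y, z)| ≤ CG / Real.sqrt (‖z‖ ^ 2 + σ ^ 2) ^ 3))
    (hK0' : ∀ y i, |pd (fun z => bump34 z) i y| ≤ K0)
    (hB : ∀ i j, ContDiff ℝ 1 fun x => B x i j) (hA : ∀ x, Anti (B x))
    (hcl : ∀ x ∈ ob 4, ∀ a b c, d2 B x a b c = 0) {u : E4}
    (hap : ∀ a b, |moll F σ (fun y => B y a b) u - B u a b| ≤ 1) :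
    ‖(fun a b => B u a b - d1 (par F σ B) u a b : C2)‖
      ≤ 1 + 4 * CG * (3 * K0 + 3) * sing3 4 σ (fun y => ‖B y‖) u := by
  set SB : E4 → ℝ := fun y => ‖B y‖ with hSB
  have hSBc : Continuous SB :=
    (continuous_pi fun i => continuous_pi fun j => (hB i j).continuous).norm
  have hK00 : 0 ≤ K0 := (abs_nonneg _).trans (hK0' 0 0)
  have hs : 0 ≤ sing3 4 σ SB u :=
    setIntegral_nonneg measurableSet_closedBall fun y _ => div_nonneg (norm_nonneg _) (by positivity)
  have h0 : 0 ≤ 1 + 4 * CG * (3 * K0 + 3) * sing3 4 σ SB u := by positivity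
  have hw := contDiff_cutB hB
  have hws : ∀ p q, HasCompactSupport (cutB B p q) := fun p q => hasCompactSupport_cut34 _
  refine (pi_norm_le_iff_of_nonneg h0).2 fun a => (pi_norm_le_iff_of_nonneg h0).2 fun b => ?_
  rw [Real.norm_eq_abs, d1_par hσ hB hA u a b]
  have t1 : ∀ c, |kconv (gk F σ c)
      (fun y => pd (cutB B b c) a y + pd (cutB B c a) b y + pd (cutB B a b) c y) u|
      ≤ CG * (3 * K0 * sing3 4 σ SB u) := fun c => by
    rw [← sing3_const_mul]
    obtain ⟨hc, hz, hcs⟩ := cutB_cyclic hB a b c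
    exact abs_kconv_le_sing3 (contDiff_gk F hσ c).continuous hc hcs
      (continuous_const.mul hSBc) hσ hz (fun y _ => d2_cutB_le hK0' hB hcl a b c y)
      fun y hy => (hG y hy (u - y)).1 c
  have t2 : ∀ c p q i, |kconv (pdy (gk F σ c) i) (cutB B p q) u| ≤ CG * sing3 4 σ SB u :=
    fun c p q i => abs_kconv_le_sing3 (contDiff_pdy (contDiff_gk F hσ c) i).continuous
      (hw p q).continuous (hws p q) hSBc hσ (fun y hy => cutB_zero p q hy)
      (fun y _ => abs_cutB_le p q y) fun y hy => (hG y hy (u - y)).2 c i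
  have t3 := hap a b
  have e := fun c : Fin 4 => (abs_le.1 (t1 c))
  have f := fun c p q i => (abs_le.1 (t2 c p q i))
  simp only [Fin.sum_univ_four, abs_le] at t3 ⊢
  obtain ⟨_, _⟩ := e 0; obtain ⟨_, _⟩ := e 1; obtain ⟨_, _⟩ := e 2; obtain ⟨_, _⟩ := e 3
  obtain ⟨_, _⟩ := f 0 a b 0; obtain ⟨_, _⟩ := f 1 a b 1; obtain ⟨_, _⟩ := f 2 a b 2
  obtain ⟨_, _⟩ := f 3 a b 3; obtain ⟨_, _⟩ := f 0 0 b a; obtain ⟨_, _⟩ := f 1 1 b a
  obtain ⟨_, _⟩ := f 2 2 b a; obtain ⟨_, _⟩ := f 3 3 b a; obtain ⟨_, _⟩ := f 0 0 a b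
  obtain ⟨_, _⟩ := f 1 1 a b; obtain ⟨_, _⟩ := f 2 2 a b; obtain ⟨_, _⟩ := f 3 3 a b
  have hexp : 4 * CG * (3 * K0 + 3) * sing3 4 σ SB u = 4 * (CG * (3 * K0 * sing3 4 σ SB u))
      + 12 * (CG * sing3 4 σ SB u) := by ring
  rw [hexp]
  constructor <;> linarith

end Main

end Vale.Agent.P204.Heart
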