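import Vale.Agent.P204.Heart.Parametrix
import Vale.Agent.P204.Heart.Approx
import Vale.Agent.P204.Heart.Weight
import Vale.Agent.P204.Heart.Homotopy
import Vale.Agent.P204.Heart.Compose

/-!
P204, analytic heart: the parametrix statement, unconditionally.
-/

namespace Vale.Agent.P204.Heart

theorem parametrixStmt_holds : ParametrixStmt :=
  parametrix_of approxStmt_holds weightStmt_holds homotopyStmt_holds composeStmt_holds

end Vale.Agent.P204.Heart
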